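import Vale.Agent.P095.Full.Specs
import Vale.Agent.P101.Colours
import Vale.Agent.P101.Piece
import Vale.Agent.P101.Orth.Pair
import Vale.Agent.P101.Core.Main

/-!
# P095, all amenable groups: assembly

Equivariant property (SI) applied to an invariant element which is null in all traces but not
killed by a character gives two orthogonal invariant copies of it, which no character allows.
A fixed central algebra without characters contains slots, hence invariant dimension drops.
-/

noncomputable section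

namespace Vale.Agent.P095.Full

universe u v

open Filter Topology BoundedContinuousFunction Vale.Agent.P101 Vale.Agent.P095.Gamma

attribute [local instance] centOrder centStarOrdered

section Calculus

variable {A : Type u} [CStarAlgebra A]

/-- The value at an index, as a star homomorphism. -/
def seqEval (n : ℕ) : (ℕ →ᵇ A) →⋆ₐ[ℂ] A where
  toFun f := f n
  map_one' := rfl
  map_mul' _ _ := rfl
  map_zero' := rfl
  map_add' _ _ := rfl
  commutes' _ := rfl
  map_star' _ := rfl

/-- The real functional calculus, for algebras where instance search does not find it. -/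
def fcalc {B : Type*} [CStarAlgebra B] (h : ℝ → ℝ) (z : B) : B := cfc h z

/-- Star homomorphisms commute with the real functional calculus. -/
theorem hom_cfc {B : Type*} {C : Type*} [CStarAlgebra B] [CStarAlgebra C] (φ : B →⋆ₐ[ℂ] C)
    {h : ℝ → ℝ} (hh : Continuous h) {z : B} (hz : IsSelfAdjoint z) :
    φ (cfc h z) = cfc h (φ z) :=
  StarAlgHom.map_cfc (φ.restrictScalars ℝ) h z hh.continuousOn
    (AddMonoidHomClass.continuous_of_bound φ 1 fun x => by
      simpa only [one_mul] using NonUnitalStarAlgHom.norm_apply_le φ x) hz (hz.map φ)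

theorem cfc_posPart_of_isPos {a : A} (h : IsPos a) : cfc (fun t : ℝ => max t 0) a = a := by
  let _ : PartialOrder A := CStarAlgebra.spectralOrder A
  let _ : StarOrderedRing A := CStarAlgebra.spectralOrderedRing A
  have hsa := IsPos.isSelfAdjoint h
  obtain ⟨w, rfl⟩ := h
  conv_rhs => rw [← cfc_id' ℝ (star w * w) hsa]
  exact cfc_congr fun t ht => max_eq_left (spectrum_nonneg_of_nonneg (star_mul_self_nonneg w) ht)

theorem hom_fcalc {B : Type*} {C : Type*} [CStarAlgebra B] [CStarAlgebra C] (φ : B →⋆ₐ[ℂ] C)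
    {h : ℝ → ℝ} (hh : Continuous h) {z : B} (hz : IsSelfAdjoint z) :
    φ (fcalc h z) = fcalc h (φ z) :=
  hom_cfc φ hh hz

/-- A character on the functional calculus. -/
theorem char_cfc {B : Type*} [CStarAlgebra B] (χ : B →⋆ₐ[ℂ] ℂ) {h : ℝ → ℝ} (hh : Continuous h)
    {z : B} (hz : IsSelfAdjoint z) : χ (cfc h z) = (h (χ z).re : ℂ) := by
  rw [hom_cfc χ hh hz]
  have e : χ z = algebraMap ℝ ℂ (χ z).re := by
    rw [Complex.coe_algebraMap]
    exact (Complex.conj_eq_iff_re.1 (hz.map χ).star_eq).symm
  conv_lhs => rw [e, cfc_algebraMap]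
  rfl

end Calculus

variable {A : Type u} [CStarAlgebra A] {G : Type v} [Group G] (α : G →* (A ≃⋆ₐ[ℂ] A))

/-- Passage from the fixed central algebra to classes of sequences. -/
def fixToQuot (F : Filter ℕ) : centFix α F →⋆ₐ[ℂ] SeqQuot A F :=
  (centSub A F).subtype.comp (centFix α F).subtype

theorem fixToQuot_injective (F : Filter ℕ) : Function.Injective (fixToQuot α F) :=
  fun _ _ h => Subtype.ext (Subtype.ext h)

/-- The functional calculus of a fixed class is represented by that of a representative. -/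
theorem seqMk_cfc (e : centFix α atTop) (E : ℕ →ᵇ A) (hE : seqMk A atTop E = fixToQuot α atTop e)
    (he : IsSelfAdjoint e) (hsa : IsSelfAdjoint E) {h : ℝ → ℝ} (hh : Continuous h) :
    seqMk A atTop (fcalc h E) = fixToQuot α atTop (fcalc h e) := by
  rw [hom_fcalc (seqMk A atTop) hh hsa, hE, hom_fcalc (fixToQuot α atTop) hh he]

theorem tendsto_commutator_of_rep (x : centFix α atTop) {X : ℕ →ᵇ A}
    (hX : seqMk A atTop X = fixToQuot α atTop x) (a : A) :
    Tendsto (fun n => ‖a * X n - X n * a‖) atTop (𝓝 0) := by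
  have h : seqMk A atTop X ∈ centSub A atTop := hX ▸ (x : centSub A atTop).2
  exact mem_centSub.1 h a

theorem tendsto_translate_of_rep (x : centFix α atTop) {X : ℕ →ᵇ A}
    (hX : seqMk A atTop X = fixToQuot α atTop x) (g : G) :
    Tendsto (fun n => ‖α g (X n) - X n‖) atTop (𝓝 0) := by
  refine (seqMk_eq_iff (f := seqComp (α g).toStarAlgHom X) (g := X)).1 ?_
  rw [← seqAct_mk, hX]
  exact congrArg Subtype.val (mem_fixSub.1 x.2 g)

theorem exists_centFix_of_tendsto (S : ℕ →ᵇ A)
    (hc : ∀ a, Tendsto (fun n => ‖a * S n - S n * a‖) atTop (𝓝 0))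
    (hg : ∀ g, Tendsto (fun n => ‖α g (S n) - S n‖) atTop (𝓝 0)) :
    ∃ x : centFix α atTop, seqMk A atTop S = fixToQuot α atTop x :=
  ⟨⟨⟨seqMk A atTop S, mem_centSub.2 hc⟩, mem_fixSub.2 fun g =>
    Subtype.ext (seqMk_eq_iff.2 (hg g))⟩, rfl⟩

/-- No character of the fixed central algebra. -/
theorem isEmpty_centFix (htr : TracialStatement.{u, v}) (hpair : PairStatement.{u, v})
    (hsi : SIStatement.{u, v}) [Nontrivial A] [TopologicalSpace.SeparableSpace A]
    (hs : IsSimpleUnital A) (hn : IsNuclear A)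
    (hdd : HasCentralDimensionDrop A) [Countable G] [DecidableEq G] (hF : IsFolnerGroup G) :
    IsEmpty (centFix α atTop →⋆ₐ[ℂ] ℂ) := by
  classical
  refine ⟨fun χ => ?_⟩
  obtain ⟨e, f, E, F', hE, -, hEF, hχ, -, hτ⟩ := hpair htr A hdd G hF α χ
  change seqMk A atTop E = fixToQuot α atTop e at hE
  have hEpos : ∀ n, IsPos (E n) := fun n => (hEF n).1.1
  have hEsa : IsSelfAdjoint E := by
    ext n
    exact (IsPos.isSelfAdjoint (hEpos n)).star_eq
  have hesa : IsSelfAdjoint e := fixToQuot_injective α atTop <| by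
    rw [map_star, ← hE, ← map_star, hEsa.star_eq]
  set lam := (χ e).re with hlam
  have hcp : Continuous fun t : ℝ => max t 0 := by fun_prop
  have hlam0 : χ e = (max lam 0 : ℝ) := by
    have h1 : fcalc (fun t : ℝ => max t 0) E = E := by
      refine BoundedContinuousFunction.ext fun n => ?_
      show seqEval n (fcalc _ E) = seqEval n E
      rw [hom_fcalc (seqEval n) hcp hEsa]
      exact cfc_posPart_of_isPos (hEpos n)
    have h2 : fcalc (fun t : ℝ => max t 0) e = e := fixToQuot_injective α atTop <| by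
      rw [← seqMk_cfc α e E hE hesa hEsa hcp, h1, hE]
    conv_lhs => rw [← h2]
    exact char_cfc χ hcp hesa
  have hlpos : 0 < lam := by
    by_contra hneg
    exact hχ (by rw [hlam0, max_eq_right (not_lt.1 hneg), Complex.ofReal_zero])
  set η := lam / 2 with hη
  have hη0 : 0 < η := by positivity
  have hcont : Continuous (posCut η) := by unfold posCut; fun_prop
  obtain ⟨q, hq⟩ := exists_surjective_nat G
  obtain ⟨a, ha⟩ := TopologicalSpace.exists_dense_seq A
  let ε : ℕ → ℝ := fun n => 1 / ((n : ℝ) + 1)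
  have hεpos : ∀ n, 0 < ε n := fun n => by positivity
  have hε0 : Tendsto ε atTop (𝓝 0) := tendsto_one_div_add_atTop_nhds_zero_nat
  choose θ T' X' hθ hP using fun n => hsi A hs hn hdd G hF α
    ((Finset.range (n + 1)).image q) ((Finset.range (n + 1)).image a) η hη0 (ε n) (hεpos n)
  let good : ℕ → A → Prop := fun n b =>
    (∀ x ∈ X' n, ‖x * b - b * x‖ ≤ θ n) ∧ (∀ g ∈ T' n, ‖α g b - b‖ ≤ θ n) ∧
      ∀ τ : A →ₗ[ℂ] ℂ, IsTrace A τ → (τ b).re ≤ θ n
  have hgood : ∀ n, ∀ᶠ m in atTop, good n (E m) := fun n => by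
    filter_upwards [(X' n).eventually_all.2 fun x _ =>
      (tendsto_commutator_of_rep α e hE x).eventually (Iic_mem_nhds (hθ n)),
      (T' n).eventually_all.2 fun g _ =>
      (tendsto_translate_of_rep α e hE g).eventually (Iic_mem_nhds (hθ n)),
      hτ (θ n) (hθ n)] with m h1 h2 h3
    exact ⟨h1, h2, fun τ hτ' => (h3 τ hτ').1⟩
  let out : ℕ → ℕ → (Fin 2 → A) → Prop := fun n m s => good n (E m) →
    (∀ i, ∀ x ∈ (Finset.range (n + 1)).image a, ‖x * s i - s i * x‖ ≤ ε n) ∧
    (∀ i, ∀ g ∈ (Finset.range (n + 1)).image q, ‖α g (s i) - s i‖ ≤ ε n) ∧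
    ∀ i j, ‖star (s i) * s j - (if i = j then cfc (posCut η) (E m) else 0)‖ ≤ ε n
  have hstep : ∀ n m, ∃ s : Fin 2 → A, (∀ i, ‖s i‖ ≤ 2) ∧ out n m s := by
    intro n m
    by_cases hg : good n (E m)
    · obtain ⟨s, hs2, hsc, hsg, hss⟩ := hP n (E m) (hEF m).1 hg.1 hg.2.1 hg.2.2
      exact ⟨s, hs2, fun _ => ⟨fun i x hx => (hsc i x hx).1, hsg, hss⟩⟩
    · exact ⟨0, fun i => by simp, fun h => absurd h hg⟩
  choose s hs2 hs' using hstep
  let lev : ℕ → ℕ := fun m => Nat.findGreatest (fun n => good n (E m)) m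
  have hlev : ∀ n, ∀ᶠ m in atTop, n ≤ lev m ∧ good (lev m) (E m) := fun n => by
    filter_upwards [hgood n, eventually_ge_atTop n] with m h1 h2
    exact ⟨Nat.le_findGreatest h2 h1, Nat.findGreatest_spec (P := fun k => good k (E m)) h2 h1⟩
  let S : Fin 2 → (ℕ →ᵇ A) := fun i => bseq (fun m => s (lev m) m i) 2 fun m => hs2 _ _ i
  have hεlev : Tendsto (fun m => ε (lev m)) atTop (𝓝 0) :=
    hε0.comp (tendsto_atTop.2 fun n => (hlev n).mono fun m hm => hm.1)
  have hcent : ∀ i x, Tendsto (fun m => ‖x * S i m - S i m * x‖) atTop (𝓝 0) := by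
    intro i x
    rw [Metric.tendsto_nhds]
    intro r hr
    obtain ⟨p, hp⟩ := ha.exists_dist_lt x (show (0 : ℝ) < r / 8 by positivity)
    rw [dist_eq_norm] at hp
    filter_upwards [hlev p, hεlev.eventually (gt_mem_nhds (half_pos hr))] with m hm hm2
    rw [Real.dist_eq, sub_zero, abs_of_nonneg (norm_nonneg _)]
    show ‖x * s (lev m) m i - s (lev m) m i * x‖ < r
    set z := s (lev m) m i
    have h0 : ‖z‖ ≤ 2 := hs2 _ _ i
    have h1 := (hs' (lev m) m hm.2).1 i (a p)
      (Finset.mem_image_of_mem a (Finset.mem_range_succ_iff.2 hm.1))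
    have e1 : ‖(x - a p) * z‖ ≤ r / 8 * 2 :=
      (norm_mul_le _ _).trans (mul_le_mul hp.le h0 (norm_nonneg _) (by positivity))
    have e2 : ‖z * (x - a p)‖ ≤ 2 * (r / 8) :=
      (norm_mul_le _ _).trans (mul_le_mul h0 hp.le (norm_nonneg _) (by norm_num))
    rw [show x * z - z * x = ((x - a p) * z - z * (x - a p)) + (a p * z - z * a p) by noncomm_ring]
    refine (norm_add_le _ _).trans_lt ?_
    have e3 := norm_sub_le ((x - a p) * z) (z * (x - a p))
    linarith
  have hinv : ∀ i g, Tendsto (fun m => ‖α g (S i m) - S i m‖) atTop (𝓝 0) := by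
    intro i g
    obtain ⟨p, rfl⟩ := hq g
    refine squeeze_zero' (Eventually.of_forall fun m => norm_nonneg _) ?_ hεlev
    filter_upwards [hlev p] with m hm
    exact (hs' (lev m) m hm.2).2.1 i (q p)
      (Finset.mem_image_of_mem q (Finset.mem_range_succ_iff.2 hm.1))
  choose sig hsig using fun i => exists_centFix_of_tendsto α (S i) (hcent i) (hinv i)
  have hrel : ∀ i j, star (sig i) * sig j = if i = j then fcalc (posCut η) e else 0 := by
    intro i j
    refine fixToQuot_injective α atTop ?_
    rw [map_mul, map_star, ← hsig, ← hsig, ← map_star, ← map_mul,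
      apply_ite (fixToQuot α atTop), map_zero, ← seqMk_cfc α e E hE hesa hEsa hcont,
      ← map_zero (seqMk A (atTop : Filter ℕ)), ← apply_ite (seqMk A (atTop : Filter ℕ)),
      seqMk_eq_iff]
    refine squeeze_zero' (Eventually.of_forall fun m => norm_nonneg _) ?_ hεlev
    filter_upwards [hlev 0] with m hm
    have h := (hs' (lev m) m hm.2).2.2 i j
    refine le_trans (le_of_eq (congrArg norm ?_)) h
    have hev : seqEval m (fcalc (posCut η) E) = cfc (posCut η) (E m) := hom_fcalc (seqEval m) hcont hEsa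
    split
    · simp only [S, ← hev]; rfl
    · simp [S]
  have hval : ∀ i j, star (χ (sig i)) * χ (sig j) = if i = j then (η : ℂ) else 0 := by
    intro i j
    rw [← map_star, ← map_mul, hrel]
    split
    · rw [fcalc, char_cfc χ hcont hesa, ← hlam]
      congr 1
      rw [posCut, max_eq_left (by linarith)]
      linarith
    · exact map_zero χ
  have h00 := hval 0 0
  have h11 := hval 1 1
  have h01 := hval 0 1
  rw [if_pos rfl] at h00 h11
  rw [if_neg (by decide)] at h01
  have hne : (η : ℂ) ≠ 0 := Complex.ofReal_ne_zero.2 hη0.ne'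
  rcases mul_eq_zero.1 h01 with h | h
  · exact hne (by rw [← h00, h, zero_mul])
  · exact hne (by rw [← h11, h, mul_zero])

/-- Without characters the fixed central algebra contains dimension drop generators. -/
theorem hasInvariantDimensionDrop_of_isEmpty [TopologicalSpace.SeparableSpace A] [Countable G]
    (hno : IsEmpty (centFix α atTop →⋆ₐ[ℂ] ℂ)) : HasInvariantDimensionDrop A α := by
  obtain ⟨M, δ, x, hδ, hx⟩ := exists_sqZeroFamily (F := centFix α atTop) hno
  obtain ⟨m, hm⟩ := core_of (orthN_of_orth orthStatement.{u})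
    (piece_of_orthN (orthN_of_orth orthStatement.{u})) colours.{u} M δ hδ
  obtain ⟨X, hX, hc, hfix⟩ := exists_translate_slots (fun _ : Unit => (1 : A ≃⋆ₐ[ℂ] A))
    (fun g : G => α g) (sqZeroFamily_coe _ hx) (fun g j => mem_fixSub.1 (x j).2 g) m
  have hslots : IsSlots δ X := ⟨hX, fun s t hst i j => (hc s t hst i j).1⟩
  obtain ⟨y, v, h1, h2, h3⟩ := hm (centFix α atTop) _
    (hslots.codRestrict (centFix α atTop) fun s j => mem_fixSub.2 fun g => hfix s g j)
  obtain ⟨Y, hY⟩ := seqMk_surjective (fixToQuot α atTop y)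
  obtain ⟨V, hV⟩ := seqMk_surjective (fixToQuot α atTop v)
  have e1 := congrArg (fixToQuot α atTop) h1
  have e2 := congrArg (fixToQuot α atTop) h2
  have e3 := congrArg (fixToQuot α atTop) h3
  simp only [map_mul, map_sub, map_star, map_one, map_zero, ← hY, ← hV] at e1 e2 e3
  refine ⟨Y, V, ⟨⟨‖Y‖, Y.norm_coe_le_norm⟩, tendsto_commutator_of_rep α y hY⟩,
    ⟨⟨‖V‖, V.norm_coe_le_norm⟩, tendsto_commutator_of_rep α v hV⟩, ?_, ?_, ?_,
    fun g => ⟨tendsto_translate_of_rep α y hY g, tendsto_translate_of_rep α v hV g⟩⟩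
  · exact (seqMk_eq_zero (f := Y * Y)).1 (by rw [map_mul]; exact e1)
  · refine (seqMk_eq_iff (f := star V * V) (g := 1 - star Y * Y - Y * star Y)).1 ?_
    simp only [map_sub, map_mul, map_star, map_one]
    exact e2
  · refine (seqMk_eq_iff (f := Y * star Y * V) (g := V)).1 ?_
    simp only [map_mul, map_star]
    exact e3

/-- Equivariant Jiang–Su stability for every countable amenable group, given the tracial and the
(SI) statements. -/
theorem amenableStatement_of (htr : TracialStatement.{u, v}) (hpair : PairStatement.{u, v})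
    (hsi : SIStatement.{u, v}) : AmenableStatement.{u, v} :=
  fun _ _ _ _ hs hn hdd _ _ _ _ hF α =>
    hasInvariantDimensionDrop_of_isEmpty α (isEmpty_centFix α htr hpair hsi hs hn hdd hF)

end Vale.Agent.P095.Full
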