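import Vale.Agent.P095.Full.Specs
import Vale.Agent.P101.Final
import Vale.Agent.P101.Piece
import Vale.Agent.P101.Orth.Pair

/-!
# P095, all amenable groups: central bumps

In a simple algebra central bumps do not shrink products, and a central dimension drop gives
almost orthogonal central bumps.
-/

noncomputable section

namespace Vale.Agent.P095.Full

universe u

open Filter Topology BoundedContinuousFunction Vale.Agent.P101

variable {A : Type u} [CStarAlgebra A]

attribute [local instance] centOrder centStarOrdered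

/-- Constant sequences. -/
def bumpConst : A →⋆ₐ[ℂ] SeqQuot A (atTop : Filter ℕ) :=
  (seqMk A atTop).comp
    { toFun := fun a => BoundedContinuousFunction.const ℕ a
      map_one' := rfl
      map_mul' := fun _ _ => rfl
      map_zero' := rfl
      map_add' := fun _ _ => rfl
      commutes' := fun _ => rfl
      map_star' := fun _ => rfl }

theorem bumpConst_apply (a : A) :
    bumpConst a = seqMk A atTop (BoundedContinuousFunction.const ℕ a) := rfl

/-- A class bounded below entrywise has that norm at least. -/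
theorem le_norm_seqMk {f : ℕ →ᵇ A} {c : ℝ} (hf : ∀ᶠ n in (atTop : Filter ℕ), c ≤ ‖f n‖) :
    c ≤ ‖seqMk A atTop f‖ := by
  refine le_of_forall_pos_lt_add fun ε hε => ?_
  obtain ⟨y, hy, hyn⟩ :=
    Submodule.Quotient.norm_mk_lt (S := nullSeq A atTop) (seqMk A atTop f) (half_pos hε)
  have hd : seqMk A atTop y = seqMk A atTop f := hy
  rw [seqMk_eq_iff] at hd
  obtain ⟨n, h1, h2⟩ := (hf.and (hd.eventually (gt_mem_nhds (half_pos hε)))).exists
  have h3 := y.norm_coe_le_norm n
  have h4 := norm_le_norm_sub_add (f n) (y n)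
  rw [norm_sub_rev] at h2
  linarith

/-- Eventual bounds bound the class. -/
theorem norm_seqMk_le_of_eventually {f : ℕ →ᵇ A} {c : ℝ} (hc : 0 ≤ c) (hf : ∀ n, ‖f n‖ ≤ c) :
    ‖seqMk A atTop f‖ ≤ c :=
  (norm_seqMk_le f).trans ((BoundedContinuousFunction.norm_le hc).2 hf)

/-- The top plateau. -/
def topCut (δ t : ℝ) : ℝ := max ((t - (1 - δ)) / δ) 0

/-- A plateau equal to one on the support of `topCut δ`. -/
def topPlateau (δ t : ℝ) : ℝ := min 1 (max ((t - (1 - 2 * δ)) / δ) 0)

theorem topPlateau_mul_topCut {δ : ℝ} (hδ : 0 < δ) (t : ℝ) :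
    topPlateau δ t * topCut δ t = topCut δ t := by
  unfold topPlateau topCut
  rcases le_total t (1 - δ) with h | h
  · rw [max_eq_right (show (t - (1 - δ)) / δ ≤ 0 from
      div_nonpos_of_nonpos_of_nonneg (by linarith) hδ.le), mul_zero]
  · have h1 : 1 ≤ (t - (1 - 2 * δ)) / δ := by rw [le_div_iff₀ hδ]; linarith
    rw [min_eq_left (h1.trans (le_max_left _ _)), one_mul]

theorem abs_one_sub_mul_topPlateau {δ : ℝ} (hδ : 0 < δ) {t : ℝ} (ht : t ≤ 1) :
    |(1 - t) * topPlateau δ t| ≤ 2 * δ := by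
  unfold topPlateau
  rcases le_total t (1 - 2 * δ) with h | h
  · rw [max_eq_right (div_nonpos_of_nonpos_of_nonneg (by linarith) hδ.le), min_eq_right zero_le_one,
      mul_zero, abs_zero]
    linarith
  · rw [abs_of_nonneg (mul_nonneg (by linarith) (le_min zero_le_one (le_max_right _ _)))]
    refine (mul_le_of_le_one_right (by linarith) (min_le_left _ _)).trans ?_
    linarith

section Top

variable {Q : Type*} [CStarAlgebra Q] [PartialOrder Q] [StarOrderedRing Q]

theorem norm_one_sub_mul_topPlateau {x : Q} (hx : 0 ≤ x) (hn : ‖x‖ ≤ 1) {δ : ℝ} (hδ : 0 < δ) :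
    ‖(1 - x) * cfc (topPlateau δ) x‖ ≤ 2 * δ := by
  have hsa : IsSelfAdjoint x := IsSelfAdjoint.of_nonneg hx
  have hc : Continuous (topPlateau δ) := by unfold topPlateau; fun_prop
  have e : (1 - x) * cfc (topPlateau δ) x = cfc (fun t => (1 - t) * topPlateau δ t) x := by
    rw [cfc_mul (fun t : ℝ => 1 - t) _ x (by fun_prop) hc.continuousOn,
      cfc_sub _ _ x (by fun_prop) (by fun_prop), cfc_id' ℝ x hsa, cfc_const_one ℝ x hsa]
  rw [e]
  refine norm_cfc_le (by positivity) fun t ht => ?_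
  refine abs_one_sub_mul_topPlateau hδ ?_
  rcases subsingleton_or_nontrivial Q with hQ | hQ
  · simp [spectrum.of_subsingleton] at ht
  have := spectrum.norm_le_norm_of_mem ht
  rw [Real.norm_eq_abs] at this
  exact (le_abs_self t).trans (this.trans hn)

theorem cfc_topCut_ne_zero [Nontrivial Q] {x : Q} (hx : 0 ≤ x) (hn : ‖x‖ = 1) {δ : ℝ}
    (hδ : 0 < δ) : cfc (topCut δ) x ≠ 0 := by
  have hsa : IsSelfAdjoint x := IsSelfAdjoint.of_nonneg hx
  have h1 : (1 : ℝ) ∈ spectrum ℝ x := by
    have := CStarAlgebra.norm_mem_spectrum_of_nonneg hx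
    rwa [hn] at this
  refine cfc_ne_zero_of_apply_ne_zero hsa (by unfold topCut; fun_prop) h1 ?_
  simp [topCut, hδ.ne']

/-- Commuting positive elements `x, y` with a product of top cuts non-zero have `‖x y x‖` close
to one. -/
theorem le_norm_mul_mul {x y : Q} (hx : 0 ≤ x) (hy : 0 ≤ y) (hxn : ‖x‖ ≤ 1) (hyn : ‖y‖ ≤ 1)
    (hxy : Commute x y) {δ : ℝ} (hδ : 0 < δ) (hz : cfc (topCut δ) x * cfc (topCut δ) y ≠ 0) :
    1 - 6 * δ ≤ ‖x * y * x‖ := by
  set gx := cfc (topCut δ) x with hgx
  set gy := cfc (topCut δ) y with hgy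
  set px := cfc (topPlateau δ) x with hpx
  set py := cfc (topPlateau δ) y with hpy
  have hcp : Continuous (topPlateau δ) := by unfold topPlateau; fun_prop
  have hcg : Continuous (topCut δ) := by unfold topCut; fun_prop
  have ex : px * gx = gx := by
    rw [hpx, hgx, ← cfc_mul _ _ x hcp.continuousOn hcg.continuousOn]
    exact cfc_congr fun t _ => topPlateau_mul_topCut hδ t
  have ey : py * gy = gy := by
    rw [hpy, hgy, ← cfc_mul _ _ y hcp.continuousOn hcg.continuousOn]
    exact cfc_congr fun t _ => topPlateau_mul_topCut hδ t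
  have hgxy : Commute gx y := hxy.cfc_real _
  have hgxgy : Commute gx gy := (hgxy.symm.cfc_real _).symm
  have hgxpy : Commute gx py := (hgxy.symm.cfc_real _).symm
  set z := gx * gy with hz'
  have zx : ‖(1 - x) * z‖ ≤ 2 * δ * ‖z‖ := by
    calc ‖(1 - x) * z‖ = ‖((1 - x) * px) * z‖ := by
          congr 1
          rw [hz', mul_assoc, ← mul_assoc px, ex]
      _ ≤ ‖(1 - x) * px‖ * ‖z‖ := norm_mul_le _ _
      _ ≤ 2 * δ * ‖z‖ :=
          mul_le_mul_of_nonneg_right (norm_one_sub_mul_topPlateau hx hxn hδ) (norm_nonneg _)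
  have zy : ‖(1 - y) * z‖ ≤ 2 * δ * ‖z‖ := by
    calc ‖(1 - y) * z‖ = ‖((1 - y) * py) * z‖ := by
          congr 1
          rw [hz', mul_assoc, ← mul_assoc py, ← hgxpy.eq, mul_assoc gx py gy, ey]
      _ ≤ ‖(1 - y) * py‖ * ‖z‖ := norm_mul_le _ _
      _ ≤ 2 * δ * ‖z‖ :=
          mul_le_mul_of_nonneg_right (norm_one_sub_mul_topPlateau hy hyn hδ) (norm_nonneg _)
  have key : z - x * y * x * z = (1 - x) * z + x * ((1 - y) * z) + x * (y * ((1 - x) * z)) := by
    noncomm_ring
  have hxz : ‖x * ((1 - y) * z)‖ ≤ 2 * δ * ‖z‖ :=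
    (norm_mul_le _ _).trans ((mul_le_of_le_one_left (norm_nonneg _) hxn).trans zy)
  have hxyz : ‖x * (y * ((1 - x) * z))‖ ≤ 2 * δ * ‖z‖ :=
    (norm_mul_le _ _).trans ((mul_le_of_le_one_left (norm_nonneg _) hxn).trans
      ((norm_mul_le _ _).trans ((mul_le_of_le_one_left (norm_nonneg _) hyn).trans zx)))
  have hb : ‖z - x * y * x * z‖ ≤ 6 * δ * ‖z‖ := by
    rw [key]
    refine ((norm_add_le _ _).trans (add_le_add (norm_add_le _ _) le_rfl)).trans ?_
    linarith
  have hm := norm_mul_le (x * y * x) z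
  have hs := norm_sub_norm_le z (x * y * x * z)
  have hp : 0 < ‖z‖ := norm_pos_iff.2 hz
  nlinarith

/-- The image of a norm-one positive element of a simple algebra and a norm-one positive element
commuting with the image. -/
theorem le_norm_map_mul_mul [Nontrivial Q] (ι : A →⋆ₐ[ℂ] Q) (hsimp : IsSimpleUnital A) {a : A}
    (ha : IsPos a) (hxn : ‖ι a‖ = 1) {q : Q} (hq : 0 ≤ q) (hqn : ‖q‖ = 1)
    (hcomm : ∀ b, Commute (ι b) q) {δ : ℝ} (hδ : 0 < δ) : 1 - 6 * δ ≤ ‖ι a * q * ι a‖ := by
  obtain ⟨w, rfl⟩ := ha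
  have hxpos : 0 ≤ ι (star w * w) := by
    rw [map_mul, map_star]
    exact star_mul_self_nonneg _
  have hgx : cfc (topCut δ) (ι (star w * w)) ≠ 0 := cfc_topCut_ne_zero hxpos hxn hδ
  have hgq : cfc (topCut δ) q ≠ 0 := cfc_topCut_ne_zero hq hqn hδ
  have hasa : IsSelfAdjoint (star w * w) := IsSelfAdjoint.star_mul_self w
  have hcont : Continuous (topCut δ) := by unfold topCut; fun_prop
  have hmap : cfc (topCut δ) (ι (star w * w)) = ι (cfc (topCut δ) (star w * w)) :=
    (StarAlgHom.map_cfc (ι.restrictScalars ℝ) (topCut δ) (star w * w) hcont.continuousOn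
      (AddMonoidHomClass.continuous_of_bound ι 1 fun b => by
        simpa only [one_mul] using NonUnitalStarAlgHom.norm_apply_le ι b) hasa (hasa.map ι)).symm
  refine le_norm_mul_mul hxpos hq hxn.le hqn.le (hcomm _) hδ fun h0 => ?_
  rw [hmap] at h0 hgx
  obtain ⟨k, b, c, hbc⟩ := hsimp (cfc (topCut δ) (star w * w)) fun h => hgx (by rw [h, map_zero])
  apply hgq
  have hterm : ∀ i, ι (b i * cfc (topCut δ) (star w * w) * c i) * cfc (topCut δ) q = 0 := fun i => by
    rw [map_mul, map_mul, mul_assoc, ((hcomm (c i)).symm.cfc_real _).symm.eq, ← mul_assoc,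
      mul_assoc (ι (b i)), h0, mul_zero, zero_mul]
  have := Finset.sum_eq_zero (s := Finset.univ) fun i _ => hterm i
  rwa [← Finset.sum_mul, ← map_sum, hbc, map_one, one_mul] at this

end Top

/-- Central bumps do not shrink products in a simple algebra. -/
theorem normProdStatement : NormProdStatement.{u} := by
  intro A _ _ hsimp a ha han ε hε
  by_contra hno
  push Not at hno
  classical
  have : Nonempty A := ⟨0⟩
  obtain ⟨d, hd⟩ := TopologicalSpace.exists_dense_seq A
  let X : ℕ → Finset A := fun n => (Finset.range (n + 1)).image d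
  choose P hP hPn using fun n => hno (X n) (1 / ((n : ℝ) + 1)) (by positivity)
  choose W hW using fun n => (hP n).1
  have hPnorm : ∀ n, ‖P n‖ = 1 := fun n => (hP n).2.1
  let p : ℕ →ᵇ A := bseq P 1 fun n => (hPnorm n).le
  let Q := SeqQuot A (atTop : Filter ℕ)
  let _ : PartialOrder Q := CStarAlgebra.spectralOrder Q
  let _ : StarOrderedRing Q := CStarAlgebra.spectralOrderedRing Q
  have hWn : ∀ n, ‖W n‖ ≤ 1 := fun n => by
    have h := hPnorm n
    rw [hW n, CStarRing.norm_star_mul_self] at h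
    nlinarith [norm_nonneg (W n)]
  set q : Q := seqMk A atTop p with hq
  set x : Q := bumpConst a with hx
  have hqpos : 0 ≤ q := by
    have : p = star (bseq W 1 hWn) * bseq W 1 hWn := by
      ext n; exact hW n
    rw [hq, this, map_mul, map_star]
    exact star_mul_self_nonneg _
  have hqn : ‖q‖ = 1 := le_antisymm
    (norm_seqMk_le_of_eventually zero_le_one fun n => (hPnorm n).le)
    (le_norm_seqMk (Eventually.of_forall fun n => (hPnorm n).ge))
  have hxn : ‖x‖ = 1 := le_antisymm
    (norm_seqMk_le_of_eventually zero_le_one fun _ => han.le)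
    (le_norm_seqMk (Eventually.of_forall fun _ => han.ge))
  have hcomm : ∀ b : A, Commute (bumpConst b) q := by
    intro b
    show bumpConst b * q = q * bumpConst b
    rw [bumpConst_apply, hq, ← map_mul, ← map_mul, seqMk_eq_iff]
    rw [Metric.tendsto_nhds]
    intro τ hτ
    obtain ⟨i, hi⟩ := hd.exists_dist_lt b (show (0 : ℝ) < τ / 8 by positivity)
    filter_upwards [eventually_ge_atTop i,
      tendsto_one_div_add_atTop_nhds_zero_nat.eventually (gt_mem_nhds (half_pos hτ))] with n h1 h2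
    rw [Real.dist_eq, sub_zero, abs_of_nonneg (norm_nonneg _)]
    show ‖b * P n - P n * b‖ < τ
    have h3 : ‖d i * P n - P n * d i‖ ≤ 1 / ((n : ℝ) + 1) :=
      (hP n).2.2 _ (Finset.mem_image.2 ⟨i, Finset.mem_range.2 (by omega), rfl⟩)
    have e : b * P n - P n * b =
        ((b - d i) * P n - P n * (b - d i)) + (d i * P n - P n * d i) := by noncomm_ring
    have e1 : ‖(b - d i) * P n‖ ≤ ‖b - d i‖ := by
      simpa [hPnorm n] using norm_mul_le (b - d i) (P n)
    have e2 : ‖P n * (b - d i)‖ ≤ ‖b - d i‖ := by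
      simpa [hPnorm n] using norm_mul_le (P n) (b - d i)
    have e3 := norm_sub_le ((b - d i) * P n) (P n * (b - d i))
    rw [dist_eq_norm] at hi
    rw [e]
    refine (norm_add_le _ _).trans_lt ?_
    linarith
  have : Nontrivial A := ⟨⟨a, 0, fun h => by rw [h, norm_zero] at han; exact zero_ne_one han⟩⟩
  have : Nontrivial Q := ⟨⟨x, 0, fun h => by rw [h, norm_zero] at hxn; exact zero_ne_one hxn⟩⟩
  have hδ : (0 : ℝ) < ε / 12 := by positivity
  have h6 := le_norm_map_mul_mul bumpConst hsimp ha hxn hqpos hqn hcomm hδ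
  have hup : ‖x * q * x‖ ≤ max 0 (1 - ε) := by
    rw [hx, hq, bumpConst_apply, ← map_mul, ← map_mul]
    exact norm_seqMk_le_of_eventually (le_max_left _ _)
      fun n => ((hPn n).le).trans (le_max_right _ _)
  rcases le_total (1 - ε) 0 with h | h
  · exact absurd (hPn 0) (not_lt.2 (h.trans (norm_nonneg _)))
  · rw [max_eq_right h] at hup
    linarith

/-- A central dimension drop gives almost orthogonal central bumps. -/
theorem orthBumpStatement : OrthBumpStatement.{u} := by
  intro A _ _ _ hdd n X θ hθ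
  classical
  set ω := hyperfilter ℕ
  have hω : (ω : Filter ℕ) ≤ atTop := Nat.hyperfilter_le_atTop
  have he : IsEmpty (centSub A (ω : Filter ℕ) →⋆ₐ[ℂ] ℂ) :=
    ⟨fun φ => no_character_of_dimensionDrop hω hdd (exists_character_of_hom φ)⟩
  obtain ⟨N, δ, hδ, x, hx⟩ := noCharStatement.{u} (centSub A (ω : Filter ℕ)) he
  obtain ⟨m, k, hmk⟩ := orthN_of_orth orthStatement.{u} N n δ hδ
  obtain ⟨S, hS⟩ := exists_slots hx m
  obtain ⟨w, hw0, hwo, hwf⟩ := hmk (centSub A (atTop : Filter ℕ)) S hS
  choose c hc using fun l => CStarAlgebra.nonneg_iff_eq_star_mul_self.1 (hw0 l)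
  choose C hC using fun l => seqMk_surjective (c l : SeqQuot A atTop)
  choose d hd using hwf
  choose D hD using fun l i => seqMk_surjective (d l i : SeqQuot A atTop)
  let W : Fin n → ℕ →ᵇ A := fun l => star (C l) * C l
  have hW : ∀ l, seqMk A atTop (W l) = (w l : SeqQuot A atTop) := fun l => by
    show seqMk A atTop (star (C l) * C l) = _
    rw [map_mul, map_star, hC l, hc l]
    rfl
  have hWc : ∀ l a, Tendsto (fun j => ‖a * W l j - W l j * a‖) atTop (𝓝 0) := fun l =>
    mem_centSub.1 (by rw [hW l]; exact (w l).2)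
  have hWo : ∀ l l', l ≠ l' → Tendsto (fun j => ‖W l j * W l' j‖) atTop (𝓝 0) := fun l l' h => by
    refine (seqMk_eq_zero (f := W l * W l')).1 ?_
    rw [map_mul, hW l, hW l']
    exact congrArg Subtype.val (hwo l l' h)
  have hlow : ∀ l, ∃ κ : ℝ, 0 < κ ∧ ∀ᶠ j in (atTop : Filter ℕ), κ ≤ ‖W l j‖ := by
    intro l
    let Z : ℕ →ᵇ A := ∑ i, star (D l i) * W l * D l i - 1
    have hZ : seqMk A atTop Z = 0 := by
      have e := congrArg Subtype.val (hd l)
      push_cast at e
      simp only [Z, map_sub, map_sum, map_mul, map_star, map_one, hD, hW, sub_eq_zero]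
      exact e
    set R : ℝ := ∑ i, ‖D l i‖ * ‖D l i‖ with hR
    have hR0 : 0 ≤ R := Finset.sum_nonneg fun i _ => mul_self_nonneg _
    refine ⟨1 / (2 * (R + 1)), by positivity, ?_⟩
    filter_upwards [(seqMk_eq_zero.1 hZ).eventually (gt_mem_nhds (show (0 : ℝ) < 1 / 2 by norm_num))]
      with j hj
    have e : Z j = (∑ i, star (D l i j) * W l j * D l i j) - 1 := by
      simp [Z, BoundedContinuousFunction.coe_sum, Finset.sum_apply]
    have h1 : ‖∑ i, star (D l i j) * W l j * D l i j‖ ≤ R * ‖W l j‖ := by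
      rw [hR, Finset.sum_mul]
      refine (norm_sum_le _ _).trans (Finset.sum_le_sum fun i _ => ?_)
      have hi := (D l i).norm_coe_le_norm j
      calc ‖star (D l i j) * W l j * D l i j‖
          ≤ ‖D l i j‖ * ‖W l j‖ * ‖D l i j‖ := by
            refine (norm_mul_le _ _).trans (mul_le_mul_of_nonneg_right ?_ (norm_nonneg _))
            simpa [norm_star] using norm_mul_le (star (D l i j)) (W l j)
        _ ≤ ‖D l i‖ * ‖D l i‖ * ‖W l j‖ := by
            rw [mul_right_comm]
            exact mul_le_mul_of_nonneg_right (mul_le_mul hi hi (norm_nonneg _) (norm_nonneg _))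
              (norm_nonneg _)
    have h2 := norm_le_norm_sub_add (1 : A) (∑ i, star (D l i j) * W l j * D l i j)
    rw [norm_one, norm_sub_rev, ← e] at h2
    rw [div_le_iff₀ (by positivity)]
    nlinarith [norm_nonneg (W l j)]
  choose κ hκ hκW using hlow
  have E1 : ∀ᶠ j in (atTop : Filter ℕ), ∀ l, κ l ≤ ‖W l j‖ := eventually_all.2 hκW
  have E2 : ∀ᶠ j in (atTop : Filter ℕ), ∀ l, ∀ a ∈ X,
      ‖a * W l j - W l j * a‖ < θ * κ l :=
    eventually_all.2 fun l => X.eventually_all.2 fun a _ =>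
      (hWc l a).eventually (gt_mem_nhds (mul_pos hθ (hκ l)))
  have E3 : ∀ᶠ j in (atTop : Filter ℕ), ∀ l l', l ≠ l' →
      ‖W l j * W l' j‖ < θ * (κ l * κ l') :=
    eventually_all.2 fun l => eventually_all.2 fun l' => by
      by_cases h : l = l'
      · exact Eventually.of_forall fun j hne => absurd h hne
      · filter_upwards [(hWo l l' h).eventually
          (gt_mem_nhds (mul_pos hθ (mul_pos (hκ l) (hκ l'))))] with j hj _ using hj
  obtain ⟨j, hj1, hj2, hj3⟩ := (E1.and (E2.and E3)).exists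
  have hpos : ∀ l, 0 < ‖W l j‖ := fun l => (hκ l).trans_le (hj1 l)
  refine ⟨fun l => ((‖W l j‖⁻¹ : ℝ) : ℂ) • W l j, fun l => ⟨?_, ?_, fun a ha => ?_⟩,
    fun l l' h => ?_⟩
  · refine ⟨((Real.sqrt ‖W l j‖⁻¹ : ℝ) : ℂ) • C l j, ?_⟩
    show _ • (star (C l j) * C l j) = _
    rw [star_smul, smul_mul_assoc, mul_smul_comm, smul_smul, Complex.star_def, Complex.conj_ofReal,
      ← Complex.ofReal_mul, Real.mul_self_sqrt (inv_nonneg.2 (norm_nonneg _))]
  · rw [norm_smul, Complex.norm_real, Real.norm_eq_abs, abs_of_pos (inv_pos.2 (hpos l)),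
      inv_mul_cancel₀ (hpos l).ne']
  · rw [mul_smul_comm, smul_mul_assoc, ← smul_sub, norm_smul, Complex.norm_real, Real.norm_eq_abs,
      abs_of_pos (inv_pos.2 (hpos l)), inv_mul_le_iff₀ (hpos l)]
    nlinarith [hj2 l a ha, hj1 l]
  · rw [smul_mul_assoc, mul_smul_comm, smul_smul, norm_smul, ← Complex.ofReal_mul,
      Complex.norm_real, Real.norm_eq_abs, ← mul_inv,
      abs_of_pos (inv_pos.2 (mul_pos (hpos l) (hpos l'))),
      inv_mul_le_iff₀ (mul_pos (hpos l) (hpos l'))]
    have := mul_le_mul (hj1 l) (hj1 l') (hκ l').le (hpos l).le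
    nlinarith [hj3 l l' h]

end Vale.Agent.P095.Full
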