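import Vale.Agent.P095.Full.Defs

/-!
# P095, all amenable groups: products of the local elements

`glue c d r = ∑ₗᵢ dₗᵢ rₗ cₗᵢ`. If the `bₗ`, which fix the `rₗ`, excise `ω` and are almost orthogonal,
then `(glue r)* x (glue r)` is `E` times the Glimm map of `x`.
-/

noncomputable section

namespace Vale.Agent.P095.Full

universe u

variable {A : Type u} [CStarAlgebra A] {L N : ℕ}

/-- The local element. -/
def glue (c d : Fin L → Fin N → A) (r : Fin L → A) : A :=
  ∑ p : Fin L × Fin N, d p.1 p.2 * r p.1 * c p.1 p.2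

/-- The total norm of the coefficients. -/
def coeffNorm (c : Fin L → Fin N → A) : ℝ := ∑ p : Fin L × Fin N, ‖c p.1 p.2‖

theorem coeffNorm_nonneg (c : Fin L → Fin N → A) : 0 ≤ coeffNorm c :=
  Finset.sum_nonneg fun _ _ => norm_nonneg _

theorem norm_sum_triple_le (c : Fin L → Fin N → A) (e : Fin L × Fin N → Fin L × Fin N → A) {δ : ℝ}
    (h : ∀ p q, ‖e p q‖ ≤ ‖c p.1 p.2‖ * δ * ‖c q.1 q.2‖) :
    ‖∑ p, ∑ q, e p q‖ ≤ coeffNorm c ^ 2 * δ := by
  refine (norm_sum_le _ _).trans ((Finset.sum_le_sum fun p _ => (norm_sum_le _ _).trans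
    (Finset.sum_le_sum fun q _ => h p q)).trans (le_of_eq ?_))
  rw [coeffNorm, sq, Finset.sum_mul, Finset.sum_mul]
  refine Finset.sum_congr rfl fun p _ => ?_
  rw [Finset.mul_sum, Finset.sum_mul]
  exact Finset.sum_congr rfl fun q _ => by ring

/-- Almost orthogonal excising elements: the cross term. -/
theorem norm_glue_cross_le (β : A →⋆ₐ[ℂ] A) (c d : Fin L → Fin N → A) (r r' b b' : Fin L → A)
    (x : A) {δ : ℝ} (hδ : 0 ≤ δ) (hb : ∀ l, star (b l) = b l)
    (hr : ∀ l, b l * r l = r l) (hr' : ∀ l, b' l * r' l = r' l)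
    (hn : ∀ l, ‖r l‖ ≤ 1) (hn' : ∀ l, ‖r' l‖ ≤ 1)
    (hz : ∀ p q : Fin L × Fin N,
      ‖b p.1 * (star (d p.1 p.2) * x * β (d q.1 q.2)) * β (b' q.1)‖ ≤ δ) :
    ‖star (glue c d r) * x * β (glue c d r')‖ ≤ coeffNorm c ^ 2 * δ := by
  unfold glue
  simp only [star_sum, map_sum, Finset.sum_mul, Finset.mul_sum]
  rw [Finset.sum_comm]
  refine norm_sum_triple_le c _ fun p q => ?_
  rw [star_mul, star_mul, map_mul, map_mul]
  have e1 : star (r p.1) = star (r p.1) * b p.1 := by
    conv_lhs => rw [← hr p.1]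
    rw [star_mul, hb]
  have e2 : β (r' q.1) = β (b' q.1) * β (r' q.1) := by rw [← map_mul, hr']
  rw [e1, e2, show star (c p.1 p.2) * (star (r p.1) * b p.1 * star (d p.1 p.2)) * x *
      (β (d q.1 q.2) * (β (b' q.1) * β (r' q.1)) * β (c q.1 q.2)) =
      star (c p.1 p.2) * (star (r p.1) *
        (b p.1 * (star (d p.1 p.2) * x * β (d q.1 q.2)) * β (b' q.1)) * β (r' q.1)) *
        β (c q.1 q.2) by noncomm_ring]
  refine norm_mul₃_le.trans ?_
  rw [norm_star]
  gcongr
  · refine norm_mul₃_le.trans ?_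
    calc _ ≤ 1 * δ * 1 := by
          gcongr
          · rw [norm_star]; exact hn _
          · exact hz p q
          · exact (NonUnitalStarAlgHom.norm_apply_le β _).trans (hn' _)
      _ = δ := by ring
  · exact NonUnitalStarAlgHom.norm_apply_le β _

/-- Almost orthogonal excising elements: the diagonal term. -/
theorem norm_glue_diag_le (ω : A →ₗ[ℂ] ℂ) (c d : Fin L → Fin N → A) (r b : Fin L → A) (E x : A)
    {δ εE : ℝ} (hδ : 0 ≤ δ) (hb : ∀ l, star (b l) = b l) (hr : ∀ l, b l * r l = r l)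
    (hn : ∀ l, ‖r l‖ ≤ 1) (hE : ∀ l, star (r l) * r l = E)
    (hc : ∀ l i, ‖star (c l i) * E - E * star (c l i)‖ ≤ εE)
    (hz : ∀ p q : Fin L × Fin N, ‖b p.1 * (star (d p.1 p.2) * x * d q.1 q.2) * b q.1 -
      (if p.1 = q.1 then ω (star (d p.1 p.2) * x * d q.1 q.2) • (b p.1 * b p.1) else 0)‖ ≤ δ) :
    ‖star (glue c d r) * x * glue c d r -
        E * ∑ l, ∑ i, ∑ j, ω (star (d l i) * x * d l j) • (star (c l i) * c l j)‖ ≤
      coeffNorm c ^ 2 * δ +
        (∑ l, ∑ i, ∑ j, ‖ω (star (d l i) * x * d l j)‖ * ‖c l j‖) * εE := by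
  set M := ∑ p : Fin L × Fin N, ∑ q : Fin L × Fin N,
    (if p.1 = q.1 then ω (star (d p.1 p.2) * x * d q.1 q.2) •
      (star (c p.1 p.2) * E * c q.1 q.2) else 0) with hM
  have h1 : ‖star (glue c d r) * x * glue c d r - M‖ ≤ coeffNorm c ^ 2 * δ := by
    unfold glue
    simp only [hM, star_sum, Finset.sum_mul, Finset.mul_sum]
    rw [Finset.sum_comm, ← Finset.sum_sub_distrib]
    simp only [← Finset.sum_sub_distrib]
    refine norm_sum_triple_le c _ fun p q => ?_
    have e0 : star (r p.1) = star (r p.1) * b p.1 := by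
      conv_lhs => rw [← hr p.1]
      rw [star_mul, hb]
    have e1 : (if p.1 = q.1 then ω (star (d p.1 p.2) * x * d q.1 q.2) •
        (star (c p.1 p.2) * E * c q.1 q.2) else 0) = star (c p.1 p.2) * (star (r p.1) *
        (if p.1 = q.1 then ω (star (d p.1 p.2) * x * d q.1 q.2) • (b p.1 * b p.1) else 0) *
          r q.1) * c q.1 q.2 := by
      split_ifs with h
      · rw [← h, mul_smul_comm, smul_mul_assoc, mul_smul_comm, smul_mul_assoc,
          show star (r p.1) * (b p.1 * b p.1) * r p.1 = star (r p.1) * b p.1 * (b p.1 * r p.1) by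
            simp only [mul_assoc], ← e0, hr, hE]
      · simp
    rw [e1, star_mul, star_mul, e0, ← hr q.1,
      show star (c p.1 p.2) * (star (r p.1) * b p.1 * star (d p.1 p.2)) * x *
          (d q.1 q.2 * (b q.1 * r q.1) * c q.1 q.2) = star (c p.1 p.2) * (star (r p.1) *
            (b p.1 * (star (d p.1 p.2) * x * d q.1 q.2) * b q.1) * r q.1) * c q.1 q.2 by
        noncomm_ring, ← e0, hr, ← sub_mul, ← mul_sub, ← sub_mul, ← mul_sub]
    refine norm_mul₃_le.trans ?_
    rw [norm_star]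
    gcongr
    refine norm_mul₃_le.trans ?_
    calc _ ≤ 1 * δ * 1 := by
          gcongr
          · rw [norm_star]; exact hn _
          · exact hz p q
          · exact hn _
      _ = δ := by ring
  have h2 : M = ∑ l, ∑ i, ∑ j,
      ω (star (d l i) * x * d l j) • (star (c l i) * E * c l j) := by
    simp only [hM, Fintype.sum_prod_type]
    refine Finset.sum_congr rfl fun l _ => Finset.sum_congr rfl fun i _ => ?_
    rw [Finset.sum_comm]
    exact Finset.sum_congr rfl fun j _ => Fintype.sum_ite_eq l _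
  have h3 : ‖M - E * ∑ l, ∑ i, ∑ j, ω (star (d l i) * x * d l j) • (star (c l i) * c l j)‖ ≤
      (∑ l, ∑ i, ∑ j, ‖ω (star (d l i) * x * d l j)‖ * ‖c l j‖) * εE := by
    simp only [h2, Finset.mul_sum, ← Finset.sum_sub_distrib, Finset.sum_mul]
    refine (norm_sum_le _ _).trans (Finset.sum_le_sum fun l _ => (norm_sum_le _ _).trans
      (Finset.sum_le_sum fun i _ => (norm_sum_le _ _).trans (Finset.sum_le_sum fun j _ => ?_)))
    rw [mul_smul_comm, ← smul_sub, norm_smul, ← mul_assoc, ← sub_mul]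
    refine (mul_le_mul_of_nonneg_left ?_ (norm_nonneg _)).trans (mul_assoc _ _ _).ge
    refine (norm_mul_le _ _).trans ?_
    rw [mul_comm]
    exact mul_le_mul_of_nonneg_left (hc l i) (norm_nonneg _)
  refine (norm_sub_le_norm_sub_add_norm_sub _ M _).trans ?_
  linarith

/-- From almost exact compressions of `x* x`, `x*`, `x`, `1` to a small commutator. -/
theorem norm_commutator_le (s E x : A) {ε : ℝ}
    (h1 : ‖star s * (star x * x) * s - E * (star x * x)‖ ≤ ε)
    (h2 : ‖star s * star x * s - E * star x‖ ≤ ε) (h3 : ‖star s * x * s - E * x‖ ≤ ε)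
    (h4 : ‖star s * s - E‖ ≤ ε) :
    ‖x * s - s * x‖ ^ 2 ≤ ε * (1 + ‖x‖) ^ 2 := by
  rw [sq, ← CStarRing.norm_star_mul_self,
    show star (x * s - s * x) * (x * s - s * x) =
      (star s * (star x * x) * s - E * (star x * x)) - (star s * star x * s - E * star x) * x -
        star x * (star s * x * s - E * x) + star x * (star s * s - E) * x by
      simp only [star_sub, star_mul, sub_mul, mul_sub, mul_assoc]; abel]
  calc _ ≤ ε + ε * ‖x‖ + ‖x‖ * ε + ‖x‖ * ε * ‖x‖ := by
        refine (norm_add_le _ _).trans (add_le_add ((norm_sub_le _ _).trans (add_le_add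
          ((norm_sub_le _ _).trans (add_le_add h1 ?_)) ?_)) ?_)
        · exact (norm_mul_le _ _).trans (mul_le_mul_of_nonneg_right h2 (norm_nonneg _))
        · refine (norm_mul_le _ _).trans ?_
          rw [norm_star]
          exact mul_le_mul_of_nonneg_left h3 (norm_nonneg _)
        · refine norm_mul₃_le.trans ?_
          rw [norm_star]
          gcongr
    _ = _ := by ring

end Vale.Agent.P095.Full
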