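import Vale.Agent.P095.Full.Specs
import Vale.Agent.P095.Compare.Specs
import Vale.Agent.P101.Cuntz.Basic

/-!
# P095, all amenable groups: the transfer elements

An element small in all traces moves below any fixed non-zero `a ^ 2`, inside the fixed points of
any `b` with `b a = a`.
-/

noncomputable section

namespace Vale.Agent.P095.Full

universe u

open Gamma Vale.Agent.P101

variable {A : Type u} [CStarAlgebra A]

theorem continuous_posCut (η : ℝ) : Continuous (posCut η) := by unfold posCut; fun_prop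

theorem norm_cfc_posCut_le [Nontrivial A] {e : A} {η : ℝ} (hη : 0 ≤ η) (he : ‖e‖ ≤ 1) :
    ‖cfc (posCut η) e‖ ≤ 1 :=
  norm_cfc_le zero_le_one fun t ht => by
    have h := (spectrum.norm_le_norm_of_mem ht).trans he
    rw [Real.norm_eq_abs] at h
    rw [Real.norm_eq_abs, posCut, abs_of_nonneg (le_max_right _ _)]
    exact max_le (by linarith [le_abs_self t]) zero_le_one

/-- The transfer element, uniformly in the element that is small in all traces. -/
theorem exists_transfer [Nontrivial A] [TopologicalSpace.SeparableSpace A]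
    (hcmp : Compare.CompareStatement.{u}) (hA : IsSimpleUnital A) (hN : IsNuclear A)
    (hdd : HasCentralDimensionDrop A) {a b : A} (ha : IsPos a) (ha1 : ‖a‖ = 1) (hba : b * a = a)
    {η : ℝ} (hη : 0 < η) :
    ∃ θ : ℝ, 0 < θ ∧ ∀ e : A, IsPosContraction e →
      (∀ τ : A →ₗ[ℂ] ℂ, IsTrace A τ → (τ e).re ≤ θ) →
        ∃ r : A, star r * r = cfc (posCut η) e ∧ b * r = r ∧ ‖r‖ ≤ 1 := by
  let _ : PartialOrder A := CStarAlgebra.spectralOrder A
  have : StarOrderedRing A := CStarAlgebra.spectralOrderedRing A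
  have has : star a = a := ha.isSelfAdjoint.star_eq
  set B := a * a with hB
  have hB0 : 0 ≤ B := by simpa [has] using star_mul_self_nonneg a
  have hBn : ‖B‖ = 1 := by
    have h := CStarRing.norm_star_mul_self (x := a)
    rwa [has, ha1, mul_one] at h
  set K := cfc (posCut (1 / 2)) B with hK
  have hKne : K ≠ 0 := fun h => by
    have h1 := Cuntz.norm_cut_sub' hB0 (show (0 : ℝ) ≤ 1 / 2 by norm_num)
    rw [show Cuntz.cut B (1 / 2) = 0 from h, zero_sub, norm_neg, hBn] at h1
    norm_num at h1
  have hK0 : IsPos K :=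
    CStarAlgebra.nonneg_iff_eq_star_mul_self.1 (Cuntz.cut_nonneg B (1 / 2))
  obtain ⟨θ, hθ, hc⟩ := hcmp A hA hN hdd K hK0 hKne η hη
  refine ⟨θ, hθ, fun e he hτ => ?_⟩
  obtain ⟨r, c, hr, hrr⟩ := hc e he hτ
  refine ⟨r, hrr, ?_, ?_⟩
  · set J : ℝ → ℝ := fun t => (max t (1 / 2))⁻¹ * posCut (1 / 2) t with hJ
    have hJc : Continuous J :=
      (Continuous.inv₀ (by fun_prop) fun t =>
        (lt_of_lt_of_le (show (0 : ℝ) < 1 / 2 by norm_num) (le_max_right t _)).ne').mul
        (continuous_posCut _)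
    have hBK : B * cfc J B = K := by
      conv_lhs => enter [1]; rw [← cfc_id' ℝ B (IsSelfAdjoint.of_nonneg hB0)]
      rw [← cfc_mul (fun t : ℝ => t) J B continuousOn_id hJc.continuousOn, hK]
      refine cfc_congr fun t _ => ?_
      show t * ((max t (1 / 2))⁻¹ * posCut (1 / 2) t) = posCut (1 / 2) t
      rcases le_total t (1 / 2) with h | h
      · rw [posCut, max_eq_right (sub_nonpos.2 h), mul_zero, mul_zero]
      · rw [max_eq_left h, ← mul_assoc, mul_inv_cancel₀ (by linarith : t ≠ 0), one_mul]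
    have hbK : b * K = K := by rw [← hBK, ← mul_assoc, hB, ← mul_assoc b, hba]
    rw [hr, ← mul_assoc, hbK]
  · have h : ‖r‖ * ‖r‖ ≤ 1 := by
      rw [← CStarRing.norm_star_mul_self, hrr]
      exact norm_cfc_posCut_le hη.le he.2
    nlinarith [norm_nonneg r]

end Vale.Agent.P095.Full
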