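import Vale.Agent.P095.Full.CombineTools
import Vale.Agent.P095.Full.CombineTransfer
import Vale.Agent.P095.Full.CombineLocal

/-!
# P095, all amenable groups: equivariant property (SI)

Local elements built from nuclearity, an excised state, almost orthogonal excising elements and
comparison, averaged with Følner weights over the cosets of the trivially acting subgroup.
-/

noncomputable section

namespace Vale.Agent.P095.Full

universe u v

open Gamma

variable {A : Type u} [CStarAlgebra A]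

theorem aut_real_smul (g : A ≃⋆ₐ[ℂ] A) (w : ℝ) (x : A) : g (w • x) = w • g x := by
  rw [← Complex.coe_smul w x, map_smul, Complex.coe_smul]

/-- A member of a finite family is bounded by the sum. -/
theorem norm_le_coeffNorm {L N : ℕ} (c : Fin L → Fin N → A) (p : Fin L × Fin N) :
    ‖c p.1 p.2‖ ≤ coeffNorm c :=
  Finset.single_le_sum (f := fun p : Fin L × Fin N => ‖c p.1 p.2‖)
    (fun _ _ => norm_nonneg _) (Finset.mem_univ p)

/-- What the averaging step needs of the two local elements. -/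
def LocalStatement : Prop :=
  ∀ (A : Type u) [CStarAlgebra A] [Nontrivial A] [TopologicalSpace.SeparableSpace A],
    IsSimpleUnital A → IsNuclear A → Vale.Agent.P101.HasCentralDimensionDrop A →
      ∀ (G : Type v) [Group G] (α : G →* (A ≃⋆ₐ[ℂ] A)) (Tp : Finset G) (X₁ : Finset A) (η : ℝ),
        0 < η → ∀ εs : ℝ, 0 < εs → ∃ (θ : ℝ) (X' : Finset A), 0 < θ ∧
          ∀ e : A, IsPosContraction e → (∀ x ∈ X', ‖x * e - e * x‖ ≤ θ) →
            (∀ τ : A →ₗ[ℂ] ℂ, IsTrace A τ → (τ e).re ≤ θ) →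
            ∃ s : Fin 2 → A,
              (∀ i j, ∀ x ∈ X₁,
                ‖star (s i) * x * s j - (if i = j then cfc (posCut η) e * x else 0)‖ ≤ εs) ∧
              ∀ t ∈ Tp, ¬ActsTrivially α t → ∀ i j, ‖star (s i) * α t (s j)‖ ≤ εs

/-- The local elements. -/
theorem localStatement_of (hg : GlimmStatement.{u}) (hex : ExcisionStatement.{u})
    (hprep : PreparedStatement.{u, v}) (hcmp : Compare.CompareStatement.{u}) :
    LocalStatement.{u, v} := by
  intro A _ _ _ hA hN hdd G _ α Tp X₁ η hη εs hεs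
  classical
  obtain ⟨ω, hω, hω1, hωex⟩ := hex A
  obtain ⟨L, N, c, d, hcd⟩ := hg A hA hN ω hω hω1 X₁ (εs / 4) (by positivity)
  set M := coeffNorm c + coeffNorm d + 1 with hM
  have hcn := coeffNorm_nonneg c
  have hdn := coeffNorm_nonneg d
  have hcM : ∀ l i, ‖c l i‖ ≤ M := fun l i => by linarith [norm_le_coeffNorm c (l, i)]
  have hM0 : 0 < M := by linarith
  set P := (Finset.univ : Finset (Fin L × Fin N))
  set Z := (X₁ ×ˢ P ×ˢ P).image
      (fun t => star (d t.2.1.1 t.2.1.2) * t.1 * d t.2.2.1 t.2.2.2) ∪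
    (Tp ×ˢ P ×ˢ P).image
      (fun t => star (d t.2.1.1 t.2.1.2) * 1 * α t.1 (d t.2.2.1 t.2.2.2)) with hZ
  set δz := εs / (4 * M ^ 2) with hδz
  have hδz0 : 0 < δz := by positivity
  have hMδ : coeffNorm c ^ 2 * δz ≤ εs / 4 := by
    calc coeffNorm c ^ 2 * δz ≤ M ^ 2 * δz := by gcongr; linarith
      _ = εs / 4 := by rw [hδz]; field_simp
  obtain ⟨a, b, hab, hbb, hbT⟩ := hprep A hA hdd ω hω hω1 hωex G α (2 * L) Z Tp δz hδz0
  choose θm hθm hr using fun m =>
    exists_transfer hcmp hA hN hdd (hab m).1.1 (hab m).2.1 (hab m).2.2.2 hη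
  set W := ∑ x ∈ X₁, ∑ l, ∑ i, ∑ j, ‖ω (star (d l i) * x * d l j)‖ * ‖c l j‖ with hW
  have hW0 : 0 ≤ W := by positivity
  set εE := εs / (4 * (W + 1)) with hεE
  obtain ⟨δ₁, hδ₁, k₁⟩ := exists_cfc_near (A := A) (continuous_posCut η) 1 (C := M)
    (ε := εE) (by positivity) (by positivity)
  obtain ⟨θ, hθ0, hθ1, hθ2⟩ : ∃ θ : ℝ, 0 < θ ∧ θ ≤ δ₁ ∧ ∀ m, θ ≤ θm m := by
    refine ⟨(insert δ₁ (Finset.univ.image θm)).min' (Finset.insert_nonempty _ _), ?_,
      Finset.min'_le _ _ (Finset.mem_insert_self _ _), fun m => Finset.min'_le _ _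
        (Finset.mem_insert_of_mem (Finset.mem_image_of_mem _ (Finset.mem_univ m)))⟩
    rw [Finset.lt_min'_iff]
    intro y hy
    rcases Finset.mem_insert.1 hy with rfl | hy
    · exact hδ₁
    · obtain ⟨m, -, rfl⟩ := Finset.mem_image.1 hy
      exact hθm m
  refine ⟨θ, P.image (fun p => star (c p.1 p.2)), hθ0, fun e he hX hτ => ?_⟩
  set E := cfc (posCut η) e with hE
  have hes := he.1.isSelfAdjoint
  have hEc : ∀ l i, ‖star (c l i) * E - E * star (c l i)‖ ≤ εE := fun l i => by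
    refine k₁ e e _ hes hes he.2 he.2 (by rw [norm_star]; exact hcM l i) ?_
    exact (hX _ (Finset.mem_image.2 ⟨(l, i), Finset.mem_univ _, rfl⟩)).trans hθ1
  choose r hrE hbr hr1 using fun m => hr m e he fun τ hτ' => (hτ τ hτ').trans (hθ2 m)
  have hbs : ∀ m, star (b m) = b m := fun m => (hab m).2.2.1.1.isSelfAdjoint.star_eq
  set κ := fun (k : Fin 2) (l : Fin L) => finProdFinEquiv (k, l) with hκ
  have hκi : ∀ k l k' l', κ k l = κ k' l' → k = k' ∧ l = l' := fun k l k' l' h =>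
    Prod.mk.injEq _ _ _ _ ▸ finProdFinEquiv.injective h
  refine ⟨fun k => glue c d fun l => r (κ k l), fun i j x hx => ?_, fun t ht hnt' i j => ?_⟩
  · have hzmem : ∀ p q : Fin L × Fin N, star (d p.1 p.2) * x * d q.1 q.2 ∈ Z := fun p q =>
      Finset.mem_union_left _ (Finset.mem_image.2 ⟨(x, p, q), by simp [hx, P], rfl⟩)
    by_cases hij : i = j
    · subst hij
      rw [if_pos rfl]
      have h := norm_glue_diag_le ω c d (fun l => r (κ i l)) (fun l => b (κ i l)) E x hδz0.le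
        (fun l => hbs _) (fun l => hbr _) (fun l => hr1 _) (fun l => hrE _) hEc (fun p q => by
          have h := hbb (κ i p.1) (κ i q.1) _ (hzmem p q)
          by_cases hpq : p.1 = q.1
          · rw [if_pos hpq]
            rwa [if_pos (by rw [hpq])] at h
          · rw [if_neg hpq]
            rwa [if_neg fun h' => hpq (hκi _ _ _ _ h').2] at h)
      set Φ := ∑ l, ∑ i, ∑ j, ω (star (d l i) * x * d l j) • (star (c l i) * c l j) with hΦ
      have h1 : ‖E * Φ - E * x‖ ≤ εs / 4 := by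
        rw [← mul_sub]
        refine (norm_mul_le _ _).trans ?_
        calc _ ≤ 1 * (εs / 4) := mul_le_mul (norm_cfc_posCut_le hη.le he.2)
              (by rw [norm_sub_rev]; exact hcd x hx) (norm_nonneg _) zero_le_one
          _ = εs / 4 := one_mul _
      have h2 : (∑ l, ∑ i, ∑ j, ‖ω (star (d l i) * x * d l j)‖ * ‖c l j‖) * εE ≤ εs / 4 := by
        calc _ ≤ W * εE := by
              refine mul_le_mul_of_nonneg_right ?_ (by positivity)
              exact Finset.single_le_sum (f := fun x => ∑ l, ∑ i, ∑ j,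
                ‖ω (star (d l i) * x * d l j)‖ * ‖c l j‖) (fun _ _ => by positivity) hx
          _ ≤ (W + 1) * εE := by gcongr; linarith
          _ = εs / 4 := by rw [hεE]; field_simp
      refine (norm_sub_le_norm_sub_add_norm_sub _ (E * Φ) _).trans ?_
      linarith
    · rw [if_neg hij, sub_zero]
      have h := norm_glue_cross_le (StarAlgHom.id ℂ A) c d (fun l => r (κ i l))
        (fun l => r (κ j l)) (fun l => b (κ i l)) (fun l => b (κ j l)) x hδz0.le
        (fun l => hbs _) (fun l => hbr _) (fun l => hbr _) (fun l => hr1 _) (fun l => hr1 _)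
        (fun p q => by
          have h := hbb (κ i p.1) (κ j q.1) _ (hzmem p q)
          rwa [if_neg fun h' => hij (hκi _ _ _ _ h').1, sub_zero] at h)
      exact h.trans (hMδ.trans (by linarith))
  · have h := norm_glue_cross_le (α t).toStarAlgHom c d (fun l => r (κ i l))
      (fun l => r (κ j l)) (fun l => b (κ i l)) (fun l => b (κ j l)) 1 hδz0.le
      (fun l => hbs _) (fun l => hbr _) (fun l => hbr _) (fun l => hr1 _) (fun l => hr1 _)
      (fun p q => hbT t ht hnt' _ _ _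
        (Finset.mem_union_right _ (Finset.mem_image.2 ⟨(t, p, q), by simp [ht, P], rfl⟩)))
    rw [mul_one] at h
    exact h.trans (hMδ.trans (by linarith))

/-- A combination with weights in `[0, 1]`. -/
theorem norm_sum_weight_le {ι : Type*} (S : Finset ι) (w : ι → ℝ) (x : ι → A) {δ : ℝ}
    (hw : ∀ q, 0 ≤ w q ∧ w q ≤ 1) (hx : ∀ q ∈ S, ‖x q‖ ≤ δ) :
    ‖∑ q ∈ S, w q • x q‖ ≤ S.card * δ := by
  refine (norm_sum_le _ _).trans ?_
  refine (Finset.sum_le_sum fun q hq => ?_).trans_eq (show ∑ _q ∈ S, δ = _ by simp)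
  rw [norm_smul, Real.norm_of_nonneg (hw q).1]
  calc w q * ‖x q‖ ≤ 1 * δ := mul_le_mul (hw q).2 (hx q hq) (norm_nonneg _) zero_le_one
    _ = δ := one_mul δ

/-- Products of two averages of almost orthogonal families. -/
theorem norm_avg_mul_avg_sub_le {ι : Type*} (S : Finset ι) (w : ι → ℝ) (u v : ι → A) (E : A)
    {σ δ : ℝ} (hw : ∀ q, 0 ≤ w q ∧ w q ≤ 1) (hw2 : ∑ q ∈ S, w q ^ 2 = 1) (hσ : 0 ≤ σ)
    (hdiag : ∀ p ∈ S, ‖star (u p) * v p - E‖ ≤ δ)
    (hoff : ∀ p ∈ S, ∀ q ∈ S, p ≠ q → ‖star (u p) * v q‖ ≤ σ) :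
    ‖star (∑ q ∈ S, w q • u q) * (∑ q ∈ S, w q • v q) - E‖ ≤ δ + (S.card : ℝ) ^ 2 * σ := by
  classical
  have e : star (∑ q ∈ S, w q • u q) * (∑ q ∈ S, w q • v q) - E = ∑ p ∈ S,
      ((w p * w p) • (star (u p) * v p - E) +
        ∑ q ∈ S.erase p, (w p * w q) • (star (u p) * v q)) := by
    have h1 : E = ∑ p ∈ S, (w p * w p) • E := by
      rw [← Finset.sum_smul]
      simp only [← sq, hw2, one_smul]
    conv_lhs => rw [h1]
    rw [star_sum, Finset.sum_mul, ← Finset.sum_sub_distrib]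
    refine Finset.sum_congr rfl fun p hp => ?_
    rw [star_smul, star_trivial, Finset.mul_sum, ← Finset.sum_erase_add S _ hp]
    simp only [smul_mul_smul_comm, smul_sub]
    abel
  rw [e]
  refine (norm_sum_le _ _).trans ((Finset.sum_le_sum (g := fun p => w p ^ 2 * δ + S.card * σ)
    fun p hp => ?_).trans_eq ?_)
  · refine (norm_add_le _ _).trans (add_le_add ?_ ((norm_sum_le _ _).trans ?_))
    · rw [norm_smul, Real.norm_of_nonneg (mul_self_nonneg _), ← sq]
      exact mul_le_mul_of_nonneg_left (hdiag p hp) (sq_nonneg _)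
    · calc ∑ q ∈ S.erase p, ‖(w p * w q) • (star (u p) * v q)‖
          ≤ ∑ _q ∈ S.erase p, σ := Finset.sum_le_sum fun q hq => by
            obtain ⟨hqp, hq⟩ := Finset.mem_erase.1 hq
            rw [norm_smul, Real.norm_of_nonneg (mul_nonneg (hw p).1 (hw q).1)]
            calc w p * w q * ‖star (u p) * v q‖ ≤ 1 * σ :=
                  mul_le_mul (mul_le_one₀ (hw p).2 (hw q).1 (hw q).2)
                    (hoff p hp q hq (Ne.symm hqp)) (norm_nonneg _) zero_le_one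
              _ = σ := one_mul _
        _ ≤ S.card * σ := by
            rw [Finset.sum_const, nsmul_eq_mul]
            gcongr
            exact Finset.erase_subset _ _
  · rw [Finset.sum_add_distrib, ← Finset.sum_mul, hw2, one_mul, Finset.sum_const, nsmul_eq_mul,
      sq, mul_assoc]

section Orbit

variable {G : Type v} [Group G] (α : G →* (A ≃⋆ₐ[ℂ] A))

theorem aut_comp (a b : G) (x : A) : α a (α b x) = α (a * b) x := by
  rw [map_mul]; rfl

theorem aut_cancel (a : G) (x : A) : α a (α a⁻¹ x) = x := by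
  rw [aut_comp, mul_inv_cancel, map_one]; rfl

variable (N : Subgroup G)

/-- The translate of `x` to the coset `q`. -/
def orbit (x : A) (q : G ⧸ N) : A := α q.out x

theorem norm_orbit (x : A) (q : G ⧸ N) : ‖orbit α N x q‖ = ‖x‖ := norm_aut _ _

theorem star_orbit_mul_orbit (x y : A) (p q : G ⧸ N) :
    star (orbit α N x p) * orbit α N y q = α p.out (star x * α (p.out⁻¹ * q.out) y) := by
  rw [orbit, orbit, map_mul, map_star, aut_comp, mul_inv_cancel_left]

theorem out_inv_mul_mem (g : G) (q : G ⧸ N) : (g • q).out⁻¹ * (g * q.out) ∈ N := by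
  refine QuotientGroup.eq.1 ?_
  rw [QuotientGroup.out_eq']
  show g • q = g • ((q.out : G) : G ⧸ N)
  rw [QuotientGroup.out_eq']

theorem out_inv_mul_notMem {p q : G ⧸ N} (h : p ≠ q) : p.out⁻¹ * q.out ∉ N := fun h' => h <| by
  rw [← QuotientGroup.out_eq' p, ← QuotientGroup.out_eq' q]
  exact QuotientGroup.eq.2 h'

/-- Averaged products. -/
theorem orbit_products (S : Finset (G ⧸ N)) (w : G ⧸ N → ℝ) (x y E : A) {σ δ : ℝ}
    (hw : ∀ q, 0 ≤ w q ∧ w q ≤ 1) (hw2 : ∑ q ∈ S, w q ^ 2 = 1) (hσ : 0 ≤ σ)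
    (hone : ‖star x * y - E‖ ≤ σ) (hE : ∀ q ∈ S, ‖α q.out E - E‖ ≤ δ)
    (hoff : ∀ p ∈ S, ∀ q ∈ S, p ≠ q → ‖star x * α (p.out⁻¹ * q.out) y‖ ≤ σ) :
    ‖star (∑ q ∈ S, w q • orbit α N x q) * (∑ q ∈ S, w q • orbit α N y q) - E‖ ≤
      σ + δ + (S.card : ℝ) ^ 2 * σ := by
  refine norm_avg_mul_avg_sub_le S w _ _ E hw hw2 hσ (fun p hp => ?_) fun p hp q hq hpq => ?_
  · have e : star (orbit α N x p) * orbit α N y p - E =
        α p.out (star x * y - E) + (α p.out E - E) := by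
      rw [star_orbit_mul_orbit, inv_mul_cancel, map_one, map_sub]
      show α p.out (star x * y) - E = _
      abel
    rw [e]
    exact (norm_add_le _ _).trans (add_le_add ((norm_aut _ _).trans_le hone) (hE p hp))
  · rw [star_orbit_mul_orbit, norm_aut]
    exact hoff p hp q hq hpq

/-- Averaged commutators. -/
theorem orbit_commutator (S : Finset (G ⧸ N)) (w : G ⧸ N → ℝ) (x y : A) {δ : ℝ}
    (hw : ∀ q, 0 ≤ w q ∧ w q ≤ 1)
    (hc : ∀ q ∈ S, ‖α q.out⁻¹ y * x - x * α q.out⁻¹ y‖ ≤ δ) :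
    ‖y * (∑ q ∈ S, w q • orbit α N x q) - (∑ q ∈ S, w q • orbit α N x q) * y‖ ≤ S.card * δ := by
  rw [Finset.mul_sum, Finset.sum_mul, ← Finset.sum_sub_distrib]
  simp only [mul_smul_comm, smul_mul_assoc, ← smul_sub]
  refine norm_sum_weight_le S w _ hw fun q hq => ?_
  have e : y * orbit α N x q - orbit α N x q * y =
      α q.out (α q.out⁻¹ y * x - x * α q.out⁻¹ y) := by
    rw [map_sub, map_mul (α q.out), map_mul (α q.out), aut_cancel]
    rfl
  rw [e, norm_aut]
  exact hc q hq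

/-- Averaged almost invariance. -/
theorem orbit_invariant [DecidableEq (G ⧸ N)] (S : Finset (G ⧸ N)) (w : G ⧸ N → ℝ) (g : G)
    (x : A) {σ δ d : ℝ} (hw : ∀ q, 0 ≤ w q ∧ w q ≤ 1) (hσ : 0 ≤ σ) (hx : ‖x‖ ^ 2 ≤ 2)
    (hsupp : ∀ q, q ∉ S → w q = 0) (hmove : ∀ q, w q ≠ 0 → g • q ∈ S)
    (hn : ∀ q ∈ S, ‖α ((g • q).out⁻¹ * (g * q.out)) x - x‖ ≤ δ)
    (hoff : ∀ p ∈ S, ∀ q ∈ S, p ≠ q → ‖star x * α (p.out⁻¹ * q.out) x‖ ≤ σ)
    (hd : ∑ q ∈ S, (w (g⁻¹ • q) - w q) ^ 2 ≤ d) :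
    ‖α g (∑ q ∈ S, w q • orbit α N x q) - ∑ q ∈ S, w q • orbit α N x q‖ ≤
      S.card * δ + Real.sqrt (2 * d + (S.card : ℝ) ^ 2 * σ) := by
  set u := orbit α N x
  have e2 : ∑ q ∈ S, w q • u (g • q) = ∑ q ∈ S, w (g⁻¹ • q) • u q := by
    calc ∑ q ∈ S, w q • u (g • q) = ∑ q ∈ S.image (g • ·), w (g⁻¹ • q) • u q := by
          rw [Finset.sum_image (MulAction.injective g).injOn]
          simp
      _ = ∑ q ∈ S.image (g • ·) ∪ S, w (g⁻¹ • q) • u q := by
          refine Finset.sum_subset Finset.subset_union_left fun q _ hq => ?_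
          rw [hsupp _ fun h => hq (Finset.mem_image.2 ⟨g⁻¹ • q, h, smul_inv_smul g q⟩), zero_smul]
      _ = _ := by
          refine (Finset.sum_subset Finset.subset_union_right fun q hq hq' => ?_).symm
          obtain ⟨p, hp, rfl⟩ := Finset.mem_image.1 ((Finset.mem_union.1 hq).resolve_right hq')
          rw [inv_smul_smul]
          by_cases h : w p = 0
          · rw [h, zero_smul]
          · exact absurd (hmove p h) hq'
  have e1 : α g (∑ q ∈ S, w q • u q) - ∑ q ∈ S, w q • u q =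
      ∑ q ∈ S, w q • α (g • q).out (α ((g • q).out⁻¹ * (g * q.out)) x - x) +
        ∑ q ∈ S, (w (g⁻¹ • q) - w q) • u q := by
    simp only [map_sum, aut_real_smul, map_sub, smul_sub, sub_smul, Finset.sum_sub_distrib, ← e2]
    simp only [u, orbit, aut_comp, mul_inv_cancel_left]
    abel
  rw [e1]
  refine (norm_add_le _ _).trans (add_le_add (norm_sum_weight_le S w _ hw fun q hq => ?_) ?_)
  · rw [norm_aut]; exact hn q hq
  · refine Real.le_sqrt_of_sq_le ?_
    refine (norm_sum_smul_sq_le S _ u (D := 2) (δ := σ) (fun q _ => ?_) (fun q _ => ?_) hσ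
      fun p hp q hq hpq => ?_).trans (by gcongr)
    · rw [abs_le]
      exact ⟨by linarith [(hw (g⁻¹ • q)).1, (hw q).2], by linarith [(hw (g⁻¹ • q)).2, (hw q).1]⟩
    · rw [norm_orbit]; exact hx
    · rw [star_orbit_mul_orbit, norm_aut]; exact hoff p hp q hq hpq

end Orbit

theorem sq_norm_le_two {x E : A} {ε : ℝ} (hε : ε ≤ 1) (hE : ‖E‖ ≤ 1)
    (h : ‖star x * x - E‖ ≤ ε) : ‖x‖ ^ 2 ≤ 2 := by
  rw [sq, ← CStarRing.norm_star_mul_self]
  linarith [norm_le_norm_add_norm_sub' (star x * x) E]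

/-- The cosets needed for a Følner set and the trivially acting elements relating their
representatives. -/
theorem exists_coset_data {G : Type v} [Group G] [DecidableEq G] (N : Subgroup G)
    [DecidableEq (G ⧸ N)] (F T : Finset G) :
    ∃ (S : Finset (G ⧸ N)) (ns : Finset G), (∀ a ∈ F, (a : G ⧸ N) ∈ S) ∧
      (∀ g ∈ T, ∀ q, cosetWeight N F q ≠ 0 → g • q ∈ S) ∧ (∀ n ∈ ns, n ∈ N) ∧
      ∀ g ∈ T, ∀ q ∈ S, (g • q).out⁻¹ * (g * q.out) ∈ ns := by
  refine ⟨(F ∪ (T ×ˢ F).image fun p => p.1 * p.2).image (fun a : G => (a : G ⧸ N)),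
    (T ×ˢ (F ∪ (T ×ˢ F).image fun p => p.1 * p.2).image (fun a : G => (a : G ⧸ N))).image
      fun p => (p.1 • p.2).out⁻¹ * (p.1 * p.2.out),
    fun a ha => Finset.mem_image_of_mem _ (Finset.mem_union_left _ ha), fun g hg q hq => ?_,
    fun n hn => ?_, fun g hg q hq =>
      Finset.mem_image.2 ⟨(g, q), Finset.mem_product.2 ⟨hg, hq⟩, rfl⟩⟩
  · by_contra h
    refine hq (cosetWeight_eq_zero N F (F.image fun a : G => (a : G ⧸ N))
      (fun a ha => Finset.mem_image_of_mem _ ha) fun hq' => h ?_)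
    obtain ⟨a, ha, rfl⟩ := Finset.mem_image.1 hq'
    exact Finset.mem_image.2 ⟨g * a, Finset.mem_union_right _
      (Finset.mem_image.2 ⟨(g, a), Finset.mem_product.2 ⟨hg, ha⟩, rfl⟩), rfl⟩
  · obtain ⟨⟨g, q⟩, -, rfl⟩ := Finset.mem_image.1 hn
    exact out_inv_mul_mem N g q

/-- The elements that local elements have to centralise, closed under the adjoint. -/
theorem exists_star_closed (Y₀ : Finset A) : ∃ (Y : Finset A) (W : ℝ), Y₀ ⊆ Y ∧ 0 < W ∧
    (∀ x ∈ Y, star x ∈ Y) ∧ ∀ x ∈ Y, 1 + ‖x‖ ≤ W := by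
  classical
  refine ⟨Y₀ ∪ Y₀.image star, ∑ x ∈ Y₀ ∪ Y₀.image star, (1 + ‖x‖) + 1,
    Finset.subset_union_left, by positivity, fun x hx => ?_, fun x hx => ?_⟩
  · rcases Finset.mem_union.1 hx with hx | hx
    · exact Finset.mem_union_right _ (Finset.mem_image_of_mem _ hx)
    · obtain ⟨y, hy, rfl⟩ := Finset.mem_image.1 hx
      rw [star_star]
      exact Finset.mem_union_left _ hy
  · linarith [Finset.single_le_sum (f := fun x : A => 1 + ‖x‖) (fun _ _ => by positivity) hx]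

/-- Compressions give almost commutation. -/
theorem commutator_of_compressions [DecidableEq A] (s E : A) (Y : Finset A) {σ W : ℝ} (hσ : 0 ≤ σ)
    (hYs : ∀ x ∈ Y, star x ∈ Y) (hW : ∀ x ∈ Y, 1 + ‖x‖ ≤ W)
    (h : ∀ x ∈ insert 1 (Y ∪ Y.image fun x => star x * x),
      ‖star s * x * s - E * x‖ ≤ σ ^ 2) :
    ∀ x ∈ Y, ‖x * s - s * x‖ ≤ σ * W := by
  intro x hx
  have hm : ∀ y ∈ Y, ‖star s * y * s - E * y‖ ≤ σ ^ 2 := fun y hy =>
    h y (Finset.mem_insert_of_mem (Finset.mem_union_left _ hy))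
  have h1 := h 1 (Finset.mem_insert_self _ _)
  rw [mul_one, mul_one] at h1
  have h2 := norm_commutator_le s E x (ε := σ ^ 2)
    (h _ (Finset.mem_insert_of_mem (Finset.mem_union_right _ (Finset.mem_image_of_mem _ hx))))
    (hm _ (hYs x hx)) (hm x hx) h1
  rw [← mul_pow] at h2
  exact ((sq_le_sq₀ (norm_nonneg _) (by positivity)).1 h2).trans
    (mul_le_mul_of_nonneg_left (hW x hx) hσ)

/-- Half a local element is a contraction, which bounds its displacement by trivial elements. -/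
theorem displacement_le (g : A ≃⋆ₐ[ℂ] A) (s : A) (X : Finset A) {θ b δ : ℝ} (hs : ‖s‖ ≤ 2)
    (hX : ∀ x ∈ X, ‖x * s - s * x‖ ≤ b) (hb : b ≤ θ)
    (h : ∀ z : A, ‖z‖ ≤ 1 → (∀ x ∈ X, ‖x * z - z * x‖ ≤ θ) → ‖g z - z‖ ≤ δ) :
    ‖g s - s‖ ≤ 2 * δ := by
  have h1 := h ((2 : ℝ)⁻¹ • s) (by
    rw [norm_smul, Real.norm_of_nonneg (by norm_num)]; linarith) fun x hx => by
    rw [mul_smul_comm, smul_mul_assoc, ← smul_sub, norm_smul, Real.norm_of_nonneg (by norm_num)]
    linarith [hX x hx, norm_nonneg (x * s - s * x)]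
  rw [aut_real_smul, ← smul_sub, norm_smul, Real.norm_of_nonneg (by norm_num)] at h1
  linarith

/-- **Equivariant property (SI)** for any Følner group. -/
theorem siStatement_of_local (hloc : LocalStatement.{u, v}) : SIStatement.{u, v} := by
  intro A _ _ _ hA hN hdd G _ _ hFol α T X η hη ε₀ hε₀
  classical
  obtain ⟨ε, hε0, hε1, hεle⟩ : ∃ ε : ℝ, 0 < ε ∧ ε ≤ 1 ∧ ε ≤ ε₀ :=
    ⟨min ε₀ 1, lt_min hε₀ one_pos, min_le_right _ _, min_le_left _ _⟩
  have hεsq : ε ^ 2 ≤ ε := by nlinarith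
  obtain ⟨F, hF0, hF⟩ := hFol T (ε ^ 2 / 64) (by positivity)
  obtain ⟨S, ns, hSF, hSg, hns, hmem⟩ := exists_coset_data (trivialSubgroup α) F T
  obtain ⟨K, hK1, hcard⟩ : ∃ K : ℝ, 1 ≤ K ∧ (S.card : ℝ) ≤ K :=
    ⟨max 1 S.card, le_max_left _ _, le_max_right _ _⟩
  have hK0 : 0 < K := by linarith
  obtain ⟨Xn, θn, hθn, hXn⟩ := exists_uniform_trivial α ns
    (fun n hn => (mem_trivialSubgroup α).1 (hns n hn)) (ε := ε / (16 * K)) (by positivity)
  obtain ⟨Y, W, hY, hW0, hYs, hWx⟩ :=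
    exists_star_closed ((S ×ˢ X).image (fun p => α p.1.out⁻¹ p.2) ∪ Xn)
  obtain ⟨σ, hσ0, hσ1, hσ2, hσ3⟩ :
      ∃ σ : ℝ, 0 < σ ∧ σ ≤ ε / (4 * K) ∧ σ * W ≤ ε / K ∧ σ * W ≤ θn := by
    refine ⟨min (ε / (4 * K)) (min (ε / (K * W)) (θn / W)),
      lt_min (by positivity) (lt_min (by positivity) (by positivity)), min_le_left _ _, ?_, ?_⟩
    · rw [← le_div_iff₀ hW0, div_div]
      exact (min_le_right _ _).trans (min_le_left _ _)
    · rw [← le_div_iff₀ hW0]
      exact (min_le_right _ _).trans (min_le_right _ _)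
  obtain ⟨θ, X', hθ, hloc'⟩ := hloc A hA hN hdd G α
    ((S ×ˢ S).image fun p => p.1.out⁻¹ * p.2.out)
    (insert 1 (Y ∪ Y.image fun x => star x * x)) η hη (σ ^ 2)
    (by positivity)
  obtain ⟨δ₂, hδ₂, k₂⟩ := exists_cfc_near (A := A) (continuous_posCut η) 1 (C := 1)
    (ε := ε / 4) zero_le_one (by positivity)
  refine ⟨min θ δ₂, S.image Quotient.out, X', lt_min hθ hδ₂, fun e he hX hT hτ => ?_⟩
  obtain ⟨s₀, hcomp, hoff⟩ := hloc' e he (fun x hx => (hX x hx).trans (min_le_left _ _))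
    fun τ hτ' => (hτ τ hτ').trans (min_le_left _ _)
  have hσ4 : σ ≤ ε / 4 := hσ1.trans (by gcongr; linarith)
  have hσle : σ ^ 2 ≤ 1 := by nlinarith
  have hK2 : (S.card : ℝ) ^ 2 * σ ^ 2 ≤ ε ^ 2 / 16 := by
    have h : (S.card : ℝ) * σ ≤ ε / 4 := by
      calc (S.card : ℝ) * σ ≤ K * (ε / (4 * K)) := mul_le_mul hcard hσ1 hσ0.le hK0.le
        _ = ε / 4 := by field_simp
    nlinarith [mul_nonneg (Nat.cast_nonneg (α := ℝ) S.card) hσ0.le]
  have hone : ∀ i j, ‖star (s₀ i) * s₀ j - (if i = j then cfc (posCut η) e else 0)‖ ≤ σ ^ 2 :=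
    fun i j => by
      have h := hcomp i j 1 (Finset.mem_insert_self _ _)
      rwa [mul_one, mul_one] at h
  have hEn : ‖cfc (posCut η) e‖ ≤ 1 := norm_cfc_posCut_le hη.le he.2
  have hs₀ : ∀ i, ‖s₀ i‖ ^ 2 ≤ 2 := fun i => by
    have h := hone i i
    rw [if_pos rfl] at h
    exact sq_norm_le_two hσle hEn h
  have hs₀' : ∀ i, ‖s₀ i‖ ≤ 2 := fun i => by nlinarith [hs₀ i, norm_nonneg (s₀ i)]
  have hcom : ∀ i, ∀ x ∈ Y, ‖x * s₀ i - s₀ i * x‖ ≤ σ * W := fun i =>
    commutator_of_compressions (s₀ i) (cfc (posCut η) e) Y hσ0.le hYs hWx fun x hx => by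
      have h := hcomp i i x hx
      rwa [if_pos rfl] at h
  have hinv : ∀ i, ∀ n ∈ ns, ‖α n (s₀ i) - s₀ i‖ ≤ 2 * (ε / (16 * K)) := fun i n hn =>
    displacement_le (α n) (s₀ i) Xn (hs₀' i)
      (fun x hx => hcom i x (hY (Finset.mem_union_right _ hx))) hσ3 (hXn n hn)
  have huoff : ∀ i j, ∀ p ∈ S, ∀ q ∈ S, p ≠ q →
      ‖star (s₀ i) * α (p.out⁻¹ * q.out) (s₀ j)‖ ≤ σ ^ 2 := fun i j p hp q hq hpq =>
    hoff _ (Finset.mem_image.2 ⟨(p, q), Finset.mem_product.2 ⟨hp, hq⟩, rfl⟩)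
      (fun h => out_inv_mul_notMem _ hpq ((mem_trivialSubgroup α).2 h)) i j
  have hEinv : ∀ q ∈ S, ‖α q.out (cfc (posCut η) e) - cfc (posCut η) e‖ ≤ ε / 4 := fun q hq => by
    have h := k₂ (α q.out e) e 1 (he.1.isSelfAdjoint.map _) he.1.isSelfAdjoint
      ((norm_aut _ _).trans_le he.2) he.2 (le_of_eq norm_one) (by
        rw [one_mul, mul_one]
        exact (hT _ (Finset.mem_image_of_mem _ hq)).trans (min_le_right _ _))
    rwa [one_mul, mul_one, ← aut_cfc _ (continuous_posCut η) he.1.isSelfAdjoint] at h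
  have hw2 := sum_cosetWeight_sq (trivialSubgroup α) F hF0 S hSF
  have hw01 : ∀ q, 0 ≤ cosetWeight (trivialSubgroup α) F q ∧
      cosetWeight (trivialSubgroup α) F q ≤ 1 := fun q =>
    ⟨cosetWeight_nonneg _ F q, cosetWeight_le_one _ F q⟩
  obtain ⟨s, hs⟩ : ∃ s : Fin 2 → A, ∀ i, s i = ∑ q ∈ S,
      cosetWeight (trivialSubgroup α) F q • orbit α (trivialSubgroup α) (s₀ i) q :=
    ⟨_, fun i => rfl⟩
  have hprod : ∀ i j, ‖star (s i) * s j - (if i = j then cfc (posCut η) e else 0)‖ ≤ ε := by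
    intro i j
    rw [hs, hs]
    refine (orbit_products α _ S _ (s₀ i) (s₀ j) _ (δ := ε / 4) hw01 hw2 (sq_nonneg σ) (hone i j)
      (fun q hq => ?_) (huoff i j)).trans ?_
    · split_ifs
      · exact hEinv q hq
      · rw [map_zero, sub_zero, norm_zero]; linarith
    · have : σ ^ 2 ≤ ε / 4 := by nlinarith
      linarith
  have hscom : ∀ i, ∀ y : A, (∀ q ∈ S, α q.out⁻¹ y ∈ Y) → ‖y * s i - s i * y‖ ≤ ε := by
    intro i y hy
    rw [hs]
    refine (orbit_commutator α _ S _ (s₀ i) y hw01 fun q hq => hcom i _ (hy q hq)).trans ?_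
    calc (S.card : ℝ) * (σ * W) ≤ K * (ε / K) :=
          mul_le_mul hcard hσ2 (by positivity) hK0.le
      _ = ε := by field_simp
  refine ⟨s, fun i => ?_, fun i x hx => ⟨?_, ?_⟩, fun i g hg => ?_, fun i j => ?_⟩
  · have h := hprod i i
    rw [if_pos rfl] at h
    nlinarith [sq_norm_le_two hε1 hEn h, norm_nonneg (s i)]
  · refine (hscom i x fun q hq => ?_).trans hεle
    exact hY (Finset.mem_union_left _
      (Finset.mem_image.2 ⟨(q, x), Finset.mem_product.2 ⟨hq, hx⟩, rfl⟩))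
  · have e1 : x * star (s i) - star (s i) * x = -star (star x * s i - s i * star x) := by
      simp only [star_sub, star_mul, star_star]; abel
    rw [e1, norm_neg, norm_star]
    refine (hscom i (star x) fun q hq => ?_).trans hεle
    rw [map_star]
    exact hYs _ (hY (Finset.mem_union_left _
      (Finset.mem_image.2 ⟨(q, x), Finset.mem_product.2 ⟨hq, hx⟩, rfl⟩)))
  · have hd := (sum_cosetWeight_sub_sq_le (trivialSubgroup α) F g S).trans
      ((div_le_iff₀ (by exact_mod_cast hF0.card_pos)).2 (hF g hg))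
    rw [hs]
    refine ((orbit_invariant α _ S _ g (s₀ i) (σ := σ ^ 2) hw01 (sq_nonneg σ) (hs₀ i)
      (fun q hq => cosetWeight_eq_zero _ F S hSF hq) (hSg g hg)
      (fun q hq => hinv i _ (hmem g hg q hq)) (huoff i i) hd).trans ?_).trans hεle
    have h1 : (S.card : ℝ) * (2 * (ε / (16 * K))) ≤ ε / 8 := by
      calc (S.card : ℝ) * (2 * (ε / (16 * K))) ≤ K * (2 * (ε / (16 * K))) :=
            mul_le_mul_of_nonneg_right hcard (by positivity)
        _ = ε / 8 := by field_simp; ring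
    have h2 : Real.sqrt (2 * (ε ^ 2 / 64) + (S.card : ℝ) ^ 2 * σ ^ 2) ≤ ε / 2 :=
      Real.sqrt_le_iff.2 ⟨by linarith, by nlinarith⟩
    linarith
  · exact (hprod i j).trans hεle

/-- **Equivariant property (SI)** from nuclearity, excision, the preparation and
comparison. -/
theorem siStatement_of (hg : GlimmStatement.{u}) (hex : ExcisionStatement.{u})
    (hprep : PreparedStatement.{u, v}) (hcmp : Compare.CompareStatement.{u}) :
    SIStatement.{u, v} :=
  siStatement_of_local (localStatement_of hg hex hprep hcmp)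

end Vale.Agent.P095.Full
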