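import Vale.Agent.P095.Full.Specs
import Vale.Agent.P095.Gamma.Outer

/-!
# P095, all amenable groups: tools for the combination step

Uniform continuity of the functional calculus against almost intertwiners, the subgroup of trivially
acting elements, Følner weights on its cosets, and sums of almost orthogonal elements.
-/

noncomputable section

namespace Vale.Agent.P095.Full

universe u v

open scoped symmDiff

section Algebra

variable {A : Type u} [CStarAlgebra A]

theorem norm_aut (g : A ≃⋆ₐ[ℂ] A) (x : A) : ‖g x‖ = ‖x‖ := by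
  refine le_antisymm (NonUnitalStarAlgHom.norm_apply_le g.toStarAlgHom x) ?_
  calc ‖x‖ = ‖g.symm (g x)‖ := by simp
    _ ≤ ‖g x‖ := NonUnitalStarAlgHom.norm_apply_le g.symm.toStarAlgHom (g x)

theorem aut_cfc (g : A ≃⋆ₐ[ℂ] A) {f : ℝ → ℝ} (hf : Continuous f) {a : A} (ha : IsSelfAdjoint a) :
    g (cfc f a) = cfc f (g a) :=
  Gamma.map_rcfc g.toStarAlgHom f hf ha

/-- An almost intertwiner of two self-adjoint elements almost intertwines their continuous
functions, uniformly. -/
theorem exists_cfc_near {f : ℝ → ℝ} (hf : Continuous f) (R : ℝ) {C ε : ℝ} (hC : 0 ≤ C)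
    (hε : 0 < ε) :
    ∃ δ : ℝ, 0 < δ ∧ ∀ a b x : A, IsSelfAdjoint a → IsSelfAdjoint b → ‖a‖ ≤ R → ‖b‖ ≤ R →
      ‖x‖ ≤ C → ‖x * a - b * x‖ ≤ δ → ‖x * cfc f a - cfc f b * x‖ ≤ ε := by
  set η := ε / (4 * (C + 1)) with hη
  have hη0 : 0 < η := by positivity
  obtain ⟨p, hp⟩ := exists_polynomial_near_of_continuousOn (-R) R f hf.continuousOn η hη0
  set R' := max R 0 + 1 with hR'
  set W := ∑ i ∈ Finset.range (p.natDegree + 1), |p.coeff i| * (i * R' ^ i) with hW
  refine ⟨ε / (2 * (W + 1)), by positivity, fun a b x ha hb haR hbR hxC hx => ?_⟩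
  set δ := ε / (2 * (W + 1)) with hδ
  have hδ0 : 0 ≤ δ := (norm_nonneg _).trans hx
  rcases subsingleton_or_nontrivial A with h | h
  · simp [Subsingleton.elim (x * cfc f a - cfc f b * x) 0, hε.le]
  have hR1 : 1 ≤ R' := by rw [hR']; linarith [le_max_right R 0]
  have hpow : ∀ i : ℕ, ‖x * a ^ i - b ^ i * x‖ ≤ (i * R' ^ i) * δ := by
    intro i
    induction i with
    | zero => simp
    | succ i ih =>
      have hb' : ‖b ^ i‖ ≤ R' ^ i :=
        (norm_pow_le b i).trans
          (pow_le_pow_left₀ (norm_nonneg _) (by rw [hR']; linarith [le_max_left R 0]) i)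
      have ha' : ‖a‖ ≤ R' := by rw [hR']; linarith [le_max_left R 0]
      have e : x * a ^ (i + 1) - b ^ (i + 1) * x =
          (x * a ^ i - b ^ i * x) * a + b ^ i * (x * a - b * x) := by
        simp only [pow_succ]; noncomm_ring
      rw [e]
      calc ‖(x * a ^ i - b ^ i * x) * a + b ^ i * (x * a - b * x)‖
          ≤ ((i * R' ^ i) * δ) * R' + R' ^ i * δ := by
            refine (norm_add_le _ _).trans (add_le_add ?_ ?_) <;>
              refine (norm_mul_le _ _).trans ?_
            · exact mul_le_mul ih ha' (norm_nonneg _) (by positivity)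
            · exact mul_le_mul hb' hx (norm_nonneg _) (by positivity)
        _ ≤ _ := by
          have : R' ^ i ≤ R' ^ (i + 1) := pow_le_pow_right₀ hR1 (Nat.le_succ i)
          push_cast
          rw [pow_succ] at this ⊢
          nlinarith [mul_le_mul_of_nonneg_right this hδ0]
  have hclose : ∀ c : A, IsSelfAdjoint c → ‖c‖ ≤ R → ‖cfc f c - Polynomial.aeval c p‖ ≤ η := by
    intro c hc hcR
    rw [← cfc_polynomial p c hc, ← cfc_sub f p.eval c hf.continuousOn p.continuous.continuousOn]
    refine norm_cfc_le hη0.le fun t ht => ?_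
    have h1 := (spectrum.norm_le_norm_of_mem ht).trans hcR
    rw [Real.norm_eq_abs, abs_le] at h1
    rw [Real.norm_eq_abs, abs_sub_comm]
    exact (hp t h1).le
  have hpoly : ‖x * Polynomial.aeval a p - Polynomial.aeval b p * x‖ ≤ W * δ := by
    simp only [Polynomial.aeval_eq_sum_range, Finset.mul_sum, Finset.sum_mul,
      ← Finset.sum_sub_distrib, mul_smul_comm, smul_mul_assoc, ← smul_sub]
    rw [hW, Finset.sum_mul]
    refine (norm_sum_le _ _).trans (Finset.sum_le_sum fun i _ => ?_)
    rw [norm_smul, Real.norm_eq_abs, mul_assoc]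
    exact mul_le_mul_of_nonneg_left (hpow i) (abs_nonneg _)
  have e : x * cfc f a - cfc f b * x = x * (cfc f a - Polynomial.aeval a p) +
      (x * Polynomial.aeval a p - Polynomial.aeval b p * x) -
      (cfc f b - Polynomial.aeval b p) * x := by noncomm_ring
  rw [e]
  calc _ ≤ C * η + W * δ + η * C := by
        refine (norm_sub_le _ _).trans (add_le_add ((norm_add_le _ _).trans
          (add_le_add ((norm_mul_le _ _).trans ?_) hpoly)) ((norm_mul_le _ _).trans ?_))
        · exact mul_le_mul hxC (hclose a ha haR) (norm_nonneg _) hC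
        · exact mul_le_mul (hclose b hb hbR) hxC (norm_nonneg _) hη0.le
    _ ≤ ε := by
      have h1 : η * C ≤ ε / 4 := by
        rw [hη, div_mul_eq_mul_div, div_le_div_iff₀ (by positivity) (by norm_num)]
        nlinarith
      have hW0 : 0 ≤ W := Finset.sum_nonneg fun i _ => by positivity
      have h2 : W * δ ≤ ε / 2 := by
        rw [hδ, mul_div_assoc', div_le_div_iff₀ (by positivity) (by norm_num)]
        nlinarith
      linarith

/-- The norm of a combination of almost orthogonal elements. -/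
theorem norm_sum_smul_sq_le {ι : Type*} (S : Finset ι) (c : ι → ℝ) (u : ι → A) {D δ : ℝ}
    (hc : ∀ q ∈ S, |c q| ≤ 1) (hD : ∀ q ∈ S, ‖u q‖ ^ 2 ≤ D) (hδ : 0 ≤ δ)
    (hoff : ∀ p ∈ S, ∀ q ∈ S, p ≠ q → ‖star (u p) * u q‖ ≤ δ) :
    ‖∑ q ∈ S, c q • u q‖ ^ 2 ≤ D * ∑ q ∈ S, c q ^ 2 + (S.card : ℝ) ^ 2 * δ := by
  classical
  rw [sq, ← CStarRing.norm_star_mul_self, star_sum, Finset.sum_mul]
  simp only [star_smul, star_trivial, Finset.mul_sum, smul_mul_smul_comm]
  refine (norm_sum_le _ _).trans ?_
  rw [show (S.card : ℝ) ^ 2 * δ = ∑ _p ∈ S, (S.card : ℝ) * δ by simp [sq, mul_assoc],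
    ← Finset.sum_add_distrib]
  refine Finset.sum_le_sum fun p hp => (norm_sum_le _ _).trans ?_
  rw [← Finset.sum_erase_add S _ hp, add_comm (D * c p ^ 2)]
  refine add_le_add ?_ ?_
  · calc ∑ q ∈ S.erase p, ‖(c p * c q) • (star (u p) * u q)‖
        ≤ ∑ _q ∈ S.erase p, δ := Finset.sum_le_sum fun q hq => by
          obtain ⟨hqp, hq⟩ := Finset.mem_erase.1 hq
          rw [norm_smul, Real.norm_eq_abs, abs_mul]
          calc |c p| * |c q| * ‖star (u p) * u q‖ ≤ 1 * 1 * δ := by
                gcongr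
                · exact hc p hp
                · exact hc q hq
                · exact hoff p hp q hq (Ne.symm hqp)
            _ = δ := by ring
      _ ≤ (S.card : ℝ) * δ := by
          rw [Finset.sum_const, nsmul_eq_mul]
          gcongr
          exact Finset.erase_subset _ _
  · rw [norm_smul, Real.norm_eq_abs, CStarRing.norm_star_mul_self, ← sq (c p), abs_sq, ← sq,
      mul_comm]
    exact mul_le_mul_of_nonneg_right (hD p hp) (sq_nonneg _)

end Algebra

section Group

variable {A : Type u} [CStarAlgebra A] {G : Type v} [Group G] (α : G →* (A ≃⋆ₐ[ℂ] A))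

theorem actsTrivially_one : ActsTrivially α 1 := fun ε hε =>
  ⟨∅, 1, one_pos, fun z _ _ => by
    rw [map_one, show ((1 : A ≃⋆ₐ[ℂ] A)) z = z from rfl, sub_self, norm_zero]; exact hε.le⟩

theorem actsTrivially_mul {g h : G} (hg : ActsTrivially α g) (hh : ActsTrivially α h) :
    ActsTrivially α (g * h) := by
  classical
  intro ε hε
  obtain ⟨X₁, θ₁, h₁, k₁⟩ := hg (ε / 2) (by positivity)
  obtain ⟨X₂, θ₂, h₂, k₂⟩ := hh (ε / 2) (by positivity)
  refine ⟨X₁ ∪ X₂, min θ₁ θ₂, lt_min h₁ h₂, fun z hz hc => ?_⟩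
  have e : α (g * h) z - z = α g (α h z - z) + (α g z - z) := by
    rw [map_mul, show (α g * α h) z = α g (α h z) from rfl, map_sub]; abel
  rw [e]
  refine (norm_add_le _ _).trans ?_
  rw [norm_aut]
  have a1 := k₁ z hz fun x hx =>
    (hc x (Finset.mem_union_left _ hx)).trans (min_le_left _ _)
  have a2 := k₂ z hz fun x hx =>
    (hc x (Finset.mem_union_right _ hx)).trans (min_le_right _ _)
  linarith

theorem actsTrivially_inv {g : G} (hg : ActsTrivially α g) : ActsTrivially α g⁻¹ := by
  intro ε hε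
  obtain ⟨X, θ, hθ, k⟩ := hg ε hε
  refine ⟨X, θ, hθ, fun z hz hc => ?_⟩
  have e : α g (α g⁻¹ z - z) = z - α g z := by
    rw [map_sub, show α g (α g⁻¹ z) = (α g * α g⁻¹) z from rfl, ← map_mul, mul_inv_cancel, map_one]
    rfl
  rw [← norm_aut (α g), e, norm_sub_rev]
  exact k z hz hc

/-- The trivially acting elements. -/
def trivialSubgroup : Subgroup G where
  carrier := {g | ActsTrivially α g}
  one_mem' := actsTrivially_one α
  mul_mem' := actsTrivially_mul α
  inv_mem' := actsTrivially_inv α

theorem mem_trivialSubgroup {g : G} : g ∈ trivialSubgroup α ↔ ActsTrivially α g := Iff.rfl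

/-- One centrality condition for finitely many trivially acting elements. -/
theorem exists_uniform_trivial (S : Finset G) (hS : ∀ n ∈ S, ActsTrivially α n) {ε : ℝ}
    (hε : 0 < ε) : ∃ (X : Finset A) (θ : ℝ), 0 < θ ∧ ∀ n ∈ S, ∀ z : A, ‖z‖ ≤ 1 →
      (∀ x ∈ X, ‖x * z - z * x‖ ≤ θ) → ‖α n z - z‖ ≤ ε := by
  classical
  induction S using Finset.induction_on with
  | empty => exact ⟨∅, 1, one_pos, fun n hn => absurd hn (Finset.notMem_empty n)⟩
  | insert n S hn ih =>
    obtain ⟨X₁, θ₁, h₁, k₁⟩ := hS n (Finset.mem_insert_self n S) ε hε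
    obtain ⟨X₂, θ₂, h₂, k₂⟩ := ih fun m hm => hS m (Finset.mem_insert_of_mem hm)
    refine ⟨X₁ ∪ X₂, min θ₁ θ₂, lt_min h₁ h₂, fun m hm z hz hc => ?_⟩
    rcases Finset.mem_insert.1 hm with rfl | hm
    · exact k₁ z hz fun x hx => (hc x (Finset.mem_union_left _ hx)).trans (min_le_left _ _)
    · exact k₂ m hm z hz fun x hx => (hc x (Finset.mem_union_right _ hx)).trans (min_le_right _ _)

end Group

section Weights

variable {G : Type v} [Group G] [DecidableEq G] (N : Subgroup G) [DecidableEq (G ⧸ N)]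

/-- The proportion of `F` in a coset. -/
def cosetMass (F : Finset G) (q : G ⧸ N) : ℝ :=
  ((F.filter fun a : G => (a : G ⧸ N) = q).card : ℝ) / F.card

/-- The Følner weight of a coset. -/
def cosetWeight (F : Finset G) (q : G ⧸ N) : ℝ := Real.sqrt (cosetMass N F q)

omit [DecidableEq G] in
theorem cosetMass_nonneg (F : Finset G) (q : G ⧸ N) : 0 ≤ cosetMass N F q := by
  unfold cosetMass; positivity

omit [DecidableEq G] in
theorem cosetMass_le_one (F : Finset G) (q : G ⧸ N) : cosetMass N F q ≤ 1 := by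
  refine div_le_one_of_le₀ ?_ (Nat.cast_nonneg _)
  exact_mod_cast Finset.card_filter_le _ _

omit [DecidableEq G] in
theorem cosetWeight_nonneg (F : Finset G) (q : G ⧸ N) : 0 ≤ cosetWeight N F q :=
  Real.sqrt_nonneg _

omit [DecidableEq G] in
theorem cosetWeight_le_one (F : Finset G) (q : G ⧸ N) : cosetWeight N F q ≤ 1 :=
  Real.sqrt_le_one.2 (cosetMass_le_one N F q)

omit [DecidableEq G] in
theorem cosetWeight_eq_zero (F : Finset G) (S : Finset (G ⧸ N)) (hS : ∀ a ∈ F, (a : G ⧸ N) ∈ S)
    {q : G ⧸ N} (hq : q ∉ S) : cosetWeight N F q = 0 := by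
  have : F.filter (fun a : G => (a : G ⧸ N) = q) = ∅ :=
    Finset.filter_eq_empty_iff.2 fun a ha h => hq (h ▸ hS a ha)
  simp [cosetWeight, cosetMass, this]

omit [DecidableEq G] in
theorem sum_cosetWeight_sq (F : Finset G) (hF : F.Nonempty) (S : Finset (G ⧸ N))
    (hS : ∀ a ∈ F, (a : G ⧸ N) ∈ S) : ∑ q ∈ S, cosetWeight N F q ^ 2 = 1 := by
  unfold cosetWeight
  rw [Finset.sum_congr rfl fun q _ => Real.sq_sqrt (cosetMass_nonneg N F q)]
  unfold cosetMass
  rw [← Finset.sum_div]
  rw [← Nat.cast_sum, ← Finset.card_eq_sum_card_fiberwise hS, div_self]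
  exact_mod_cast hF.card_pos.ne'

/-- Translation moves the weights by at most the Følner defect. -/
theorem sum_cosetWeight_sub_sq_le (F : Finset G) (g : G) (S : Finset (G ⧸ N)) :
    ∑ q ∈ S, (cosetWeight N F (g⁻¹ • q) - cosetWeight N F q) ^ 2 ≤
      ((F.image (g * ·) ∆ F).card : ℝ) / F.card := by
  have hshift : ∀ q : G ⧸ N, (F.filter fun a : G => (a : G ⧸ N) = g⁻¹ • q).card =
      ((F.image (g * ·)).filter fun a : G => (a : G ⧸ N) = q).card := fun q => by
    rw [Finset.filter_image, Finset.card_image_of_injective _ (mul_right_injective g)]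
    refine congrArg Finset.card (Finset.filter_congr fun a _ => ?_)
    rw [eq_inv_smul_iff]
    rfl
  set D := F.image (g * ·) ∆ F
  calc ∑ q ∈ S, (cosetWeight N F (g⁻¹ • q) - cosetWeight N F q) ^ 2
      ≤ ∑ q ∈ S, |cosetMass N F (g⁻¹ • q) - cosetMass N F q| := by
        refine Finset.sum_le_sum fun q _ => ?_
        have h1 := Real.sq_sqrt (cosetMass_nonneg N F (g⁻¹ • q))
        have h2 := Real.sq_sqrt (cosetMass_nonneg N F q)
        unfold cosetWeight
        set x := Real.sqrt (cosetMass N F (g⁻¹ • q))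
        set y := Real.sqrt (cosetMass N F q)
        have hx : 0 ≤ x := Real.sqrt_nonneg _
        have hy : 0 ≤ y := Real.sqrt_nonneg _
        rw [← h1, ← h2]
        rcases le_total x y with h | h
        · rw [abs_of_nonpos (by nlinarith)]; nlinarith
        · rw [abs_of_nonneg (by nlinarith)]; nlinarith
    _ ≤ ∑ q ∈ S, ((D.filter fun a : G => (a : G ⧸ N) = q).card : ℝ) / F.card := by
        refine Finset.sum_le_sum fun q _ => ?_
        rw [cosetMass, cosetMass, hshift, ← sub_div, abs_div, Nat.abs_cast]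
        gcongr
        set P := (F.image (g * ·)).filter fun a : G => (a : G ⧸ N) = q with hP
        set Q := F.filter fun a : G => (a : G ⧸ N) = q with hQ
        set E := D.filter fun a : G => (a : G ⧸ N) = q with hE
        have hPQ : P ⊆ Q ∪ E := fun a ha => by
          obtain ⟨h1, h2⟩ := Finset.mem_filter.1 ha
          by_cases h3 : a ∈ F
          · exact Finset.mem_union_left _ (Finset.mem_filter.2 ⟨h3, h2⟩)
          · exact Finset.mem_union_right _
              (Finset.mem_filter.2 ⟨Finset.mem_symmDiff.2 (Or.inl ⟨h1, h3⟩), h2⟩)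
        have hQP : Q ⊆ P ∪ E := fun a ha => by
          obtain ⟨h1, h2⟩ := Finset.mem_filter.1 ha
          by_cases h3 : a ∈ F.image (g * ·)
          · exact Finset.mem_union_left _ (Finset.mem_filter.2 ⟨h3, h2⟩)
          · exact Finset.mem_union_right _
              (Finset.mem_filter.2 ⟨Finset.mem_symmDiff.2 (Or.inr ⟨h1, h3⟩), h2⟩)
        have n1 : (P.card : ℝ) ≤ Q.card + E.card := by
          exact_mod_cast (Finset.card_le_card hPQ).trans (Finset.card_union_le _ _)
        have n2 : (Q.card : ℝ) ≤ P.card + E.card := by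
          exact_mod_cast (Finset.card_le_card hQP).trans (Finset.card_union_le _ _)
        rw [abs_le]
        constructor <;> linarith
    _ ≤ (D.card : ℝ) / F.card := by
        rw [← Finset.sum_div]
        gcongr
        calc ∑ q ∈ S, ((D.filter fun a : G => (a : G ⧸ N) = q).card : ℝ)
            = ((D.filter fun a : G => (a : G ⧸ N) ∈ S).card : ℝ) := by
              rw [Finset.card_eq_sum_card_fiberwise (s := D.filter fun a : G => (a : G ⧸ N) ∈ S)
                (t := S) (f := fun a : G => (a : G ⧸ N)) (fun a ha => (Finset.mem_filter.1 ha).2)]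
              push_cast
              refine Finset.sum_congr rfl fun q hq => ?_
              rw [Finset.filter_filter]
              congr 2
              exact Finset.filter_congr fun a _ => ⟨fun h => ⟨h ▸ hq, h⟩, fun h => h.2⟩
          _ ≤ _ := by exact_mod_cast Finset.card_filter_le _ _

end Weights

end Vale.Agent.P095.Full
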