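import Vale.Agent.P095.Defs
import Vale.Agent.P095.Gamma.Defs

/-!
# P095, all amenable groups: definitions

Standard notions for a unital C*-algebra stated without a chosen order: nuclearity by completely
positive factorisations through matrix algebras, simplicity, elements acting trivially on central
sequences.
-/

noncomputable section

namespace Vale.Agent.P095.Full

universe u v

open Vale.Agent.P095.Gamma

variable (A : Type u) [CStarAlgebra A]

/-- Completely positive: `∑ᵢⱼ bᵢ* φ(aᵢ* aⱼ) bⱼ` is always positive. -/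
def IsCPMap {B : Type u} {C : Type*} [CStarAlgebra B] [Ring C] [StarRing C] [Module ℂ C]
    (φ : B →ₗ[ℂ] C) : Prop :=
  ∀ (k : ℕ) (a : Fin k → B) (b : Fin k → C), ∃ w : C,
    ∑ i, ∑ j, star (b i) * φ (star (a i) * a j) * b j = star w * w

/-- Completely positive maps out of a matrix algebra. -/
def IsCPMapMat {n : ℕ} (ψ : Matrix (Fin n) (Fin n) ℂ →ₗ[ℂ] A) : Prop :=
  ∀ (k : ℕ) (a : Fin k → Matrix (Fin n) (Fin n) ℂ) (b : Fin k → A), ∃ w : A,
    ∑ i, ∑ j, star (b i) * ψ (star (a i) * a j) * b j = star w * w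

/-- Completely positive approximation of the identity through matrix algebras. -/
def IsNuclear : Prop :=
  ∀ (X : Finset A) (ε : ℝ), 0 < ε →
    ∃ (n : ℕ) (φ : A →ₗ[ℂ] Matrix (Fin n) (Fin n) ℂ) (ψ : Matrix (Fin n) (Fin n) ℂ →ₗ[ℂ] A),
      IsCPMap φ ∧ IsCPMapMat A ψ ∧ ∀ x ∈ X, ‖ψ (φ x) - x‖ ≤ ε

/-- Algebraic simplicity, equivalent to simplicity for unital C*-algebras. -/
def IsSimpleUnital : Prop :=
  ∀ a : A, a ≠ 0 → ∃ (k : ℕ) (b c : Fin k → A), ∑ i, b i * a * c i = 1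

variable {A}

/-- `0 ≤ a`, without a chosen order. -/
def IsPos (a : A) : Prop := ∃ w : A, a = star w * w

theorem IsPos.isSelfAdjoint {a : A} (h : IsPos a) : IsSelfAdjoint a := by
  obtain ⟨w, rfl⟩ := h
  exact IsSelfAdjoint.star_mul_self w

/-- `0 ≤ a ≤ 1`. -/
def IsPosContraction (a : A) : Prop := IsPos a ∧ ‖a‖ ≤ 1

/-- `(t - η)₊`. -/
def posCut (η t : ℝ) : ℝ := max (t - η) 0

variable {G : Type v} [Group G] (α : G →* (A ≃⋆ₐ[ℂ] A))

/-- `g` moves sufficiently central contractions little: it acts trivially on `A_∞ ∩ A'`. -/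
def ActsTrivially (g : G) : Prop :=
  ∀ ε : ℝ, 0 < ε → ∃ (X : Finset A) (θ : ℝ), 0 < θ ∧ ∀ z : A, ‖z‖ ≤ 1 →
    (∀ x ∈ X, ‖x * z - z * x‖ ≤ θ) → ‖α g z - z‖ ≤ ε

/-- A positive element of norm one almost commuting with `X`. -/
def IsCentralBump (X : Finset A) (θ : ℝ) (P : A) : Prop :=
  IsPos P ∧ ‖P‖ = 1 ∧ ∀ x ∈ X, ‖x * P - P * x‖ ≤ θ

end Vale.Agent.P095.Full
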