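import Vale.Agent.P095.Full.Specs

/-!
# P095: excision of a state by nested plateaus

In a separable unital C*-algebra nested pairs `(aₖ, cₖ)` with `aₖ cₖ = cₖ`, `aₖ aₖ₊₁ = aₖ₊₁` are
built so that each element of a dense sequence of positive contractions is almost a scalar between
two copies of `aₖ`; the scalars define a state `ω` with `aₘ x aₘ ≈ ω(x) aₘ²` for all `x`.
-/

noncomputable section

namespace Vale.Agent.P095.Full

universe u

open Filter Topology

namespace Excision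

attribute [local instance] CStarAlgebra.spectralOrder CStarAlgebra.spectralOrderedRing

/-- Rises linearly from `0` at `s` to `1` at `s + w`. -/
def up (s w t : ℝ) : ℝ := max 0 (min 1 ((t - s) / w))

lemma continuous_up (s w : ℝ) : Continuous (up s w) := by unfold up; fun_prop

lemma up_nonneg (s w t : ℝ) : 0 ≤ up s w t := le_max_left _ _

lemma up_le_one (s w t : ℝ) : up s w t ≤ 1 := max_le zero_le_one (min_le_left _ _)

lemma abs_up_le (s w t : ℝ) : |up s w t| ≤ 1 := by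
  rw [abs_of_nonneg (up_nonneg s w t)]
  exact up_le_one s w t

lemma up_eq_one {s w t : ℝ} (hw : 0 < w) (h : s + w ≤ t) : up s w t = 1 := by
  have : 1 ≤ (t - s) / w := by rw [le_div_iff₀ hw]; linarith
  rw [up, min_eq_left this, max_eq_right zero_le_one]

lemma up_eq_zero {s w t : ℝ} (hw : 0 < w) (h : t ≤ s) : up s w t = 0 := by
  have : (t - s) / w ≤ 0 := div_nonpos_of_nonpos_of_nonneg (by linarith) hw.le
  rw [up, min_eq_right (this.trans zero_le_one), max_eq_left this]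

lemma up_mul_up {s w s' w' : ℝ} (hw : 0 < w) (hw' : 0 < w') (h : s + w ≤ s') (t : ℝ) :
    up s w t * up s' w' t = up s' w' t := by
  rcases le_total t s' with ht | ht
  · rw [up_eq_zero hw' ht, mul_zero]
  · rw [up_eq_one hw (h.trans ht), one_mul]

variable {A : Type u} [CStarAlgebra A]

lemma cfc_up_mul {c : A} {s w s' w' : ℝ} (hw : 0 < w) (hw' : 0 < w') (h : s + w ≤ s') :
    cfc (up s w) c * cfc (up s' w') c = cfc (up s' w') c := by
  rw [← cfc_mul _ _ c (continuous_up s w).continuousOn (continuous_up s' w').continuousOn]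
  exact cfc_congr fun t _ => up_mul_up hw hw' h t

lemma cfc_up_nonneg (c : A) (s w : ℝ) : 0 ≤ cfc (up s w) c :=
  cfc_nonneg fun t _ => up_nonneg s w t

lemma cfc_up_star (c : A) (s w : ℝ) : star (cfc (up s w) c) = cfc (up s w) c :=
  (cfc_predicate (up s w) c : IsSelfAdjoint _).star_eq

lemma norm_cfc_up_le (c : A) (s w : ℝ) : ‖cfc (up s w) c‖ ≤ 1 :=
  norm_cfc_le zero_le_one fun t _ => by rw [Real.norm_eq_abs]; exact abs_up_le s w t

lemma norm_cfc_up [Nontrivial A] {c : A} (hc : 0 ≤ c) (hc1 : ‖c‖ = 1) {s w : ℝ} (hw : 0 < w)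
    (h : s + w ≤ 1) : ‖cfc (up s w) c‖ = 1 := by
  refine le_antisymm (norm_cfc_up_le c s w) ?_
  have hm : (1 : ℝ) ∈ spectrum ℝ c := hc1 ▸ CStarAlgebra.norm_mem_spectrum_of_nonneg hc
  have := norm_apply_le_norm_cfc (𝕜 := ℝ) (up s w) c hm (continuous_up s w).continuousOn
    (IsSelfAdjoint.of_nonneg hc)
  rwa [up_eq_one hw h, norm_one] at this

/-- An element fixing `c` fixes the functions of `c` supported away from `0`. -/
lemma mul_cfc_up {a c : A} (hc : 0 ≤ c) (hac : a * c = c) {s w : ℝ} (hs : 0 < s) (hw : 0 < w) :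
    a * cfc (up s w) c = cfc (up s w) c := by
  have hg : Continuous fun t : ℝ => (max s t)⁻¹ :=
    Continuous.inv₀ (by fun_prop) fun t => (lt_of_lt_of_le hs (le_max_left _ _)).ne'
  have h0 : cfc (up 0 s) c = c * cfc (fun t => (max s t)⁻¹) c := by
    conv_rhs => enter [1]; rw [← cfc_id' ℝ c (IsSelfAdjoint.of_nonneg hc)]
    rw [← cfc_mul (fun t : ℝ => t) _ c (by fun_prop) hg.continuousOn]
    refine cfc_congr fun t ht => ?_
    have ht0 : 0 ≤ t := spectrum_nonneg_of_nonneg hc ht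
    rcases le_total t s with hts | hts
    · have h1 : (t - 0) / s ≤ 1 := by rw [sub_zero, div_le_one hs]; exact hts
      rw [up, min_eq_right h1, max_eq_right (by rw [sub_zero]; positivity), max_eq_left hts,
        sub_zero, div_eq_mul_inv]
    · rw [up_eq_one hs (by linarith), max_eq_right hts,
        mul_inv_cancel₀ (lt_of_lt_of_le hs hts).ne']
  rw [← cfc_up_mul (c := c) (s := 0) hs hw (by linarith), ← mul_assoc, h0, ← mul_assoc, hac]

lemma norm_conj_le (x : A) {g : A} (hg : ‖g‖ ≤ 1) : ‖g * x * g‖ ≤ ‖x‖ := by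
  calc ‖g * x * g‖ ≤ ‖g‖ * ‖x‖ * ‖g‖ :=
        (norm_mul_le _ _).trans (mul_le_mul_of_nonneg_right (norm_mul_le _ _) (norm_nonneg _))
    _ ≤ 1 * ‖x‖ * 1 := by gcongr
    _ = ‖x‖ := by ring

/-- Between two windows `G₁ ≤ G₂` on which `y` has almost the same norm there is a plateau. -/
theorem from_windows [Nontrivial A] {a y G₁ G₂ : A} {e ε : ℝ} (hy : 0 ≤ y) (hy1 : ‖y‖ ≤ 1)
    (he : 0 < e) (he1 : e ≤ 1) (heε : e ≤ ε) (hG₂0 : 0 ≤ G₂) (hG₁0 : 0 ≤ G₁) (hG₁n : ‖G₁‖ ≤ 1)
    (hGG : G₂ * G₁ = G₁) (hGG' : G₁ * G₂ = G₁) (haG : a * G₁ = G₁) (hD : 0 ≤ G₁ - G₁ * G₁)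
    (hM : e < ‖G₁ * y * G₁‖) (hdrop : ‖G₂ * y * G₂‖ ≤ ‖G₁ * y * G₁‖ + e ^ 3 / 32) :
    ∃ (a' c' : A) (μ : ℝ), 0 ≤ a' ∧ ‖a'‖ ≤ 1 ∧ 0 ≤ c' ∧ ‖c'‖ = 1 ∧ a' * c' = c' ∧
      a * a' = a' ∧ ‖a' * y * a' - μ • (a' * a')‖ ≤ ε := by
  have hG₁s : star G₁ = G₁ := (IsSelfAdjoint.of_nonneg hG₁0).star_eq
  have hGy : G₁ * (G₂ * y * G₂) * G₁ = G₁ * y * G₁ := by
    calc G₁ * (G₂ * y * G₂) * G₁ = (G₁ * G₂) * y * (G₂ * G₁) := by simp only [mul_assoc]
      _ = _ := by rw [hGG', hGG]
  set h := G₁ * y * G₁ with hh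
  set M := ‖h‖ with hMdef
  have hMh : ‖h‖ = M := rfl
  have hM0 : 0 < M := he.trans hM
  have hM1 : M ≤ 1 := (norm_conj_le y hG₁n).trans hy1
  have hh0 : 0 ≤ h := conjugate_nonneg_of_nonneg hy hG₁0
  set k := M⁻¹ • h with hk
  have hk0 : 0 ≤ k := smul_nonneg (inv_nonneg.2 hM0.le) hh0
  have hk1 : ‖k‖ = 1 := by
    rw [hk, norm_smul, hMh, Real.norm_eq_abs, abs_of_pos (inv_pos.2 hM0), inv_mul_cancel₀ hM0.ne']
  have hks : IsSelfAdjoint k := IsSelfAdjoint.of_nonneg hk0
  have hMk : M • k = h := by rw [hk, smul_smul, mul_inv_cancel₀ hM0.ne', one_smul]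
  have hak : a * k = k := by
    rw [hk, mul_smul_comm, hh, ← mul_assoc, ← mul_assoc, haG]
  set ρ : ℝ := e ^ 2 / 64 with hρdef
  have hρ : 0 < ρ := by positivity
  have hρ1 : 2 * ρ < 1 := by nlinarith
  set f := up (1 - 2 * ρ) ρ with hf
  have hfc : Continuous f := continuous_up _ _
  set a' := cfc f k with ha'
  have ha's : star a' = a' := cfc_up_star _ _ _
  have ha'1 : ‖a'‖ ≤ 1 := norm_cfc_up_le _ _ _
  refine ⟨a', cfc (up (1 - ρ) ρ) k, M, cfc_up_nonneg _ _ _, ha'1, cfc_up_nonneg _ _ _,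
    norm_cfc_up hk0 hk1 hρ (by linarith), cfc_up_mul hρ hρ (by linarith),
    mul_cfc_up hk0 hak (by linarith) hρ, ?_⟩
  have hspec : ∀ t ∈ spectrum ℝ k, 0 ≤ t ∧ t ≤ 1 := fun t ht =>
    ⟨spectrum_nonneg_of_nonneg hk0 ht,
      (le_abs_self t).trans (hk1 ▸ spectrum.norm_le_norm_of_mem ht)⟩
  have hquad : ∀ p q : ℝ, a' * (p • (1 : A) + q • k) * a' =
      cfc (fun t => f t * (p + q * t) * f t) k := by
    intro p q
    rw [cfc_mul (fun t => f t * (p + q * t)) f k (by fun_prop) hfc.continuousOn,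
      cfc_mul f (fun t => p + q * t) k hfc.continuousOn (by fun_prop),
      cfc_add k (fun _ => p) (fun t => q * t) (by fun_prop) (by fun_prop), cfc_const p k hks,
      cfc_const_mul_id q k hks, Algebra.algebraMap_eq_smul_one]
  have hsupp : ∀ t, f t ≠ 0 → 1 - 2 * ρ < t := fun t ht => by
    by_contra hle
    exact ht (up_eq_zero hρ (not_lt.1 hle))
  have hb : ∀ (g : ℝ → ℝ) (B : ℝ), 0 ≤ B → (∀ t, 1 - 2 * ρ < t → t ≤ 1 → |g t| ≤ B) →
      ‖cfc (fun t => f t * g t * f t) k‖ ≤ B := by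
    intro g B hB hg
    refine norm_cfc_le hB fun t ht => ?_
    rw [Real.norm_eq_abs]
    by_cases hft : f t = 0
    · simp [hft, hB]
    · rw [abs_mul, abs_mul]
      calc |f t| * |g t| * |f t| ≤ 1 * B * 1 := by
            gcongr
            exacts [abs_up_le _ _ _, hg t (hsupp t hft) (hspec t ht).2, abs_up_le _ _ _]
        _ = B := by ring
  have hfirst : ‖a' * h * a' - M • (a' * a')‖ ≤ 2 * ρ := by
    have heq : a' * h * a' - M • (a' * a') = a' * ((-M) • (1 : A) + M • k) * a' := by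
      rw [hMk, mul_add, add_mul, mul_smul_comm, smul_mul_assoc, mul_one, neg_smul]
      abel
    rw [heq, hquad]
    refine hb _ _ (by positivity) fun t ht1 ht2 => ?_
    rw [abs_le]
    constructor <;> nlinarith
  set m₂ := ‖G₂ * y * G₂‖ with hm₂
  have hm₂M : M ≤ m₂ := by
    rw [hMdef, hm₂, ← hGy]
    exact norm_conj_le _ hG₁n
  have hm₂0 : 0 < m₂ := hM0.trans_le hm₂M
  have hle : h ≤ m₂ • (G₁ * G₁) := by
    have h0 : 0 ≤ G₂ * y * G₂ := conjugate_nonneg_of_nonneg hy hG₂0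
    have h1 : G₂ * y * G₂ ≤ algebraMap ℝ A m₂ :=
      (CStarAlgebra.norm_le_iff_le_algebraMap _ hm₂0.le h0).1 le_rfl
    have h2 := conjugate_le_conjugate_of_nonneg h1 hG₁0
    rwa [hGy, Algebra.algebraMap_eq_smul_one, mul_smul_comm, smul_mul_assoc, mul_one] at h2
  have hsq : (1 - G₁) * (1 - G₁) ≤ 1 - G₁ * G₁ := by
    rw [← sub_nonneg]
    have : 1 - G₁ * G₁ - (1 - G₁) * (1 - G₁) = (G₁ - G₁ * G₁) + (G₁ - G₁ * G₁) := by noncomm_ring
    rw [this]
    exact add_nonneg hD hD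
  have hsq2 : (1 - G₁) * (1 - G₁) ≤ (1 : ℝ) • (1 : A) + (-(M / m₂)) • k := by
    refine hsq.trans ?_
    rw [one_smul, neg_smul, ← sub_eq_add_neg, sub_le_sub_iff_left, div_eq_inv_mul, ← smul_smul, hMk]
    calc m₂⁻¹ • h ≤ m₂⁻¹ • (m₂ • (G₁ * G₁)) :=
          smul_le_smul_of_nonneg_left hle (inv_nonneg.2 hm₂0.le)
      _ = G₁ * G₁ := by rw [smul_smul, inv_mul_cancel₀ hm₂0.ne', one_smul]
  have hdist : ‖(1 - G₁) * a'‖ ≤ e / 4 := by
    have hstar : star ((1 - G₁) * a') * ((1 - G₁) * a') = a' * ((1 - G₁) * (1 - G₁)) * a' := by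
      rw [star_mul, star_sub, star_one, ha's, hG₁s]
      simp only [mul_assoc]
    have h1 : ‖a' * ((1 - G₁) * (1 - G₁)) * a'‖ ≤ 2 * ρ + (1 - M / m₂) := by
      refine (CStarAlgebra.norm_le_norm_of_nonneg_of_le (hstar ▸ star_mul_self_nonneg _)
        (conjugate_le_conjugate_of_nonneg hsq2 (cfc_up_nonneg _ _ _))).trans ?_
      rw [hquad]
      have hq0 : 0 ≤ M / m₂ := by positivity
      have hq1 : M / m₂ ≤ 1 := (div_le_one hm₂0).2 hm₂M
      refine hb _ _ (by linarith) fun t ht1 ht2 => ?_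
      rw [abs_le]
      constructor <;> nlinarith
    have h2 : 1 - M / m₂ ≤ e ^ 2 / 32 := by
      rw [one_sub_div hm₂0.ne', div_le_iff₀ hm₂0]
      nlinarith
    have h4 : ‖(1 - G₁) * a'‖ ^ 2 ≤ (e / 4) ^ 2 := by
      rw [sq, ← CStarRing.norm_star_mul_self, hstar]
      nlinarith
    exact le_of_pow_le_pow_left₀ two_ne_zero (by positivity) h4
  have hdist' : ‖a' * (1 - G₁)‖ ≤ e / 4 := by
    rw [← norm_star, star_mul, star_sub, star_one, ha's, hG₁s]
    exact hdist
  have hsplit : a' * y * a' - M • (a' * a') = (a' * h * a' - M • (a' * a')) +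
      (a' * (1 - G₁) * y * (G₁ * a') + a' * y * ((1 - G₁) * a')) := by
    rw [hh]
    noncomm_ring
  have hg : ‖G₁ * a'‖ ≤ 1 := (norm_mul_le _ _).trans
    (mul_le_one₀ hG₁n (norm_nonneg _) ha'1)
  rw [hsplit]
  calc ‖(a' * h * a' - M • (a' * a')) +
        (a' * (1 - G₁) * y * (G₁ * a') + a' * y * ((1 - G₁) * a'))‖
      ≤ 2 * ρ + (e / 4 * 1 * 1 + 1 * 1 * (e / 4)) := by
        refine (norm_add_le _ _).trans (add_le_add hfirst ((norm_add_le _ _).trans ?_))
        refine add_le_add ?_ ?_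
        · refine (norm_mul_le _ _).trans (mul_le_mul ((norm_mul_le _ _).trans
            (mul_le_mul hdist' hy1 (norm_nonneg _) (by positivity))) hg (norm_nonneg _)
            (by positivity))
        · exact (norm_mul_le _ _).trans (mul_le_mul ((norm_mul_le _ _).trans
            (mul_le_mul ha'1 hy1 (norm_nonneg _) zero_le_one)) hdist (norm_nonneg _)
            (by positivity))
    _ ≤ ε := by nlinarith

/-- One step: below a plateau a new one, between two copies of which `y` is almost a scalar. -/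
theorem step [Nontrivial A] {a c y : A} (hc : 0 ≤ c) (hc1 : ‖c‖ = 1) (hac : a * c = c)
    (hy : 0 ≤ y) (hy1 : ‖y‖ ≤ 1) {ε : ℝ} (hε : 0 < ε) :
    ∃ (a' c' : A) (μ : ℝ), 0 ≤ a' ∧ ‖a'‖ ≤ 1 ∧ 0 ≤ c' ∧ ‖c'‖ = 1 ∧ a' * c' = c' ∧
      a * a' = a' ∧ ‖a' * y * a' - μ • (a' * a')‖ ≤ ε := by
  set e := min ε 1
  have he : 0 < e := lt_min hε one_pos
  have he1 : e ≤ 1 := min_le_right _ _
  have heε : e ≤ ε := min_le_left _ _
  obtain ⟨N, hN⟩ := exists_nat_gt (32 / e ^ 3)
  have hNpos : (0 : ℝ) < N := lt_trans (by positivity) hN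
  set w : ℝ := 1 / ((N : ℝ) + 3) with hwdef
  have hw : 0 < w := by positivity
  have hfit : ∀ j : ℕ, j ≤ N + 2 → (j : ℝ) * w + w ≤ 1 := by
    intro j hj
    have : (j : ℝ) ≤ N + 2 := by exact_mod_cast hj
    rw [hwdef, mul_one_div, ← add_div, div_le_one (by positivity)]
    linarith
  set W : ℕ → A := fun j => cfc (up ((j : ℝ) * w) w) c with hW
  have hWle : ∀ j, ‖W j‖ ≤ 1 := fun j => norm_cfc_up_le _ _ _
  have hWstar : ∀ j, star (W j) = W j := fun j => cfc_up_star _ _ _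
  have hWnn : ∀ j, 0 ≤ W j := fun j => cfc_up_nonneg _ _ _
  have hWW : ∀ j, W j * W (j + 1) = W (j + 1) := fun j =>
    cfc_up_mul hw hw (by push_cast; linarith)
  have hWW' : ∀ j, W (j + 1) * W j = W (j + 1) := fun j => by
    have := congrArg star (hWW j)
    rwa [star_mul, hWstar, hWstar] at this
  have haW : ∀ j, a * W (j + 1) = W (j + 1) := fun j =>
    mul_cfc_up hc hac (by positivity) hw
  set m : ℕ → ℝ := fun j => ‖W j * y * W j‖ with hm
  have hWy : ∀ j, W (j + 1) * (W j * y * W j) * W (j + 1) = W (j + 1) * y * W (j + 1) := fun j => by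
    calc W (j + 1) * (W j * y * W j) * W (j + 1)
        = (W (j + 1) * W j) * y * (W j * W (j + 1)) := by simp only [mul_assoc]
      _ = _ := by rw [hWW', hWW]
  by_cases hsmall : ∃ j, j ≤ N ∧ m j ≤ e
  · obtain ⟨j, hj, hmj⟩ := hsmall
    refine ⟨W (j + 1), W (j + 1 + 1), 0, hWnn _, hWle _, hWnn _,
      norm_cfc_up hc hc1 hw (hfit _ (by omega)), hWW _, haW j, ?_⟩
    rw [zero_smul, sub_zero, ← hWy j]
    exact ((norm_conj_le _ (hWle _)).trans hmj).trans heε
  push Not at hsmall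
  obtain ⟨j, hj, hdrop⟩ : ∃ j < N, m j ≤ m (j + 1) + 1 / N := by
    by_contra hcon
    push Not at hcon
    have key : ∀ k ≤ N, m k ≤ m 0 - k / N := by
      intro k
      induction k with
      | zero => intro _; simp
      | succ k ih =>
        intro hk
        have h1 := ih (by omega)
        have h2 := hcon k (by omega)
        push_cast
        rw [add_div]
        linarith
    have h1 := key N le_rfl
    have h2 : m 0 ≤ 1 := (norm_conj_le y (hWle 0)).trans hy1
    have h3 := hsmall N le_rfl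
    rw [div_self hNpos.ne'] at h1
    linarith
  have h3 : 1 / (N : ℝ) ≤ e ^ 3 / 32 := by
    rw [div_le_iff₀ hNpos]
    have := (div_lt_iff₀ (by positivity : (0 : ℝ) < e ^ 3)).1 hN
    linarith
  have hD : 0 ≤ W (j + 1) - W (j + 1) * W (j + 1) := by
    set u := up (((j + 1 : ℕ) : ℝ) * w) w with hu
    have hcu : Continuous u := continuous_up _ _
    rw [show W (j + 1) = cfc u c from rfl, ← cfc_mul u u c hcu.continuousOn hcu.continuousOn,
      ← cfc_sub u (fun t => u t * u t) c hcu.continuousOn (hcu.mul hcu).continuousOn]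
    refine cfc_nonneg fun t _ => ?_
    have := up_nonneg (((j + 1 : ℕ) : ℝ) * w) w t
    have := up_le_one (((j + 1 : ℕ) : ℝ) * w) w t
    nlinarith
  exact from_windows hy hy1 he he1 heε (hWnn j) (hWnn (j + 1)) (hWle _) (hWW j) (hWW' j) (haW j)
    hD (hsmall _ (by omega)) (by linarith)

/-- A plateau and its tent. -/
structure Pair (A : Type u) [CStarAlgebra A] where
  /-- The plateau. -/
  a : A
  /-- The element it fixes. -/
  c : A
  a_nonneg : 0 ≤ a
  a_norm : ‖a‖ ≤ 1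
  c_nonneg : 0 ≤ c
  c_norm : ‖c‖ = 1
  mul_eq : a * c = c

lemma Pair.a_star (p : Pair A) : star p.a = p.a := (IsSelfAdjoint.of_nonneg p.a_nonneg).star_eq

lemma Pair.norm_sq (p : Pair A) : ‖p.a * p.a‖ = 1 := by
  refine le_antisymm ((norm_mul_le _ _).trans
    (mul_le_one₀ p.a_norm (norm_nonneg _) p.a_norm)) ?_
  calc (1 : ℝ) = ‖p.a * p.a * p.c‖ := by rw [mul_assoc, p.mul_eq, p.mul_eq, p.c_norm]
    _ ≤ ‖p.a * p.a‖ * ‖p.c‖ := norm_mul_le _ _
    _ = ‖p.a * p.a‖ := by rw [p.c_norm, mul_one]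

/-- The nested sequence below a first plateau for a given sequence of positive contractions. -/
theorem exists_nested [Nontrivial A] (p₀ : Pair A) (y : ℕ → A) (hy : ∀ k, 0 ≤ y k ∧ ‖y k‖ ≤ 1)
    (e : ℕ → ℝ) (he : ∀ k, 0 < e k) :
    ∃ (P : ℕ → Pair A) (μ : ℕ → ℝ), (∀ m, 0 < m → p₀.a * (P m).a = (P m).a) ∧ ∀ k, ∀ m, k < m →
      ‖(P m).a * y k * (P m).a - μ k • ((P m).a * (P m).a)‖ ≤ e k := by
  have hst : ∀ (k : ℕ) (p : Pair A), ∃ (q : Pair A) (μ : ℝ), p.a * q.a = q.a ∧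
      ‖q.a * y k * q.a - μ • (q.a * q.a)‖ ≤ e k := by
    intro k p
    obtain ⟨a', c', μ, h1, h2, h3, h4, h5, h6, h7⟩ :=
      step p.c_nonneg p.c_norm p.mul_eq (hy k).1 (hy k).2 (he k)
    exact ⟨⟨a', c', h1, h2, h3, h4, h5⟩, μ, h6, h7⟩
  choose q μ hq hμ using hst
  let P : ℕ → Pair A := fun n => Nat.rec p₀ q n
  refine ⟨P, fun k => μ k (P k), ?_⟩
  have hnest : ∀ i j, i < j → (P i).a * (P j).a = (P j).a := by
    intro i j hij
    induction j, hij using Nat.le_induction with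
    | base => exact hq i (P i)
    | succ j _ ih =>
      show (P i).a * (q j (P j)).a = (q j (P j)).a
      rw [← hq j (P j), ← mul_assoc, ih]
  refine ⟨fun m hm => hnest 0 m hm, ?_⟩
  intro k m hkm
  have hk : ‖(P (k + 1)).a * y k * (P (k + 1)).a - μ k (P k) • ((P (k + 1)).a * (P (k + 1)).a)‖ ≤
      e k := hμ k (P k)
  rcases (Nat.succ_le_of_lt hkm).lt_or_eq with hlt | heq
  · set A' := (P (k + 1)).a
    set Am := (P m).a
    have hl : A' * Am = Am := hnest _ _ hlt
    have hr : Am * A' = Am := by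
      have := congrArg star hl
      rwa [star_mul, Pair.a_star, Pair.a_star] at this
    have : Am * y k * Am - μ k (P k) • (Am * Am) =
        Am * (A' * y k * A' - μ k (P k) • (A' * A')) * Am := by
      rw [mul_sub, sub_mul, mul_smul_comm, smul_mul_assoc,
        show Am * (A' * y k * A') * Am = (Am * A') * y k * (A' * Am) by simp only [mul_assoc],
        show Am * (A' * A') * Am = (Am * A') * (A' * Am) by simp only [mul_assoc], hl, hr]
    rw [this]
    exact (norm_conj_le _ (P m).a_norm).trans hk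
  · rw [← heq]
    exact hk

end Excision

open Excision in
attribute [local instance] CStarAlgebra.spectralOrder CStarAlgebra.spectralOrderedRing in
/-- A state excised below a given plateau. -/
theorem exists_excised_state (A : Type u) [CStarAlgebra A] [Nontrivial A]
    [TopologicalSpace.SeparableSpace A] (p₀ : Pair A) :
    ∃ ω : A →ₗ[ℂ] ℂ, (∀ x, ∃ r : ℝ, 0 ≤ r ∧ ω (star x * x) = (r : ℂ)) ∧ ω 1 = 1 ∧
      ∀ (X : Finset A) (ε : ℝ), 0 < ε → ∃ p : Pair A, p₀.a * p.a = p.a ∧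
        ∀ x ∈ X, ‖p.a * x * p.a - ω x • (p.a * p.a)‖ ≤ ε := by
  have : SecondCountableTopology A := UniformSpace.secondCountable_of_separable A
  have : Nonempty {y : A // 0 ≤ y ∧ ‖y‖ ≤ 1} := ⟨⟨0, le_rfl, by simp⟩⟩
  obtain ⟨d, hd⟩ := TopologicalSpace.exists_dense_seq {y : A // 0 ≤ y ∧ ‖y‖ ≤ 1}
  obtain ⟨P, μ, hP₀, hP⟩ := exists_nested p₀ (fun k => (d (Nat.unpair k).1 : A))
    (fun k => (d (Nat.unpair k).1).2) (fun k => 1 / ((Nat.unpair k).2 + 1)) fun k => by positivity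
  let Near : A → ℂ → ℝ → Prop := fun x l ε =>
    ∀ᶠ m in atTop, ‖(P m).a * x * (P m).a - l • ((P m).a * (P m).a)‖ ≤ ε
  let S : Submodule ℂ A :=
    { carrier := {x | ∀ ε : ℝ, 0 < ε → ∃ l, Near x l ε}
      zero_mem' := fun ε hε => ⟨0, Eventually.of_forall fun m => by simp [hε.le]⟩
      add_mem' := by
        intro x z hx hz ε hε
        obtain ⟨l, hl⟩ := hx (ε / 2) (half_pos hε)
        obtain ⟨l', hl'⟩ := hz (ε / 2) (half_pos hε)
        refine ⟨l + l', (hl.and hl').mono fun m hm => ?_⟩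
        have := (norm_add_le _ _).trans (add_le_add hm.1 hm.2)
        rw [mul_add, add_mul, add_smul, add_sub_add_comm]
        linarith
      smul_mem' := by
        intro s x hx ε hε
        obtain ⟨l, hl⟩ := hx (ε / (‖s‖ + 1)) (by positivity)
        refine ⟨s * l, hl.mono fun m hm => ?_⟩
        rw [mul_smul_comm, smul_mul_assoc, mul_smul, ← smul_sub, norm_smul]
        calc ‖s‖ * _ ≤ ‖s‖ * (ε / (‖s‖ + 1)) := mul_le_mul_of_nonneg_left hm (norm_nonneg _)
          _ ≤ (‖s‖ + 1) * (ε / (‖s‖ + 1)) := by gcongr; linarith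
          _ = ε := by field_simp }
  have hclose : ∀ x, (∀ ε : ℝ, 0 < ε → ∃ z ∈ S, ‖x - z‖ ≤ ε) → x ∈ S := by
    intro x hx ε hε
    obtain ⟨z, hz, hxz⟩ := hx (ε / 2) (half_pos hε)
    obtain ⟨l, hl⟩ := hz (ε / 2) (half_pos hε)
    refine ⟨l, hl.mono fun m hm => ?_⟩
    have h1 := (norm_conj_le (x - z) (P m).a_norm).trans hxz
    have h2 : (P m).a * x * (P m).a - l • ((P m).a * (P m).a) = (P m).a * (x - z) * (P m).a +
        ((P m).a * z * (P m).a - l • ((P m).a * (P m).a)) := by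
      rw [mul_sub, sub_mul]
      abel
    rw [h2]
    linarith [norm_add_le ((P m).a * (x - z) * (P m).a)
      ((P m).a * z * (P m).a - l • ((P m).a * (P m).a))]
  have hd' : ∀ i, (d i : A) ∈ S := by
    intro i ε hε
    obtain ⟨n, hn⟩ := exists_nat_one_div_lt hε
    refine ⟨(μ (Nat.pair i n) : ℂ), ?_⟩
    filter_upwards [eventually_gt_atTop (Nat.pair i n)] with m hm
    have := hP _ m hm
    simp only [Nat.unpair_pair] at this
    rw [Complex.coe_smul]
    exact this.trans hn.le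
  have hS : ∀ x : A, x ∈ S := by
    have hpos : ∀ x : A, 0 ≤ x → x ∈ S := by
      intro x hx
      have hc : (0 : ℝ) < ‖x‖ + 1 := by positivity
      have hx' : (‖x‖ + 1)⁻¹ • x ∈ S := by
        refine hclose _ fun ε hε => ?_
        have hmem : 0 ≤ (‖x‖ + 1)⁻¹ • x ∧ ‖(‖x‖ + 1)⁻¹ • x‖ ≤ 1 := by
          refine ⟨smul_nonneg (by positivity) hx, ?_⟩
          rw [norm_smul, Real.norm_eq_abs, abs_of_pos (inv_pos.2 hc), inv_mul_le_one₀ hc]
          linarith
        obtain ⟨i, hi⟩ := Metric.denseRange_iff.1 hd ⟨_, hmem⟩ ε hε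
        exact ⟨d i, hd' i, by rw [← dist_eq_norm]; exact hi.le⟩
      have := S.smul_mem ((‖x‖ + 1 : ℝ) : ℂ) hx'
      rwa [Complex.coe_smul, smul_smul, mul_inv_cancel₀ hc.ne', one_smul] at this
    intro x
    have : x ∈ Submodule.span ℂ {z : A | 0 ≤ z} := by rw [CStarAlgebra.span_nonneg]; trivial
    exact Submodule.span_le.2 hpos this
  have huniq : ∀ x l l' ε ε', Near x l ε → Near x l' ε' → ‖l - l'‖ ≤ ε + ε' := by
    intro x l l' ε ε' h h'
    obtain ⟨m, h1, h2⟩ := (h.and h').exists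
    set b := (P m).a * x * (P m).a
    set q := (P m).a * (P m).a
    calc ‖l - l'‖ = ‖(l - l') • q‖ := by rw [norm_smul, (P m).norm_sq, mul_one]
      _ = ‖(b - l' • q) - (b - l • q)‖ := by rw [sub_smul]; congr 1; abel
      _ ≤ _ := (norm_sub_le _ _).trans (by linarith)
  have hlim : ∀ x, ∃ l, ∀ ε : ℝ, 0 < ε → Near x l ε := by
    intro x
    choose l hl using fun n : ℕ => hS x (1 / (n + 1)) (by positivity)
    have hcau : CauchySeq l := by
      refine cauchySeq_of_le_tendsto_0 (fun n => 2 / ((n : ℝ) + 1)) (fun i j n hi hj => ?_) ?_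
      · rw [dist_eq_norm]
        refine (huniq x _ _ _ _ (hl i) (hl j)).trans ?_
        have h1 : 1 / ((i : ℝ) + 1) ≤ 1 / (n + 1) := Nat.one_div_le_one_div hi
        have h2 : 1 / ((j : ℝ) + 1) ≤ 1 / (n + 1) := Nat.one_div_le_one_div hj
        rw [show (2 : ℝ) / (n + 1) = 1 / (n + 1) + 1 / (n + 1) by ring]
        linarith
      · simpa [div_eq_mul_inv] using (tendsto_one_div_add_atTop_nhds_zero_nat (𝕜 := ℝ)).const_mul 2
    obtain ⟨L, hL⟩ := cauchySeq_tendsto_of_complete hcau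
    refine ⟨L, fun ε hε => ?_⟩
    obtain ⟨N, hN⟩ := Metric.tendsto_atTop.1 hL (ε / 2) (half_pos hε)
    obtain ⟨n, hn⟩ := exists_nat_one_div_lt (half_pos hε)
    have hi : 1 / ((max N n : ℕ) + 1 : ℝ) ≤ ε / 2 :=
      (Nat.one_div_le_one_div (le_max_right N n)).trans hn.le
    have hdl := (hN _ (le_max_left N n)).le
    rw [dist_eq_norm] at hdl
    refine (hl (max N n)).mono fun m hm => ?_
    calc ‖(P m).a * x * (P m).a - L • ((P m).a * (P m).a)‖
        = ‖((P m).a * x * (P m).a - l (max N n) • ((P m).a * (P m).a)) +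
            (l (max N n) - L) • ((P m).a * (P m).a)‖ := by rw [sub_smul]; congr 1; abel
      _ ≤ ε := by
        refine (norm_add_le _ _).trans ?_
        rw [norm_smul, (P m).norm_sq, mul_one]
        linarith
  choose w hw using hlim
  have heq : ∀ x l, (∀ ε : ℝ, 0 < ε → Near x l ε) → w x = l := by
    intro x l h
    rw [← sub_eq_zero, ← norm_eq_zero]
    refine le_antisymm (le_of_forall_pos_le_add fun ε hε => ?_) (norm_nonneg _)
    linarith [huniq x _ _ _ _ (hw x (ε / 2) (half_pos hε)) (h (ε / 2) (half_pos hε))]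
  let ω : A →ₗ[ℂ] ℂ :=
    { toFun := w
      map_add' := fun x z => heq _ _ fun ε hε => by
        refine ((hw x _ (half_pos hε)).and (hw z _ (half_pos hε))).mono fun m hm => ?_
        rw [mul_add, add_mul, add_smul, add_sub_add_comm]
        linarith [(norm_add_le _ _).trans (add_le_add hm.1 hm.2)]
      map_smul' := fun s x => heq _ _ fun ε hε => by
        have hε' : 0 < ε / (‖s‖ + 1) := by positivity
        refine (hw x _ hε').mono fun m hm => ?_
        rw [RingHom.id_apply, smul_eq_mul, mul_smul_comm, smul_mul_assoc, mul_smul, ← smul_sub,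
          norm_smul]
        calc ‖s‖ * _ ≤ ‖s‖ * (ε / (‖s‖ + 1)) := mul_le_mul_of_nonneg_left hm (norm_nonneg _)
          _ ≤ (‖s‖ + 1) * (ε / (‖s‖ + 1)) := by gcongr; linarith
          _ = ε := by field_simp }
  refine ⟨ω, fun x => ?_, ?_, fun X ε hε => ?_⟩
  · set l := w (star x * x) with hl
    have hre : star l = l := by
      refine (heq (star x * x) (star l) fun ε hε => (hw (star x * x) ε hε).mono fun m hm => ?_).symm
      rw [← norm_star] at hm
      simpa [star_sub, star_mul, star_smul, Pair.a_star, mul_assoc, ← hl] using hm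
    have hlr : (l.re : ℂ) = l := Complex.conj_eq_iff_re.1 hre
    refine ⟨l.re, ?_, hlr.symm⟩
    by_contra hneg
    push Not at hneg
    obtain ⟨m, hm⟩ := (hw (star x * x) (-l.re / 2) (by linarith)).exists
    set q := (P m).a * (P m).a with hq
    have hq0 : 0 ≤ q := by
      have := star_mul_self_nonneg (P m).a
      rwa [Pair.a_star] at this
    set Q := (P m).a * (star x * x) * (P m).a with hQ
    have hQ0 : 0 ≤ Q := conjugate_nonneg_of_nonneg (star_mul_self_nonneg x) (P m).a_nonneg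
    rw [← hl, ← hlr, Complex.coe_smul, sub_eq_add_neg, ← neg_smul] at hm
    have hb := CStarAlgebra.norm_le_norm_of_nonneg_of_le (smul_nonneg (by linarith) hq0)
      (le_add_of_nonneg_left hQ0 : (-l.re) • q ≤ Q + (-l.re) • q)
    rw [norm_smul, hq, (P m).norm_sq, mul_one, Real.norm_eq_abs,
      abs_of_pos (by linarith : 0 < -l.re)] at hb
    simp only [hq, Complex.ofReal_re] at hm
    linarith
  · exact heq 1 1 fun ε hε => Eventually.of_forall fun m => by simp [hε.le]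
  · obtain ⟨m, hm, hm0⟩ := (((Filter.eventually_all_finset X).2 fun x _ => hw x ε hε).and
      (eventually_gt_atTop 0)).exists
    exact ⟨P m, hP₀ m hm0, hm⟩

open Excision in
attribute [local instance] CStarAlgebra.spectralOrder CStarAlgebra.spectralOrderedRing in
/-- Excision of a state by positive elements with plateaus. -/
theorem excisionStatement : ExcisionStatement.{u} := by
  intro A _ _ _
  obtain ⟨ω, h1, h2, h3⟩ := exists_excised_state A
    ⟨1, 1, zero_le_one, CStarRing.norm_one.le, zero_le_one, CStarRing.norm_one, one_mul 1⟩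
  refine ⟨ω, h1, h2, fun X ε hε => ?_⟩
  obtain ⟨p, -, hp⟩ := h3 X ε hε
  refine ⟨p.a, p.c, ⟨?_, p.a_norm⟩, ?_, p.c_norm, p.mul_eq, hp⟩
  · exact ⟨CFC.sqrt p.a, by
      rw [(IsSelfAdjoint.of_nonneg (CFC.sqrt_nonneg _)).star_eq,
        CFC.sqrt_mul_sqrt_self _ p.a_nonneg]⟩
  · exact ⟨CFC.sqrt p.c, by
      rw [(IsSelfAdjoint.of_nonneg (CFC.sqrt_nonneg _)).star_eq,
        CFC.sqrt_mul_sqrt_self _ p.c_nonneg]⟩

end Vale.Agent.P095.Full
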