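import Vale.Agent.P095.Full.Specs

/-!
# P095, all amenable groups: nuclearity factors through any state

A completely positive map out of `M_n` is given by a positive matrix over `A`, hence by columns; a
completely positive map into `M_n` gives a functional on `M_n(A)` that is positive, and for simple
`A` every such functional is approximated on finite sets by sums of `Y ↦ ∑ ω (dᵢ* Yᵢⱼ dⱼ)`.
-/

noncomputable section

namespace Vale.Agent.P095.Full

open Finset

universe u

namespace Glimm

/-- A matrix all of whose forms are self-adjoint is hermitian. -/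
theorem star_entry {C : Type*} [Ring C] [StarRing C] [Algebra ℂ C] [StarModule ℂ C] {n : ℕ}
    (P : Fin n → Fin n → C)
    (h : ∀ b : Fin n → C, IsSelfAdjoint (∑ i, ∑ j, star (b i) * P i j * b j)) (p q : Fin n) :
    star (P p q) = P q p := by
  have hd : ∀ r, star (P r r) = P r r := fun r => by
    simpa [IsSelfAdjoint, Pi.single_apply, apply_ite (star : C → C)] using h (Pi.single r 1)
  have e : ∀ c : ℂ, star c • star (P p q) + c • star (P q p) = c • P p q + star c • P q p := by
    intro c
    have h1 := h (Pi.single p 1 + Pi.single q (c • 1))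
    simp only [IsSelfAdjoint, Pi.add_apply, star_add, add_mul, mul_add, sum_add_distrib] at h1
    simp [Pi.single_apply, apply_ite (star (R := C)), star_smul, hd] at h1
    rw [← sub_eq_zero] at h1 ⊢
    simp only [Complex.star_def] at h1 ⊢
    rw [← h1]
    module
  have e1 : star (P p q) + star (P q p) = P p q + P q p := by simpa using e 1
  have e2 : -star (P p q) + star (P q p) = P p q - P q p := by
    have e3 := congrArg (fun x => (-Complex.I) • x) (e Complex.I)
    simp [smul_add, smul_smul] at e3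
    rw [sub_eq_add_neg]
    simpa [neg_smul] using e3
  have e4 : (2 : ℂ) • star (P p q) = (2 : ℂ) • P q p := by
    rw [two_smul, two_smul]
    calc star (P p q) + star (P p q)
        = (star (P p q) + star (P q p)) - (-star (P p q) + star (P q p)) := by abel
      _ = (P p q + P q p) - (P p q - P q p) := by rw [e1, e2]
      _ = P q p + P q p := by abel
  exact (smul_right_injective C (two_ne_zero : (2 : ℂ) ≠ 0)) e4

variable {A : Type u} [CStarAlgebra A]

section functional

variable {ω : A →ₗ[ℂ] ℂ} (hpos : ∀ x, ∃ r : ℝ, 0 ≤ r ∧ ω (star x * x) = (r : ℂ))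
include hpos

theorem nonneg_re (x : A) : 0 ≤ (ω (star x * x)).re := by
  obtain ⟨r, hr, h⟩ := hpos x
  simpa [h] using hr

theorem map_star (a : A) : ω (star a) = star (ω a) := by
  have h := star_entry (fun i j => ω (star (![(1 : A), a] i) * ![(1 : A), a] j)) (fun b => ?_) 0 1
  · simpa using h.symm
  · have e : ∑ i, ∑ j, star (b i) * ω (star (![(1 : A), a] i) * ![(1 : A), a] j) * b j =
        ω (star (∑ i, b i • ![(1 : A), a] i) * ∑ j, b j • ![(1 : A), a] j) := by
      simp only [star_sum, star_smul, sum_mul, mul_sum, smul_mul_assoc, mul_smul_comm, map_sum,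
        map_smul, smul_eq_mul]
      rw [sum_comm]
      exact sum_congr rfl fun i _ => sum_congr rfl fun j _ => by ring
    rw [e]
    obtain ⟨r, -, hr⟩ := hpos (∑ i, b i • ![(1 : A), a] i)
    rw [hr]
    exact Complex.conj_ofReal r

/-- A null vector is orthogonal to everything. -/
theorem eq_zero_of_null {x : A} (hx : ω (star x * x) = 0) (y : A) : ω (star x * y) = 0 := by
  have key : ∀ x : A, ω (star x * x) = 0 → (ω (star x * y)).re = 0 := by
    intro x hx
    by_contra hne
    have h2 : (ω (star y * x)).re = (ω (star x * y)).re := by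
      rw [show star y * x = star (star x * y) by simp, map_star hpos]
      simp
    let t : ℝ := -((ω (star y * y)).re + 1) / (2 * (ω (star x * y)).re)
    have h := nonneg_re hpos ((t : ℂ) • x + y)
    simp only [star_add, star_smul, add_mul, mul_add, smul_mul_assoc, mul_smul_comm, map_add,
      map_smul, hx] at h
    simp [h2] at h
    have ht : t * (2 * (ω (star x * y)).re) = -((ω (star y * y)).re + 1) := by
      simp only [t]; field_simp
    linarith
  apply Complex.ext
  · simpa using key x hx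
  · have h := key (Complex.I • x)
      (by simp [star_smul, hx])
    simpa [star_smul, smul_mul_assoc] using h

end functional

variable [PartialOrder A] [StarOrderedRing A] {n : ℕ}

omit [PartialOrder A] [StarOrderedRing A] in
theorem form_apply (N Y : CStarMatrix (Fin n) (Fin n) A) (k : Fin n) :
    (star N * Y * N) k k = ∑ i, ∑ j, star (N i k) * Y i j * N j k := by
  simp only [CStarMatrix.mul_apply, CStarMatrix.star_apply, sum_mul]
  rw [sum_comm]

-- the scalar change `ℂ → ℝ` is not found at instance transparency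
set_option backward.isDefEq.respectTransparency false in
private local instance matCFC :
    ContinuousFunctionalCalculus ℝ (CStarMatrix (Fin n) (Fin n) A) IsSelfAdjoint :=
  IsSelfAdjoint.instContinuousFunctionalCalculus

set_option backward.isDefEq.respectTransparency false in
private local instance matNSC : NonnegSpectrumClass ℝ (CStarMatrix (Fin n) (Fin n) A) :=
  inferInstance

/-- A hermitian matrix is positive as soon as no compressed diagonal entry is negative. -/
theorem nonneg_of_forms (Y : CStarMatrix (Fin n) (Fin n) A) (hY : IsSelfAdjoint Y)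
    (h : ∀ (N : CStarMatrix (Fin n) (Fin n) A) (k : Fin n) (z : A), 0 ≤ z →
      (star N * Y * N) k k = -z → z = 0) : 0 ≤ Y := by
  have hN : (0 : CStarMatrix (Fin n) (Fin n) A) ≤ Y⁻ := CFC.negPart_nonneg Y
  suffices h0 : Y⁻ = 0 by
    rw [← CFC.posPart_sub_negPart Y hY, h0, sub_zero]; exact CFC.posPart_nonneg Y
  have hs : star Y⁻ = Y⁻ := (IsSelfAdjoint.of_nonneg hN).star_eq
  set S := CFC.sqrt Y⁻ * Y⁻ with hS
  have e1 : star Y⁻ * Y * Y⁻ = -(star S * S) := by
    have e : star S * S = Y⁻ * Y⁻ * Y⁻ := by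
      rw [hS, star_mul, hs, (IsSelfAdjoint.of_nonneg (CFC.sqrt_nonneg Y⁻)).star_eq, mul_assoc,
        ← mul_assoc (CFC.sqrt Y⁻), CFC.sqrt_mul_sqrt_self _ hN, ← mul_assoc]
    rw [e, hs]
    nth_rw 2 [← CFC.posPart_sub_negPart Y hY]
    rw [mul_sub, sub_mul, CFC.negPart_mul_posPart, zero_mul, zero_sub]
  have hS0 : S = 0 := by
    ext l k
    have hz : (star S * S) k k = ∑ l, star (S l k) * S l k := by
      simp [CStarMatrix.mul_apply, CStarMatrix.star_apply]
    have := h Y⁻ k ((star S * S) k k)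
      (by rw [hz]; exact sum_nonneg fun l _ => star_mul_self_nonneg _)
      (by rw [e1]; rfl)
    rw [hz, sum_eq_zero_iff_of_nonneg fun l _ => star_mul_self_nonneg _] at this
    simpa [CStarRing.star_mul_self_eq_zero_iff] using this l (mem_univ l)
  have h3 : Y⁻ * Y⁻ * Y⁻ = 0 := by
    rw [hS] at hS0
    calc Y⁻ * Y⁻ * Y⁻ = Y⁻ * (CFC.sqrt Y⁻ * (CFC.sqrt Y⁻ * Y⁻)) := by
          rw [← mul_assoc (CFC.sqrt Y⁻), CFC.sqrt_mul_sqrt_self _ hN, mul_assoc]
      _ = 0 := by rw [hS0, mul_zero, mul_zero]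
  have h4 : Y⁻ * Y⁻ = 0 := by
    rw [← CStarRing.star_mul_self_eq_zero_iff, star_mul, hs, ← mul_assoc, h3, zero_mul]
  rw [← CStarRing.star_mul_self_eq_zero_iff, hs, h4]

theorem exists_sqrt_columns {Y : CStarMatrix (Fin n) (Fin n) A} (hY : 0 ≤ Y) :
    ∃ C : Fin n → Fin n → A, ∀ i j, Y i j = ∑ k, star (C k i) * C k j := by
  refine ⟨fun k i => CFC.sqrt Y k i, fun i j => ?_⟩
  have := congrFun (congrFun (CFC.sqrt_mul_sqrt_self Y hY).symm i) j
  rw [CStarMatrix.mul_apply] at this
  refine this.trans (sum_congr rfl fun k _ => ?_)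
  rw [CStarMatrix.star_apply_of_isSelfAdjoint (IsSelfAdjoint.of_nonneg (CFC.sqrt_nonneg Y))]

/-- In a simple algebra a positive element killed by all compressions of a state is zero. -/
theorem eq_zero_of_compressions (hA : IsSimpleUnital A) {ω : A →ₗ[ℂ] ℂ}
    (hpos : ∀ x, ∃ r : ℝ, 0 ≤ r ∧ ω (star x * x) = (r : ℂ)) (h1 : ω 1 = 1) {z : A} (hz : 0 ≤ z)
    (h : ∀ b, (ω (star b * z * b)).re ≤ 0) : z = 0 := by
  by_contra hne
  obtain ⟨k, b, c, hsum⟩ := hA z hne
  let w := CFC.sqrt z
  have hw : star w = w := (IsSelfAdjoint.of_nonneg (CFC.sqrt_nonneg z)).star_eq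
  have hww : w * w = z := CFC.sqrt_mul_sqrt_self z hz
  have hzero : ∀ b, ω (star (w * b) * (w * b)) = 0 := by
    intro b
    obtain ⟨r, hr, he⟩ := hpos (w * b)
    have := h b
    rw [← hww, show star b * (w * w) * b = star (w * b) * (w * b) by
      rw [star_mul, hw]; noncomm_ring, he] at this
    have hr0 : r = 0 := le_antisymm (by simpa using this) hr
    rw [he, hr0, Complex.ofReal_zero]
  have : ω 1 = 0 := by
    rw [← hsum, map_sum]
    refine sum_eq_zero fun i _ => ?_
    rw [show b i * z * c i = star (w * star (b i)) * (w * c i) by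
      rw [star_mul, hw, star_star, ← hww]; noncomm_ring]
    exact eq_zero_of_null hpos (hzero _) _
  rw [h1] at this
  exact one_ne_zero this

/-- A completely positive map out of `M_n` is given by columns. -/
theorem exists_columns (ψ : Matrix (Fin n) (Fin n) ℂ →ₗ[ℂ] A) (hψ : IsCPMapMat A ψ) :
    ∃ C : Fin n → Fin n → A, ∀ i j, ψ (Matrix.single i j 1) = ∑ k, star (C k i) * C k j := by
  classical
  rcases Nat.eq_zero_or_pos n with rfl | hn
  · exact ⟨finZeroElim, finZeroElim⟩
  have hform : ∀ b : Fin n → A,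
      0 ≤ ∑ i, ∑ j, star (b i) * ψ (Matrix.single i j 1) * b j := by
    intro b
    obtain ⟨w, hw⟩ := hψ n (fun i => Matrix.single ⟨0, hn⟩ i 1) b
    simp [Matrix.star_eq_conjTranspose, Matrix.conjTranspose_single] at hw
    rw [hw]
    exact star_mul_self_nonneg w
  let P : CStarMatrix (Fin n) (Fin n) A := CStarMatrix.ofMatrix fun i j => ψ (Matrix.single i j 1)
  have hP : IsSelfAdjoint P := by
    ext i j
    rw [CStarMatrix.star_apply]
    exact star_entry _ (fun b => IsSelfAdjoint.of_nonneg (hform b)) j i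
  have hP0 : 0 ≤ P := nonneg_of_forms P hP fun N k z hz e => by
    have := hform fun i => N i k
    rw [form_apply] at e
    change 0 ≤ ∑ i, ∑ j, star (N i k) * P i j * N j k at this
    rw [e, neg_nonneg] at this
    exact le_antisymm this hz
  exact exists_sqrt_columns hP0

omit [PartialOrder A] [StarOrderedRing A] in
theorem cp_map_star (φ : A →ₗ[ℂ] Matrix (Fin n) (Fin n) ℂ) (hφ : IsCPMap φ) (a : A) :
    φ (star a) = star (φ a) := by
  have h := star_entry (fun i j => φ (star (![(1 : A), a] i) * ![(1 : A), a] j)) (fun b => ?_) 0 1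
  · simpa using h.symm
  · obtain ⟨w, hw⟩ := hφ 2 ![(1 : A), a] b
    rw [hw]
    exact IsSelfAdjoint.star_mul_self w

omit [PartialOrder A] [StarOrderedRing A] in
/-- `Y ↦ ∑ φ (Yᵢⱼ)ᵢⱼ` is positive on `M_n(A)`. -/
theorem functional_nonneg (φ : A →ₗ[ℂ] Matrix (Fin n) (Fin n) ℂ) (hφ : IsCPMap φ) (a : Fin n → A) :
    0 ≤ (∑ i, ∑ j, φ (star (a i) * a j) i j).re := by
  classical
  rcases Nat.eq_zero_or_pos n with rfl | hn
  · simp
  let o : Fin n := ⟨0, hn⟩
  obtain ⟨w, hw⟩ := hφ n a fun i => Matrix.single i o 1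
  have h := congrFun (congrFun hw o) o
  simp [Matrix.star_eq_conjTranspose, Matrix.conjTranspose_single, Matrix.sum_apply,
    Matrix.single_mul_mul_single, Matrix.mul_apply] at h
  rw [h, Complex.re_sum]
  exact sum_nonneg fun l _ => by simpa using add_nonneg (mul_self_nonneg _) (mul_self_nonneg _)

/-- A real functional on `ℂ^ι` is the real part of a complex one. -/
theorem dual_repr {ι : Type*} [Fintype ι] [DecidableEq ι] (f : StrongDual ℝ (ι → ℂ)) :
    ∃ y : ι → ℂ, ∀ u, f u = (∑ p, y p * u p).re := by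
  refine ⟨fun p => ⟨f (Pi.single p 1), -f (Pi.single p Complex.I)⟩, fun u => ?_⟩
  have hu : u = ∑ p, ((u p).re • (Pi.single p 1 : ι → ℂ) +
      (u p).im • (Pi.single p Complex.I : ι → ℂ)) := by
    funext q
    simp [Finset.sum_apply, Pi.single_apply, sum_add_distrib]
  conv_lhs => rw [hu]
  simp only [map_sum, map_add, map_smul, smul_eq_mul, Complex.re_sum, Complex.mul_re]
  exact sum_congr rfl fun p _ => by ring

variable (hA : IsSimpleUnital A) {ω : A →ₗ[ℂ] ℂ}
  (hpos : ∀ x, ∃ r : ℝ, 0 ≤ r ∧ ω (star x * x) = (r : ℂ)) (h1 : ω 1 = 1)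
include hA hpos h1

/-- A functional given by a completely positive map is nonnegative on matrices whose compressions
by `ω` are. -/
theorem eval_nonneg (φ : A →ₗ[ℂ] Matrix (Fin n) (Fin n) ℂ) (hφ : IsCPMap φ)
    (Z : Fin n → Fin n → A)
    (hu : ∀ d : Fin n → A, 0 ≤ (∑ i, ∑ j, ω (star (d i) * Z i j * d j)).re) :
    0 ≤ (∑ i, ∑ j, φ (Z i j) i j).re := by
  let Y : CStarMatrix (Fin n) (Fin n) A :=
    CStarMatrix.ofMatrix fun i j => (1 / 2 : ℂ) • (Z i j + star (Z j i))
  have hYij : ∀ i j, Y i j = (1 / 2 : ℂ) • (Z i j + star (Z j i)) := fun i j => rfl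
  have hY : IsSelfAdjoint Y := by
    ext i j
    simp [CStarMatrix.star_apply, hYij, star_smul, add_comm]
  have hforms : ∀ d : Fin n → A, 0 ≤ (∑ i, ∑ j, ω (star (d i) * Y i j * d j)).re := by
    intro d
    have hstar : ∑ i, ∑ j, ω (star (d i) * star (Z j i) * d j) =
        star (∑ i, ∑ j, ω (star (d i) * Z i j * d j)) := by
      rw [star_sum, sum_comm]
      refine sum_congr rfl fun i _ => ?_
      rw [star_sum]
      refine sum_congr rfl fun j _ => ?_
      rw [← map_star hpos]
      congr 1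
      simp [mul_assoc]
    have e : ∑ i, ∑ j, ω (star (d i) * Y i j * d j) = (1 / 2 : ℂ) *
        (∑ i, ∑ j, ω (star (d i) * Z i j * d j) +
          ∑ i, ∑ j, ω (star (d i) * star (Z j i) * d j)) := by
      simp [hYij, mul_add, add_mul, sum_add_distrib, mul_sum]
    rw [e, hstar]
    simpa [Complex.mul_re] using hu d
  have hY0 : 0 ≤ Y := nonneg_of_forms Y hY fun N k z hz e => by
    refine eq_zero_of_compressions hA hpos h1 hz fun b => ?_
    have := hforms fun i => N i k * b
    have e2 : ∑ i, ∑ j, ω (star (N i k * b) * Y i j * (N j k * b)) =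
        ω (star b * (-z) * b) := by
      rw [← e, form_apply, mul_sum, sum_mul, map_sum]
      refine sum_congr rfl fun i _ => ?_
      rw [mul_sum, sum_mul, map_sum]
      exact sum_congr rfl fun j _ => by simp [mul_assoc]
    rw [e2] at this
    simpa using this
  obtain ⟨C, hC⟩ := exists_sqrt_columns hY0
  have hnn : 0 ≤ (∑ i, ∑ j, φ (Y i j) i j).re := by
    have e : ∑ i, ∑ j, φ (Y i j) i j = ∑ k, ∑ i, ∑ j, φ (star (C k i) * C k j) i j := by
      simp only [hC, map_sum, Matrix.sum_apply]
      exact (sum_congr rfl fun i _ => sum_comm).trans sum_comm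
    rw [e, Complex.re_sum]
    exact sum_nonneg fun k _ => functional_nonneg φ hφ (C k)
  have hstarφ : ∑ i, ∑ j, φ (star (Z j i)) i j = star (∑ i, ∑ j, φ (Z i j) i j) := by
    rw [star_sum, sum_comm]
    refine sum_congr rfl fun i _ => ?_
    rw [star_sum]
    exact sum_congr rfl fun j _ => by rw [cp_map_star φ hφ]; rfl
  have eY : ∑ i, ∑ j, φ (Y i j) i j = (1 / 2 : ℂ) *
      (∑ i, ∑ j, φ (Z i j) i j + ∑ i, ∑ j, φ (star (Z j i)) i j) := by
    simp [hYij, mul_add, sum_add_distrib, mul_sum]
  rw [eY, hstarφ] at hnn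
  simpa [Complex.mul_re] using hnn

/-- Positive functionals on `M_n(A)` are limits, on finite sets, of sums of compressions of `ω`. -/
theorem mem_closure_cone (φ : A →ₗ[ℂ] Matrix (Fin n) (Fin n) ℂ) (hφ : IsCPMap φ) (X : Finset A) :
    (fun p : X × Fin n × Fin n => φ p.1 p.2.1 p.2.2) ∈
      closure {u | ∃ (L : ℕ) (d : Fin L → Fin n → A), u = fun p : X × Fin n × Fin n =>
        ∑ l, ω (star (d l p.2.1) * (p.1 : A) * d l p.2.2)} := by
  classical
  set K : Set (X × Fin n × Fin n → ℂ) := {u | ∃ (L : ℕ) (d : Fin L → Fin n → A),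
    u = fun p : X × Fin n × Fin n => ∑ l, ω (star (d l p.2.1) * (p.1 : A) * d l p.2.2)} with hK
  have hsmul : ∀ u ∈ K, ∀ t : ℝ, 0 ≤ t → t • u ∈ K := by
    rintro _ ⟨L, d, rfl⟩ t ht
    refine ⟨L, fun l i => (Real.sqrt t : ℂ) • d l i, funext fun p => ?_⟩
    simp [star_smul, smul_smul, mul_sum, Real.mul_self_sqrt ht]
  have hadd : ∀ u ∈ K, ∀ v ∈ K, u + v ∈ K := by
    rintro _ ⟨L, d, rfl⟩ _ ⟨M, e, rfl⟩
    exact ⟨L + M, Fin.append d e, funext fun p => by simp [Fin.sum_univ_add]⟩
  have h0 : (0 : X × Fin n × Fin n → ℂ) ∈ K := ⟨0, finZeroElim, funext fun p => by simp⟩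
  have hconv : Convex ℝ K := fun u hu v hv s t hs ht _ =>
    hadd _ (hsmul u hu s hs) _ (hsmul v hv t ht)
  by_contra hv
  obtain ⟨f, c, hfv, hfK⟩ := geometric_hahn_banach_point_closed hconv.closure isClosed_closure hv
  have hc : c < 0 := by simpa using hfK 0 (subset_closure h0)
  have hfnn : ∀ u ∈ K, 0 ≤ f u := by
    intro u hu
    by_contra hlt
    rw [not_le] at hlt
    have := hfK _ (subset_closure (hsmul u hu (c / f u) (div_nonneg_of_nonpos hc.le hlt.le)))
    rw [map_smul, smul_eq_mul, div_mul_cancel₀ _ hlt.ne] at this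
    exact lt_irrefl _ this
  obtain ⟨y, hf⟩ := dual_repr f
  -- the functional as a matrix over `A`
  let Z : Fin n → Fin n → A := fun i j => ∑ x : X, y (x, i, j) • (x : A)
  have hg : ∀ g : Fin n → Fin n → A →ₗ[ℂ] ℂ,
      ∑ p : X × Fin n × Fin n, y p * g p.2.1 p.2.2 p.1 = ∑ i, ∑ j, g i j (Z i j) := fun g => by
    rw [Fintype.sum_prod_type, sum_comm]
    simp only [Z, Fintype.sum_prod_type, map_sum, map_smul, smul_eq_mul]
  have hφ0 : 0 ≤ (∑ i, ∑ j, φ (Z i j) i j).re := eval_nonneg hA hpos h1 φ hφ Z fun d => by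
    have hu := hfnn _ ⟨1, fun _ => d, rfl⟩
    rw [hf] at hu
    simp only [univ_unique, sum_singleton] at hu
    have := hg fun i j => ω ∘ₗ LinearMap.mulLeftRight ℂ (star (d i), d j)
    simp only [LinearMap.comp_apply, LinearMap.mulLeftRight_apply] at this
    rwa [this] at hu
  have := hg fun i j => Matrix.entryLinearMap ℂ ℂ i j ∘ₗ φ
  simp only [LinearMap.comp_apply, Matrix.entryLinearMap_apply] at this
  rw [hf, this] at hfv
  linarith

end Glimm

open Glimm in
/-- Nuclearity factors through any state of a simple unital algebra. -/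
theorem glimmStatement : GlimmStatement.{u} := by
  intro A _ hA hN ω hpos h1 X ε hε
  classical
  let _ : PartialOrder A := CStarAlgebra.spectralOrder A
  have : StarOrderedRing A := CStarAlgebra.spectralOrderedRing A
  obtain ⟨n, φ, ψ, hφ, hψ, happ⟩ := hN X (ε / 2) (by linarith)
  obtain ⟨C, hC⟩ := exists_columns ψ hψ
  set M : ℝ := ∑ i, ∑ j, ‖ψ (Matrix.single i j 1)‖ with hM
  have hM0 : 0 ≤ M := by positivity
  obtain ⟨u, ⟨L, d, rfl⟩, hu⟩ :=
    Metric.mem_closure_iff.1 (mem_closure_cone hA hpos h1 φ hφ X) (ε / 2 / (M + 1)) (by positivity)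
  let e : Fin (L * n) ≃ Fin L × Fin n := finProdFinEquiv.symm
  refine ⟨L * n, n, fun l i => C (e l).2 i, fun l i => d (e l).1 i, fun x hx => ?_⟩
  have hsum : ∑ l : Fin (L * n), ∑ i, ∑ j, ω (star (d (e l).1 i) * x * d (e l).1 j) •
      (star (C (e l).2 i) * C (e l).2 j) =
        ∑ i, ∑ j, (∑ l, ω (star (d l i) * x * d l j)) • ψ (Matrix.single i j 1) := by
    rw [e.sum_comp fun p : Fin L × Fin n => ∑ i, ∑ j, ω (star (d p.1 i) * x * d p.1 j) •
      (star (C p.2 i) * C p.2 j)]
    rw [Fintype.sum_prod_type]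
    simp only [hC, sum_smul, smul_sum]
    exact (sum_congr rfl fun l _ => sum_comm.trans (sum_congr rfl fun i _ => sum_comm)).trans
      (sum_comm.trans (sum_congr rfl fun i _ => sum_comm.trans (sum_congr rfl fun j _ => sum_comm)))
  have hψx : ψ (φ x) = ∑ i, ∑ j, φ x i j • ψ (Matrix.single i j 1) := by
    conv_lhs => rw [Matrix.matrix_eq_sum_single (φ x)]
    simp only [map_sum, ← map_smul, Matrix.smul_single, smul_eq_mul, mul_one]
  rw [hsum]
  have h2 : ‖ψ (φ x) - ∑ i, ∑ j, (∑ l, ω (star (d l i) * x * d l j)) •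
      ψ (Matrix.single i j 1)‖ ≤ ε / 2 / (M + 1) * M := by
    rw [hψx, ← sum_sub_distrib, hM, mul_sum]
    refine (norm_sum_le _ _).trans (sum_le_sum fun i _ => ?_)
    rw [← sum_sub_distrib, mul_sum]
    refine (norm_sum_le _ _).trans (sum_le_sum fun j _ => ?_)
    rw [← sub_smul, norm_smul]
    refine mul_le_mul_of_nonneg_right ?_ (norm_nonneg _)
    rw [dist_eq_norm] at hu
    exact (norm_le_pi_norm _ (⟨x, hx⟩, i, j)).trans hu.le
  have h3 : ε / 2 / (M + 1) * M ≤ ε / 2 := by
    rw [div_mul_eq_mul_div, div_le_iff₀ (by positivity)]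
    nlinarith
  calc ‖x - _‖ ≤ ‖x - ψ (φ x)‖ + ‖ψ (φ x) - _‖ := norm_sub_le_norm_sub_add_norm_sub _ _ _
    _ ≤ ε / 2 + ε / 2 := add_le_add (by rw [norm_sub_rev]; exact happ x hx) (h2.trans h3)
    _ = ε := add_halves ε

end Vale.Agent.P095.Full
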