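import Vale.Agent.P095.Full.Specs
import Vale.Agent.P095.Gamma.Outer
import Vale.Agent.P095.Gamma.L2

/-!
# P095, all amenable groups: the tracially null and tracially full invariant elements

The elements of `TracialStatement` are diagonalised to a central sequence `Y`.  A Følner average of
plateaus of the squares of `α g Y - Y` is an invariant, tracially null sequence whose complement
annihilates all `α g Y - Y`; compressing `Y` by it gives an exactly invariant class.  Modulo the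
tracially null sequences (again a C*-algebra) the range and the support of a square-zero element are
orthogonal, which makes the element exactly square-zero without losing fullness.
-/

noncomputable section

namespace Vale.Agent.P095.Full

open Filter Topology BoundedContinuousFunction Vale.Agent.P101 Vale.Agent.P095.Gamma

universe u v

/-- A diagonal over countably many eventual conditions. -/
theorem exists_diagonal {P : ℕ → ℕ → Prop} (h : ∀ m, ∀ᶠ n in atTop, P m n) :
    ∃ m : ℕ → ℕ, Tendsto m atTop atTop ∧ ∀ᶠ n in atTop, P (m n) n := by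
  classical
  have h' : ∀ m, ∃ N, ∀ n, N ≤ n → P m n := fun m => eventually_atTop.1 (h m)
  choose N hN using h'
  refine ⟨fun n => Nat.findGreatest (fun m => N m ≤ n) n, tendsto_atTop.2 fun b => ?_, ?_⟩
  · filter_upwards [eventually_ge_atTop (max b (N b))] with n hn
    exact Nat.le_findGreatest ((le_max_left _ _).trans hn) ((le_max_right _ _).trans hn)
  · filter_upwards [eventually_ge_atTop (N 0)] with n hn
    exact hN _ n (Nat.findGreatest_spec (P := fun m => N m ≤ n) (Nat.zero_le n) hn)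

theorem map_spread {B C : Type*} [Semiring B] [Algebra ℂ B] [StarRing B] [Semiring C] [Algebra ℂ C]
    [StarRing C] (φ : B →⋆ₐ[ℂ] C) (y : B) :
    φ (star y * y + y * star y) = star (φ y) * φ y + φ y * star (φ y) := by
  rw [map_add, map_mul, map_mul, map_star]

theorem map_sum_spread {B C : Type*} [Semiring B] [Algebra ℂ B] [StarRing B] [Semiring C]
    [Algebra ℂ C] [StarRing C] (φ : B →⋆ₐ[ℂ] C) (y : Fin 6 → B) :
    φ (∑ i, (star (y i) * y i + y i * star (y i))) =
      ∑ i, (star (φ (y i)) * φ (y i) + φ (y i) * star (φ (y i))) := by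
  rw [map_sum]
  exact Finset.sum_congr rfl fun i _ => map_spread φ (y i)

section Null

variable {A : Type u} [CStarAlgebra A]

/-- Uniformly small in the `L²` norms of all traces, eventually. -/
def TrNull (f : ℕ →ᵇ A) : Prop :=
  ∀ θ : ℝ, 0 < θ → ∀ᶠ n in atTop, ∀ τ : A →ₗ[ℂ] ℂ, IsTrace A τ → l2 τ (f n) ≤ θ

variable (A) in
/-- The tracially null sequences. -/
def trJ : Ideal (ℕ →ᵇ A) where
  carrier := {f | TrNull f}
  zero_mem' θ hθ := Eventually.of_forall fun n τ hτ => by simp [hτ.l2_zero, hθ.le]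
  add_mem' {f g} hf hg θ hθ := by
    filter_upwards [hf (θ / 2) (half_pos hθ), hg (θ / 2) (half_pos hθ)] with n h1 h2 τ hτ
    have := hτ.l2_add_le (f n) (g n)
    have := h1 τ hτ
    have := h2 τ hτ
    simp only [BoundedContinuousFunction.coe_add, Pi.add_apply]
    linarith
  smul_mem' c f hf θ hθ := by
    have hc : 0 < ‖c‖ + 1 := by positivity
    filter_upwards [hf (θ / (‖c‖ + 1)) (div_pos hθ hc)] with n h1 τ hτ
    show l2 τ (c n * f n) ≤ θ
    calc l2 τ (c n * f n) ≤ ‖c n‖ * l2 τ (f n) := hτ.l2_mul_le _ _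
      _ ≤ (‖c‖ + 1) * (θ / (‖c‖ + 1)) := mul_le_mul
          ((c.norm_coe_le_norm n).trans (by linarith)) (h1 τ hτ) (hτ.l2_nonneg _) hc.le
      _ = θ := mul_div_cancel₀ θ hc.ne'

theorem mem_trJ {f : ℕ →ᵇ A} : f ∈ trJ A ↔ TrNull f := Iff.rfl

instance trJ.isTwoSided : (trJ A).IsTwoSided where
  mul_mem_of_left {f} c hf := by
    intro θ hθ
    have hc : 0 < ‖c‖ + 1 := by positivity
    filter_upwards [hf (θ / (‖c‖ + 1)) (div_pos hθ hc)] with n h1 τ hτ
    show l2 τ (f n * c n) ≤ θ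
    calc l2 τ (f n * c n) ≤ l2 τ (f n) * ‖c n‖ := hτ.l2_mul_le' _ _
      _ ≤ (θ / (‖c‖ + 1)) * (‖c‖ + 1) := mul_le_mul (h1 τ hτ)
          ((c.norm_coe_le_norm n).trans (by linarith)) (norm_nonneg _) (div_pos hθ hc).le
      _ = θ := div_mul_cancel₀ θ hc.ne'

instance trJ.isClosed : IsClosed (trJ A : Set (ℕ →ᵇ A)) := by
  rw [← closure_subset_iff_isClosed]
  intro f hf θ hθ
  obtain ⟨g, hg, hfg⟩ := Metric.mem_closure_iff.1 hf (θ / 2) (half_pos hθ)
  rw [dist_eq_norm] at hfg
  filter_upwards [(show TrNull g from hg) (θ / 2) (half_pos hθ)] with n hn τ hτ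
  have h1 := hτ.l2_add_le (f n - g n) (g n)
  rw [sub_add_cancel] at h1
  have h2 : l2 τ (f n - g n) ≤ ‖f - g‖ :=
    (hτ.l2_le_norm _).trans ((f - g).norm_coe_le_norm n)
  have := hn τ hτ
  linarith

variable (A) in
/-- Bounded sequences modulo the tracially null ones. -/
abbrev trQuot : (ℕ →ᵇ A) →⋆ₐ[ℂ] (ℕ →ᵇ A) ⧸ trJ A := quotStar (trJ A)

theorem trQuot_eq_zero {f : ℕ →ᵇ A} : trQuot A f = 0 ↔ TrNull f := quotStar_eq_zero (trJ A)

/-- Traces of tracially null sequences are small. -/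
theorem TrNull.re_le {f : ℕ →ᵇ A} (hf : TrNull f) {θ : ℝ} (hθ : 0 < θ) :
    ∀ᶠ n in atTop, ∀ τ : A →ₗ[ℂ] ℂ, IsTrace A τ → (τ (f n)).re ≤ θ :=
  (hf θ hθ).mono fun n hn τ hτ =>
    ((Complex.re_le_norm _).trans (hτ.norm_map_le _)).trans (hn τ hτ)

theorem isTrace_comp {τ : A →ₗ[ℂ] ℂ} (hτ : IsTrace A τ) (e : A →⋆ₐ[ℂ] A) :
    IsTrace A (τ.comp e.toAlgHom.toLinearMap) :=
  ⟨fun a => by simpa [map_star] using hτ.nonneg (e a), by simpa using hτ.map_one,
    fun a b => by simpa using hτ.comm (e a) (e b)⟩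

theorem l2_comp (τ : A →ₗ[ℂ] ℂ) (e : A →⋆ₐ[ℂ] A) (a : A) :
    l2 (τ.comp e.toAlgHom.toLinearMap) a = l2 τ (e a) := by
  simp [l2, map_star]

theorem TrNull.seqComp {f : ℕ →ᵇ A} (hf : TrNull f) (e : A →⋆ₐ[ℂ] A) :
    TrNull (seqComp e f) := fun θ hθ =>
  (hf θ hθ).mono fun n hn τ hτ => by
    rw [seqComp_apply, ← l2_comp]
    exact hn _ (isTrace_comp hτ e)

/-- The real functional calculus in the entries. -/
theorem rcfc_apply_eval (f : ℝ → ℝ) (hf : Continuous f) {W : ℕ →ᵇ A} (hW : IsSelfAdjoint W)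
    (n : ℕ) : rcfc f W n = rcfc f (W n) :=
  map_rcfc (evalAt n) f hf hW

theorem isSelfAdjoint_rcfc {B : Type u} [CStarAlgebra B] (f : ℝ → ℝ) (z : B) :
    IsSelfAdjoint (rcfc f z) := cfc_predicate f z

theorem isPosContraction_rcfc (f : ℝ → ℝ) (hf : Continuous f) (h0 : ∀ t, 0 ≤ f t)
    (h1 : ∀ t, f t ≤ 1) (z : A) : IsPosContraction (rcfc f z) := by
  refine ⟨exists_cfc_eq_star_mul_self f hf h0 z, norm_cfc_le zero_le_one fun t _ => ?_⟩
  rw [Real.norm_eq_abs, abs_of_nonneg (h0 t)]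
  exact h1 t

end Null

/-- The plateau equal to `1` from `η` on. -/
def ramp (η t : ℝ) : ℝ := max 0 (min 1 (t / η))

/-- The piece below `c`. -/
def lowPiece (c t : ℝ) : ℝ := max 0 (min 1 (c - t))

/-- The positive part. -/
def posF (t : ℝ) : ℝ := max t 0

/-- The negative part. -/
def negF (t : ℝ) : ℝ := max (-t) 0

theorem continuous_ramp (η : ℝ) : Continuous (ramp η) := by unfold ramp; fun_prop
theorem continuous_lowPiece (c : ℝ) : Continuous (lowPiece c) := by unfold lowPiece; fun_prop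
theorem continuous_posF : Continuous posF := by unfold posF; fun_prop
theorem continuous_negF : Continuous negF := by unfold negF; fun_prop

theorem ramp_nonneg (η t : ℝ) : 0 ≤ ramp η t := le_max_left _ _
theorem ramp_le_one (η t : ℝ) : ramp η t ≤ 1 := max_le zero_le_one (min_le_left _ _)
theorem lowPiece_nonneg (c t : ℝ) : 0 ≤ lowPiece c t := le_max_left _ _
theorem lowPiece_le_one (c t : ℝ) : lowPiece c t ≤ 1 := max_le zero_le_one (min_le_left _ _)

/-- The complement of a plateau almost annihilates everything below the element. -/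
theorem norm_compl_ramp_mul_le {A : Type u} [CStarAlgebra A] [PartialOrder A] [StarOrderedRing A]
    {η : ℝ} (hη : 0 < η) {d W : A} (h : d * star d ≤ W) :
    ‖(1 - rcfc (ramp η) W) * d‖ ≤ √η := by
  have hW0 : 0 ≤ W := (mul_star_self_nonneg d).trans h
  have hWs : IsSelfAdjoint W := IsSelfAdjoint.of_nonneg hW0
  unfold rcfc
  set r := cfc (fun t => 1 - ramp η t) W with hr
  have hr' : 1 - cfc (ramp η) W = r := by
    rw [hr, cfc_sub (fun _ => (1 : ℝ)) (ramp η) W continuousOn_const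
      (continuous_ramp η).continuousOn, cfc_const_one ℝ W hWs]
  have hrs : star r = r := (cfc_predicate (fun t => 1 - ramp η t) W : IsSelfAdjoint r).star_eq
  have hc : Continuous fun t => 1 - ramp η t := continuous_const.sub (continuous_ramp η)
  rw [hr']
  refine Real.le_sqrt_of_sq_le ?_
  rw [sq, ← CStarRing.norm_self_mul_star, star_mul, hrs,
    show r * d * (star d * r) = r * (d * star d) * r by simp only [mul_assoc]]
  refine (CStarAlgebra.norm_le_norm_of_nonneg_of_le
    (conjugate_nonneg_of_nonneg (mul_star_self_nonneg d) (cfc_nonneg fun t _ =>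
      sub_nonneg.2 (ramp_le_one η t)))
    (conjugate_le_conjugate_of_nonneg h (cfc_nonneg fun t _ =>
      sub_nonneg.2 (ramp_le_one η t)))).trans ?_
  conv_lhs => arg 1; arg 1; arg 2; rw [← cfc_id' ℝ W hWs]
  rw [← cfc_mul _ (fun t : ℝ => t) W hc.continuousOn continuousOn_id,
    ← cfc_mul (fun t => (1 - ramp η t) * t) (fun t => 1 - ramp η t) W
      (hc.continuousOn.mul continuousOn_id) hc.continuousOn]
  refine norm_cfc_le hη.le fun t ht => ?_
  have ht0 : 0 ≤ t := spectrum_nonneg_of_nonneg hW0 ht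
  rw [Real.norm_eq_abs]
  rcases le_total η t with hle | hle
  · have : ramp η t = 1 := by
      rw [ramp, min_eq_left ((one_le_div hη).2 hle), max_eq_right zero_le_one]
    simp [this, hη.le]
  · have h0 : 0 ≤ 1 - ramp η t := sub_nonneg.2 (ramp_le_one η t)
    have h1 : 1 - ramp η t ≤ 1 := by linarith [ramp_nonneg η t]
    rw [abs_of_nonneg (by positivity)]
    calc (1 - ramp η t) * t * (1 - ramp η t) ≤ 1 * η * 1 :=
          mul_le_mul (mul_le_mul h1 hle ht0 zero_le_one) h1 h0 (by positivity)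
      _ = η := by ring

/-- Modulo an ideal: a square-zero element has orthogonal range and support, so the spread of
`(y y*) y (y* y)` is the fifth power of that of `y`. -/
theorem spread_eq {M : Type u} [CStarAlgebra M] {y : M} (hy : y * y = 0) :
    let D := y * star y - star y * y
    let z := rcfc posF D * y * rcfc negF D
    star z * z + z * star z = (star y * y + y * star y) ^ 5 := by
  intro D z
  let _ : PartialOrder M := CStarAlgebra.spectralOrder M
  let _ : StarOrderedRing M := CStarAlgebra.spectralOrderedRing M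
  set p := y * star y with hp
  set q := star y * y with hq
  have hy' : star y * star y = 0 := by rw [← star_mul, hy, star_zero]
  have hpq : p * q = 0 := by
    rw [hp, hq, show y * star y * (star y * y) = y * (star y * star y) * y by
      simp only [mul_assoc], hy', mul_zero, zero_mul]
  have hqp : q * p = 0 := by
    rw [hp, hq, show star y * y * (y * star y) = star y * (y * y) * star y by
      simp only [mul_assoc], hy, mul_zero, zero_mul]
  have hsa : IsSelfAdjoint D := (IsSelfAdjoint.mul_star_self y).sub (IsSelfAdjoint.star_mul_self y)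
  obtain ⟨hP, hN⟩ := CFC.posPart_negPart_unique (A := M) (a := D) (b := p) (c := q) rfl hpq
    (mul_star_self_nonneg y) (star_mul_self_nonneg y)
  have hP' : rcfc posF D = p := by
    rw [← hP, CFC.posPart_def, rcfc, ← cfcₙ_eq_cfc (hf0 := by simp [posF])
      (hf := continuous_posF.continuousOn)]
    exact cfcₙ_congr fun t _ => rfl
  have hN' : rcfc negF D = q := by
    rw [← hN, CFC.negPart_def, rcfc, ← cfcₙ_eq_cfc (hf0 := by simp [negF])
      (hf := continuous_negF.continuousOn)]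
    exact cfcₙ_congr fun t _ => rfl
  have hz : z = p * y * q := by simp only [z, hP', hN']
  have hps : star p = p := by rw [hp, star_mul, star_star]
  have hqs : star q = q := by rw [hq, star_mul, star_star]
  have h1 : star z * z = q ^ 5 := by
    rw [hz, star_mul (p * y) q, star_mul p y, hps, hqs]
    simp only [hp, hq, pow_succ, pow_zero, one_mul, mul_assoc]
  have h2 : z * star z = p ^ 5 := by
    rw [hz, star_mul (p * y) q, star_mul p y, hps, hqs]
    simp only [hp, hq, pow_succ, pow_zero, one_mul, mul_assoc]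
  have hadd : ∀ k : ℕ, (q + p) ^ (k + 1) = q ^ (k + 1) + p ^ (k + 1) := by
    intro k
    induction k with
    | zero => simp
    | succ k ih =>
      rw [pow_succ (q + p), ih, add_mul, mul_add, mul_add, ← pow_succ, ← pow_succ,
        pow_succ q k, mul_assoc (q ^ k) q p, hqp, pow_succ p k, mul_assoc (p ^ k) p q, hpq]
      simp
  rw [h1, h2, hadd 4]

section Main

variable {A : Type u} [CStarAlgebra A] {G : Type v} [Group G] (α : G →* (A ≃⋆ₐ[ℂ] A))

/-- The inclusion of the fixed central algebra. -/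
def fixIncl : centFix α atTop →⋆ₐ[ℂ] SeqQuot A (atTop : Filter ℕ) :=
  (centSub A atTop).subtype.comp (centFix α atTop).subtype

theorem norm_alpha_le (g : G) (a : A) : ‖α g a‖ ≤ ‖a‖ :=
  NonUnitalStarAlgHom.norm_apply_le (α g).toStarAlgHom a

/-- One stage: an almost invariant tracially null contraction whose complement almost annihilates
the differences `α g Y - Y`. -/
theorem exists_stage [DecidableEq G] (hG : IsFolnerGroup G) {Y : ℕ →ᵇ A}
    (hYc : seqMk A atTop Y ∈ centSub A atTop)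
    (hYinv : ∀ g, TrNull (seqComp (α g).toStarAlgHom Y - Y)) (T : Finset G) {ε : ℝ} (hε : 0 < ε) :
    ∃ E : ℕ →ᵇ A, seqMk A atTop E ∈ centSub A atTop ∧ TrNull E ∧
      (∀ n, IsPosContraction (E n)) ∧
      (∀ g ∈ T, ∀ n, ‖α g (E n) - E n‖ ≤ ε) ∧
      ∀ g ∈ T, ∀ n, ‖(1 - E n) * (α g (Y n) - Y n)‖ ≤ ε := by
  classical
  let _ : PartialOrder A := CStarAlgebra.spectralOrder A
  let _ : StarOrderedRing A := CStarAlgebra.spectralOrderedRing A
  obtain ⟨F, hFne, hF⟩ := hG T ε hε
  set η : ℝ := (ε / 2) ^ 2 with hη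
  have hη0 : 0 < η := by positivity
  let K : Finset G := ((F ×ˢ insert 1 T)).image fun p => p.1⁻¹ * p.2
  let d : G → ℕ →ᵇ A := fun k => seqComp (α k).toStarAlgHom Y - Y
  have hdc : ∀ k, seqMk A atTop (d k) ∈ centSub A atTop := fun k => by
    rw [map_sub, ← seqAct_mk]
    exact sub_mem (centAct atTop (α k) ⟨_, hYc⟩).2 hYc
  let W : ℕ →ᵇ A := ∑ k ∈ K, d k * star (d k)
  have hWs : IsSelfAdjoint W := by
    show star W = W
    simp [W, star_sum]
  let R : ℕ →ᵇ A := rcfc (ramp η) W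
  have hRn : ∀ n, R n = rcfc (ramp η) (W n) := rcfc_apply_eval _ (continuous_ramp η) hWs
  have hRc : seqMk A atTop R ∈ centSub A atTop := by
    rw [map_rcfc (seqMk A atTop) _ (continuous_ramp η) hWs]
    refine cfc_mem (𝕜' := ℂ) (ramp η) ?_
    simp only [W, map_sum, map_mul, map_star]
    exact sum_mem fun k _ => mul_mem (hdc k) (star_mem (hdc k))
  have hRnull : TrNull R := by
    rw [← trQuot_eq_zero, map_rcfc (trQuot A) _ (continuous_ramp η) hWs]
    have h0 : trQuot A W = 0 := by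
      rw [map_sum]
      refine Finset.sum_eq_zero fun k _ => ?_
      rw [map_mul, trQuot_eq_zero.2 (hYinv k), zero_mul]
    rw [h0, rcfc, cfc_apply_zero]
    simp [ramp]
  have hR01 : ∀ n, 0 ≤ R n ∧ R n ≤ 1 := fun n => by
    rw [hRn n]
    exact ⟨cfc_nonneg fun t _ => ramp_nonneg η t, cfc_le_one _ _ fun t _ => ramp_le_one η t⟩
  have hR1 : ∀ n, ‖R n‖ ≤ 1 := fun n =>
    (CStarAlgebra.norm_le_one_iff_of_nonneg _ (hR01 n).1).2 (hR01 n).2
  have hd : ∀ k ∈ K, ∀ n, ‖(1 - R n) * d k n‖ ≤ ε / 2 := fun k hk n => by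
    rw [hRn n]
    refine (norm_compl_ramp_mul_le hη0 ?_).trans (le_of_eq ?_)
    · show d k n * star (d k n) ≤ (∑ k ∈ K, d k * star (d k) : ℕ →ᵇ A) n
      rw [show (∑ k ∈ K, d k * star (d k) : ℕ →ᵇ A) n = ∑ k ∈ K, d k n * star (d k n) from
        map_sum (evalAt n) _ _]
      exact Finset.single_le_sum (f := fun k => d k n * star (d k n))
        (fun j _ => mul_star_self_nonneg _) hk
    · rw [hη, Real.sqrt_sq (by positivity)]
  have hcard : (0 : ℝ) < F.card := by exact_mod_cast Finset.card_pos.2 hFne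
  let E : ℕ →ᵇ A := ((F.card : ℝ)⁻¹ : ℂ) • ∑ h ∈ F, seqComp (α h).toStarAlgHom R
  have hEn : ∀ n, E n = (F.card : ℝ)⁻¹ • ∑ h ∈ F, α h (R n) := fun n => by
    show ((F.card : ℝ)⁻¹ : ℂ) • evalAt n (∑ h ∈ F, seqComp (α h).toStarAlgHom R) = _
    rw [map_sum, ← Complex.ofReal_inv, Complex.coe_smul]
    rfl
  have havg : ∀ (f : G → A) (b : ℝ), (∀ h ∈ F, ‖f h‖ ≤ b) →
      ‖(F.card : ℝ)⁻¹ • ∑ h ∈ F, f h‖ ≤ b := fun f b hf => by
    rw [norm_smul, Real.norm_eq_abs, abs_of_nonneg (by positivity), inv_mul_le_iff₀ hcard]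
    calc ‖∑ h ∈ F, f h‖ ≤ ∑ h ∈ F, ‖f h‖ := norm_sum_le _ _
      _ ≤ ∑ _h ∈ F, b := Finset.sum_le_sum hf
      _ = F.card * b := by simp
  refine ⟨E, ?_, ?_, fun n => ?_, fun g hg n => ?_, fun g hg n => ?_⟩
  · rw [map_smul, map_sum]
    refine SMulMemClass.smul_mem _ (sum_mem fun h _ => ?_)
    rw [← seqAct_mk]
    exact (centAct atTop (α h) ⟨_, hRc⟩).2
  · rw [← trQuot_eq_zero, map_smul, map_sum, Finset.sum_eq_zero fun h _ =>
      trQuot_eq_zero.2 (hRnull.seqComp (α h).toStarAlgHom), smul_zero]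
  · rw [hEn]
    refine ⟨CStarAlgebra.nonneg_iff_eq_star_mul_self.1 (smul_nonneg (by positivity)
      (Finset.sum_nonneg fun h _ => ?_)), havg _ 1 fun h _ => (norm_alpha_le α h _).trans (hR1 n)⟩
    obtain ⟨w, hw⟩ := CStarAlgebra.nonneg_iff_eq_star_mul_self.1 (hR01 n).1
    rw [hw, map_mul, map_star]
    exact star_mul_self_nonneg _
  · rw [hEn]
    rw [show ∀ a, α g ((F.card : ℝ)⁻¹ • a) = (F.card : ℝ)⁻¹ • α g a from fun a => by
      rw [← Complex.coe_smul, map_smul, Complex.coe_smul], ← smul_sub, map_sum]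
    have e : ∑ h ∈ F, α g (α h (R n)) = ∑ h ∈ F.image (g * ·), α h (R n) := by
      rw [Finset.sum_image fun a _ b _ hab => mul_left_cancel hab]
      exact Finset.sum_congr rfl fun h _ => by rw [map_mul]; rfl
    rw [e, ← Finset.sum_sdiff_sub_sum_sdiff, norm_smul, Real.norm_eq_abs,
      abs_of_nonneg (by positivity), inv_mul_le_iff₀ hcard]
    calc ‖∑ h ∈ F.image (g * ·) \ F, α h (R n) - ∑ h ∈ F \ F.image (g * ·), α h (R n)‖
        ≤ ‖∑ h ∈ F.image (g * ·) \ F, α h (R n)‖ + ‖∑ h ∈ F \ F.image (g * ·), α h (R n)‖ :=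
          norm_sub_le _ _
      _ ≤ ∑ _h ∈ F.image (g * ·) \ F, (1 : ℝ) + ∑ _h ∈ F \ F.image (g * ·), (1 : ℝ) :=
          add_le_add (norm_sum_le_of_le _ fun h _ => (norm_alpha_le α h _).trans (hR1 n))
            (norm_sum_le_of_le _ fun h _ => (norm_alpha_le α h _).trans (hR1 n))
      _ = ((symmDiff (F.image (g * ·)) F).card : ℝ) := by
          rw [symmDiff_def, Finset.sup_eq_union,
            Finset.card_union_of_disjoint disjoint_sdiff_sdiff]
          simp
      _ ≤ F.card * ε := (hF g hg).trans_eq (mul_comm _ _)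
  · rw [hEn]
    have e : (1 - (F.card : ℝ)⁻¹ • ∑ h ∈ F, α h (R n)) * (α g (Y n) - Y n) =
        (F.card : ℝ)⁻¹ • ∑ h ∈ F,
          α h ((1 - R n) * (d (h⁻¹ * g) n - d (h⁻¹ * 1) n)) := by
      have e1 : ∀ h, α h ((1 - R n) * (d (h⁻¹ * g) n - d (h⁻¹ * 1) n)) =
          (1 - α h (R n)) * (α g (Y n) - Y n) := fun h => by
        have e2 : d (h⁻¹ * g) n - d (h⁻¹ * 1) n = α h⁻¹ (α g (Y n)) - α h⁻¹ (Y n) := by
          show (α (h⁻¹ * g) (Y n) - Y n) - (α (h⁻¹ * 1) (Y n) - Y n) = _
          rw [mul_one, map_mul]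
          simp
        have e3 : ∀ a, α h (α h⁻¹ a) = a := fun a => by
          rw [map_inv]
          exact (α h).apply_symm_apply a
        rw [e2, map_mul, map_sub, map_one, map_sub, e3, e3]
      simp only [e1, ← Finset.sum_mul, Finset.sum_sub_distrib, Finset.sum_const,
        ← smul_mul_assoc, smul_sub]
      rw [← Nat.cast_smul_eq_nsmul ℝ, smul_smul, inv_mul_cancel₀ hcard.ne', one_smul]
    rw [e]
    refine havg _ ε fun h hh => (norm_alpha_le α h _).trans ?_
    rw [mul_sub]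
    have k1 := hd (h⁻¹ * g) (Finset.mem_image.2
      ⟨(h, g), Finset.mem_product.2 ⟨hh, Finset.mem_insert_of_mem hg⟩, rfl⟩) n
    have k2 := hd (h⁻¹ * 1) (Finset.mem_image.2
      ⟨(h, 1), Finset.mem_product.2 ⟨hh, Finset.mem_insert_self _ _⟩, rfl⟩) n
    linarith [norm_sub_le ((1 - R n) * d (h⁻¹ * g) n) ((1 - R n) * d (h⁻¹ * 1) n)]

/-- The elements of `TracialStatement`, diagonalised. -/
theorem exists_tracial_seq (htr : TracialStatement.{u, v}) [Nontrivial A]
    [TopologicalSpace.SeparableSpace A] [Countable G] [DecidableEq G]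
    (hdd : HasCentralDimensionDrop A) (hG : IsFolnerGroup G) :
    ∃ (δ : ℝ) (Y : Fin 6 → ℕ →ᵇ A), 0 < δ ∧ δ ≤ 1 ∧
      (∀ i, seqMk A atTop (Y i) ∈ centSub A atTop) ∧
      (∀ i g, TrNull (seqComp (α g).toStarAlgHom (Y i) - Y i)) ∧
      (∀ i, trQuot A (Y i) * trQuot A (Y i) = 0) ∧
      trQuot A (rcfc (fun t => max (δ - t) 0)
        (∑ i, (star (Y i) * Y i + Y i * star (Y i)))) = 0 := by
  classical
  obtain ⟨δ, hδ0, hδ1, htr⟩ := htr
  obtain ⟨enum, henum⟩ := exists_surjective_nat G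
  obtain ⟨x, hx⟩ := TopologicalSpace.exists_dense_seq A
  let T : ℕ → Finset G := fun m => (Finset.range (m + 1)).image enum
  let X : ℕ → Finset A := fun m => (Finset.range (m + 1)).image x
  have hT : ∀ g, ∀ᶠ m in atTop, g ∈ T m := fun g => by
    obtain ⟨i, rfl⟩ := henum g
    filter_upwards [eventually_ge_atTop i] with m hm
    exact Finset.mem_image.2 ⟨i, Finset.mem_range.2 (by omega), rfl⟩
  have hX : ∀ i, ∀ᶠ m in atTop, x i ∈ X m := fun i => by
    filter_upwards [eventually_ge_atTop i] with m hm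
    exact Finset.mem_image.2 ⟨i, Finset.mem_range.2 (by omega), rfl⟩
  have hsmall : ∀ c : ℝ, 0 < c → ∀ᶠ m : ℕ in atTop, (1 : ℝ) / (m + 1) ≤ c := fun c hc =>
    (tendsto_one_div_add_atTop_nhds_zero_nat.eventually (gt_mem_nhds hc)).mono fun _ h => h.le
  have hcent : ∀ f : ℕ →ᵇ A, (∀ n, ‖f n‖ ≤ 1) →
      (∀ i, Tendsto (fun n => ‖x i * f n - f n * x i‖) atTop (𝓝 0)) →
      seqMk A atTop f ∈ centSub A atTop := by
    intro f hf hfx
    refine mem_centSub.2 fun a => Metric.tendsto_nhds.2 fun θ hθ => ?_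
    obtain ⟨i, hi⟩ := hx.exists_dist_lt a (show (0 : ℝ) < θ / 3 by linarith)
    rw [dist_eq_norm] at hi
    filter_upwards [(hfx i).eventually (gt_mem_nhds (show (0 : ℝ) < θ / 3 by linarith))]
      with n hn
    rw [Real.dist_eq, sub_zero, abs_of_nonneg (norm_nonneg _)]
    have e : a * f n - f n * a =
        (a - x i) * f n - f n * (a - x i) + (x i * f n - f n * x i) := by noncomm_ring
    rw [e]
    have h1 := norm_add_le ((a - x i) * f n - f n * (a - x i)) (x i * f n - f n * x i)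
    have h2 := norm_sub_le ((a - x i) * f n) (f n * (a - x i))
    have h3 := norm_mul_le (a - x i) (f n)
    have h4 := norm_mul_le (f n) (a - x i)
    have h5 := mul_le_of_le_one_right (norm_nonneg (a - x i)) (hf n)
    have h6 := mul_le_of_le_one_left (norm_nonneg (a - x i)) (hf n)
    linarith
  choose y hy1 hycent hytr using fun n : ℕ => htr A hdd G hG α (T n) (X n) (1 / (n + 1))
    (by positivity)
  let Y : Fin 6 → ℕ →ᵇ A := fun j => bseq (fun n => y n j) 1 fun n => hy1 n j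
  have hYc : ∀ j, seqMk A atTop (Y j) ∈ centSub A atTop := fun j => by
    refine hcent (Y j) (fun n => hy1 n j) fun i =>
      squeeze_zero' (Eventually.of_forall fun n => norm_nonneg _) ?_
        tendsto_one_div_add_atTop_nhds_zero_nat
    filter_upwards [hX i] with n hn
    exact (hycent n j (x i) hn).1
  have hYinv : ∀ j g, TrNull (seqComp (α g).toStarAlgHom (Y j) - Y j) := fun j g θ hθ => by
    filter_upwards [hT g, hsmall θ hθ] with n hn hn' τ hτ
    exact ((hytr n τ hτ).1 j g hn).trans hn'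
  have hYsq : ∀ j, trQuot A (Y j) * trQuot A (Y j) = 0 := fun j => by
    rw [← map_mul, trQuot_eq_zero]
    intro θ hθ
    filter_upwards [hsmall θ hθ] with n hn τ hτ
    exact ((hytr n τ hτ).2.1 j).trans hn
  let U₀ : ℕ →ᵇ A := ∑ j, (star (Y j) * Y j + Y j * star (Y j))
  have hU₀ : IsSelfAdjoint U₀ := isSelfAdjoint_sum _ fun j _ =>
    (IsSelfAdjoint.star_mul_self _).add (IsSelfAdjoint.mul_star_self _)
  have hU₀n : ∀ n, U₀ n = ∑ j, (star (y n j) * y n j + y n j * star (y n j)) := fun n =>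
    map_sum_spread (evalAt n) Y
  let cut : ℝ → ℝ := fun t => max (δ - t) 0
  have hcut : Continuous cut := by fun_prop
  have hYfull : trQuot A (rcfc cut U₀) = 0 := by
    rw [trQuot_eq_zero]
    intro θ hθ
    filter_upwards [hsmall (θ ^ 2) (by positivity)] with n hn τ hτ
    rw [rcfc_apply_eval cut hcut hU₀ n]
    set u := U₀ n with hu
    have hus : IsSelfAdjoint u := hU₀.map (evalAt n)
    have h3 : (τ (rcfc cut u)).re ≤ θ ^ 2 := by
      refine le_trans (le_of_eq ?_) ((hytr n τ hτ).2.2.trans hn)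
      congr 2
      rw [rcfc, show algebraMap ℝ A δ - ∑ j, (star (y n j) * y n j + y n j * star (y n j)) =
          cfc (fun t => δ - t) u by
        rw [cfc_sub (fun _ => δ) (fun t => t) u continuousOn_const continuousOn_id,
          cfc_const δ u hus, cfc_id' ℝ u hus, hu, hU₀n]]
      rw [← cfc_comp' (posCut 0) (fun t => δ - t) u (by unfold posCut; fun_prop) (by fun_prop)]
      exact cfc_congr fun t _ => by simp [cut, posCut]
    set w := rcfc (fun t => √(cut t)) u with hw
    have hws : star w = w := isSelfAdjoint_rcfc _ _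
    have hww : w * w = rcfc cut u := by
      rw [hw, rcfc, rcfc, ← cfc_mul _ _ u (by fun_prop) (by fun_prop)]
      exact cfc_congr fun t _ => Real.mul_self_sqrt (le_max_right _ _)
    rw [← hww]
    refine (hτ.l2_mul_le w w).trans ?_
    have hw2 : l2 τ w ≤ θ := by
      rw [l2, hws, hww]
      exact Real.sqrt_le_iff.2 ⟨hθ.le, h3⟩
    have hw1 : ‖w‖ ≤ 1 := by
      refine norm_cfc_le zero_le_one fun t ht => ?_
      rw [Real.norm_eq_abs, abs_of_nonneg (Real.sqrt_nonneg _), Real.sqrt_le_one]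
      let _ : PartialOrder A := CStarAlgebra.spectralOrder A
      let _ : StarOrderedRing A := CStarAlgebra.spectralOrderedRing A
      have hu0 : 0 ≤ u := by
        rw [hu, hU₀n]
        exact Finset.sum_nonneg fun j _ =>
          add_nonneg (star_mul_self_nonneg _) (mul_star_self_nonneg _)
      have ht0 : 0 ≤ t := spectrum_nonneg_of_nonneg hu0 ht
      exact max_le (by linarith) zero_le_one
    calc ‖w‖ * l2 τ w ≤ 1 * θ := mul_le_mul hw1 hw2 (hτ.l2_nonneg _) zero_le_one
      _ = θ := one_mul θ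
  exact ⟨δ, Y, hδ0, hδ1, hYc, hYinv, hYsq, hYfull⟩

/-- The invariant null element and the exactly invariant compression of `Y`. -/
theorem exists_fixed_compression [Countable G] [DecidableEq G] [TopologicalSpace.SeparableSpace A]
    [Nontrivial A] (hG : IsFolnerGroup G) {Y : ℕ →ᵇ A}
    (hYc : seqMk A atTop Y ∈ centSub A atTop)
    (hYinv : ∀ g, TrNull (seqComp (α g).toStarAlgHom Y - Y)) :
    ∃ (y₁ : centFix α atTop) (Y₁ : ℕ →ᵇ A),
      fixIncl α y₁ = seqMk A atTop Y₁ ∧ trQuot A Y₁ = trQuot A Y := by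
  classical
  obtain ⟨enum, henum⟩ := exists_surjective_nat G
  obtain ⟨x, hx⟩ := TopologicalSpace.exists_dense_seq A
  let T : ℕ → Finset G := fun m => (Finset.range (m + 1)).image enum
  let X : ℕ → Finset A := fun m => (Finset.range (m + 1)).image x
  have hT : ∀ g, ∀ᶠ m in atTop, g ∈ T m := fun g => by
    obtain ⟨i, rfl⟩ := henum g
    filter_upwards [eventually_ge_atTop i] with m hm
    exact Finset.mem_image.2 ⟨i, Finset.mem_range.2 (by omega), rfl⟩
  have hX : ∀ i, ∀ᶠ m in atTop, x i ∈ X m := fun i => by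
    filter_upwards [eventually_ge_atTop i] with m hm
    exact Finset.mem_image.2 ⟨i, Finset.mem_range.2 (by omega), rfl⟩
  have hsmall : ∀ c : ℝ, 0 < c → ∀ᶠ m : ℕ in atTop, (1 : ℝ) / (m + 1) ≤ c := fun c hc =>
    (tendsto_one_div_add_atTop_nhds_zero_nat.eventually (gt_mem_nhds hc)).mono fun _ h => h.le
  have hcent : ∀ f : ℕ →ᵇ A, (∀ n, ‖f n‖ ≤ 1) →
      (∀ i, Tendsto (fun n => ‖x i * f n - f n * x i‖) atTop (𝓝 0)) →
      seqMk A atTop f ∈ centSub A atTop := by
    intro f hf hfx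
    refine mem_centSub.2 fun a => Metric.tendsto_nhds.2 fun θ hθ => ?_
    obtain ⟨i, hi⟩ := hx.exists_dist_lt a (show (0 : ℝ) < θ / 3 by linarith)
    rw [dist_eq_norm] at hi
    filter_upwards [(hfx i).eventually (gt_mem_nhds (show (0 : ℝ) < θ / 3 by linarith))]
      with n hn
    rw [Real.dist_eq, sub_zero, abs_of_nonneg (norm_nonneg _)]
    have e : a * f n - f n * a =
        (a - x i) * f n - f n * (a - x i) + (x i * f n - f n * x i) := by noncomm_ring
    rw [e]
    have h1 := norm_add_le ((a - x i) * f n - f n * (a - x i)) (x i * f n - f n * x i)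
    have h2 := norm_sub_le ((a - x i) * f n) (f n * (a - x i))
    have h3 := norm_mul_le (a - x i) (f n)
    have h4 := norm_mul_le (f n) (a - x i)
    have h5 := mul_le_of_le_one_right (norm_nonneg (a - x i)) (hf n)
    have h6 := mul_le_of_le_one_left (norm_nonneg (a - x i)) (hf n)
    linarith
  -- the invariant null element
  choose Em hEc hEnull hEpc hEinv hEann using fun m : ℕ =>
    exists_stage α hG hYc hYinv (T m) (show (0 : ℝ) < 1 / (m + 1) by positivity)
  let P : ℕ → ℕ → Prop := fun m n =>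
    (∀ z ∈ X m, ‖z * Em m n - Em m n * z‖ ≤ 1 / (m + 1)) ∧
      ∀ τ : A →ₗ[ℂ] ℂ, IsTrace A τ → l2 τ (Em m n) ≤ 1 / (m + 1)
  have hP : ∀ m, ∀ᶠ n in atTop, P m n := fun m =>
    ((X m).eventually_all.2 fun z _ => ((mem_centSub.1 (hEc m) z).eventually
      (gt_mem_nhds (show (0 : ℝ) < 1 / (m + 1) by positivity))).mono fun n hn => hn.le).and
      (hEnull m _ (by positivity))
  obtain ⟨m, hm, hPm⟩ := exists_diagonal hP
  let E : ℕ →ᵇ A := bseq (fun n => Em (m n) n) 1 fun n => (hEpc (m n) n).2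
  have hm0 : Tendsto (fun n => (1 : ℝ) / (m n + 1)) atTop (𝓝 0) :=
    tendsto_one_div_add_atTop_nhds_zero_nat.comp hm
  have hEc' : seqMk A atTop E ∈ centSub A atTop := by
    refine hcent E (fun n => (hEpc (m n) n).2) fun i =>
      squeeze_zero' (Eventually.of_forall fun n => norm_nonneg _) ?_ hm0
    filter_upwards [hPm, hm.eventually (hX i)] with n hn hn'
    exact hn.1 _ hn'
  have hEnull' : trQuot A E = 0 := by
    rw [trQuot_eq_zero]
    intro θ hθ
    filter_upwards [hPm, hm.eventually (hsmall θ hθ)] with n hn hn' τ hτ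
    exact (hn.2 τ hτ).trans hn'
  have hEfix : ∀ g, seqMk A atTop (seqComp (α g).toStarAlgHom E) = seqMk A atTop E := fun g => by
    rw [seqMk_eq_iff]
    refine squeeze_zero' (Eventually.of_forall fun n => norm_nonneg _) ?_ hm0
    filter_upwards [hm.eventually (hT g)] with n hn
    exact hEinv (m n) g hn n
  have hEd : ∀ g, seqMk A atTop ((1 - E) * (seqComp (α g).toStarAlgHom Y - Y)) = 0 := fun g => by
    rw [seqMk_eq_zero]
    refine squeeze_zero' (Eventually.of_forall fun n => norm_nonneg _) ?_ hm0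
    filter_upwards [hm.eventually (hT g)] with n hn
    exact hEann (m n) g hn n
  -- exactly invariant, then exactly square zero
  let Y₁ : ℕ →ᵇ A := (1 - E) * Y * (1 - E)
  have hY₁c : seqMk A atTop Y₁ ∈ centSub A atTop := by
    simp only [Y₁, map_mul, map_sub, map_one]
    exact mul_mem (mul_mem (sub_mem (one_mem _) hEc') hYc) (sub_mem (one_mem _) hEc')
  let y₁ : centFix α atTop := ⟨⟨seqMk A atTop Y₁, hY₁c⟩, mem_fixSub.2 fun g => Subtype.ext (by
    show seqAct atTop (α g).toStarAlgHom (seqMk A atTop Y₁) = seqMk A atTop Y₁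
    have h1 := hEd g
    simp only [map_mul, map_sub, map_one] at h1
    simp only [Y₁, map_mul, map_sub, map_one, seqAct_mk, hEfix g]
    rw [← sub_eq_zero, ← sub_mul, ← mul_sub, h1, zero_mul])⟩
  refine ⟨y₁, Y₁, rfl, ?_⟩
  simp only [Y₁, map_mul, map_sub, map_one, hEnull']
  simp

/-- The exactly square-zero element built from an almost square-zero one. -/
def sqRep (Y : ℕ →ᵇ A) : ℕ →ᵇ A :=
  rcfc posF (Y * star Y - star Y * Y) * Y * rcfc negF (Y * star Y - star Y * Y)

/-- The square-zero element of the fixed algebra, killed by every character. -/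
theorem exists_sqzero (χ : centFix α atTop →⋆ₐ[ℂ] ℂ) (y₁ : centFix α atTop) (Y₁ : ℕ →ᵇ A)
    (hι : fixIncl α y₁ = seqMk A atTop Y₁) :
    ∃ y₂ : centFix α atTop, fixIncl α y₂ = seqMk A atTop (sqRep Y₁) ∧ χ y₂ = 0 := by
  let ι := fixIncl α
  have hι' : ι y₁ = seqMk A atTop Y₁ := hι
  let D : ℕ →ᵇ A := Y₁ * star Y₁ - star Y₁ * Y₁
  have hD : IsSelfAdjoint D :=
    (IsSelfAdjoint.mul_star_self Y₁).sub (IsSelfAdjoint.star_mul_self Y₁)
  let d₁ : centFix α atTop := y₁ * star y₁ - star y₁ * y₁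
  have hd₁ : IsSelfAdjoint d₁ :=
    (IsSelfAdjoint.mul_star_self y₁).sub (IsSelfAdjoint.star_mul_self y₁)
  have hιd : ι d₁ = seqMk A atTop D := by simp only [d₁, D, map_sub, map_mul, map_star, hι']
  let Y₂ : ℕ →ᵇ A := rcfc posF D * Y₁ * rcfc negF D
  let y₂ : centFix α atTop := rcfc posF d₁ * y₁ * rcfc negF d₁
  have hι₂ : ι y₂ = seqMk A atTop Y₂ := by
    simp only [y₂, Y₂, map_mul, hι', map_rcfc ι _ continuous_posF hd₁,
      map_rcfc ι _ continuous_negF hd₁, map_rcfc (seqMk A atTop) _ continuous_posF hD,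
      map_rcfc (seqMk A atTop) _ continuous_negF hD, hιd]
  have hy₂ : y₂ * y₂ = 0 := by
    have h : rcfc negF d₁ * rcfc posF d₁ = 0 := by
      rw [rcfc, rcfc, ← cfc_mul _ _ d₁ continuous_negF.continuousOn continuous_posF.continuousOn,
        ← cfc_const_zero ℝ d₁]
      exact cfc_congr fun t _ => by
        simp only [posF, negF]
        rcases le_total 0 t with ht | ht <;> simp [ht]
    show rcfc posF d₁ * y₁ * rcfc negF d₁ * (rcfc posF d₁ * y₁ * rcfc negF d₁) = 0
    simp only [mul_assoc]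
    rw [← mul_assoc (rcfc negF d₁) (rcfc posF d₁), h]
    simp
  refine ⟨y₂, hι₂, ?_⟩
  have h := congrArg χ hy₂
  rw [map_mul, map_zero] at h
  exact mul_self_eq_zero.1 h

/-- Positive elements summing to at least `δ` have fifth powers bounded below. -/
theorem sum_pow_five_ge {M : Type u} [CStarAlgebra M] [PartialOrder M] [StarOrderedRing M]
    {δ : ℝ} (hδ0 : 0 ≤ δ) (u : Fin 6 → M) (hu : ∀ i, 0 ≤ u i)
    (h : algebraMap ℝ M δ ≤ ∑ i, u i) :
    algebraMap ℝ M ((δ / 6) ^ 4 * δ) ≤ ∑ i, u i ^ 5 := by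
  set a := δ / 6 with ha
  have ha0 : 0 ≤ a := by positivity
  have key : ∀ i, (5 * a ^ 4) • u i - algebraMap ℝ M (4 * a ^ 5) ≤ u i ^ 5 := fun i => by
    have hs : IsSelfAdjoint (u i) := IsSelfAdjoint.of_nonneg (hu i)
    rw [← cfc_pow_id (R := ℝ) (u i) 5 hs, ← cfc_const (4 * a ^ 5) (u i) hs,
      ← cfc_const_mul_id (5 * a ^ 4) (u i) hs,
      ← cfc_sub (fun t => 5 * a ^ 4 * t) (fun _ => 4 * a ^ 5) (u i) (by fun_prop) (by fun_prop)]
    refine cfc_mono (fun t ht => ?_) (by fun_prop) (by fun_prop)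
    have ht0 : 0 ≤ t := spectrum_nonneg_of_nonneg (hu i) ht
    nlinarith [mul_nonneg (sq_nonneg (t - a)) (pow_nonneg ht0 3),
      mul_nonneg (mul_nonneg (sq_nonneg (t - a)) ha0) (sq_nonneg t),
      mul_nonneg (mul_nonneg (sq_nonneg (t - a)) (sq_nonneg a)) ht0,
      mul_nonneg (sq_nonneg (t - a)) (pow_nonneg ha0 3)]
  refine le_trans ?_ (Finset.sum_le_sum fun i _ => key i)
  rw [Finset.sum_sub_distrib, ← Finset.smul_sum, Finset.sum_const, Finset.card_univ,
    Fintype.card_fin, ← map_nsmul]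
  refine le_trans ?_ (sub_le_sub_right (smul_le_smul_of_nonneg_left h (by positivity)) _)
  rw [show (5 * a ^ 4) • algebraMap ℝ M δ = algebraMap ℝ M (5 * a ^ 4 * δ) by
    rw [Algebra.algebraMap_eq_smul_one, Algebra.algebraMap_eq_smul_one, smul_smul], ← map_sub]
  refine algebraMap_mono M (le_of_eq ?_)
  rw [ha]
  simp only [nsmul_eq_mul, Nat.cast_ofNat]
  ring

/-- Elements above a positive constant, seen by a function constant above it. -/
theorem rcfc_eq_const {M : Type u} [CStarAlgebra M] [PartialOrder M] [StarOrderedRing M] {c : ℝ}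
    {V : M} (hVs : IsSelfAdjoint V) (hV : algebraMap ℝ M c ≤ V) (g : ℝ → ℝ) (r : ℝ)
    (hgr : ∀ t, c ≤ t → g t = r) : rcfc g V = algebraMap ℝ M r := by
  rw [rcfc, ← cfc_const r V hVs]
  exact cfc_congr fun t ht => hgr t ((algebraMap_le_iff_le_spectrum hVs).1 hV t ht)

/-- The fifth powers, seen by a function constant above their lower bound. -/
theorem rcfc_sum_pow_eq {M : Type u} [CStarAlgebra M] {δ : ℝ} (hδ0 : 0 < δ) (y : Fin 6 → M)
    (hV : rcfc (fun t => max (δ - t) 0) (∑ i, (star (y i) * y i + y i * star (y i))) = 0)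
    (g : ℝ → ℝ) (r : ℝ) (hgr : ∀ t, (δ / 6) ^ 4 * δ ≤ t → g t = r) :
    rcfc g (∑ i, (star (y i) * y i + y i * star (y i)) ^ 5) = algebraMap ℝ M r := by
  let _ : PartialOrder M := CStarAlgebra.spectralOrder M
  let _ : StarOrderedRing M := CStarAlgebra.spectralOrderedRing M
  set u : Fin 6 → M := fun i => star (y i) * y i + y i * star (y i) with hu
  have hu0 : ∀ i, 0 ≤ u i := fun i =>
    add_nonneg (star_mul_self_nonneg _) (mul_star_self_nonneg _)
  have hs : IsSelfAdjoint (∑ i, u i) := IsSelfAdjoint.of_nonneg (Finset.sum_nonneg fun i _ => hu0 i)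
  have h1 : algebraMap ℝ M δ ≤ ∑ i, u i := (algebraMap_le_iff_le_spectrum hs).2 fun t ht => by
    have h := eqOn_of_cfc_eq_cfc (hV.trans (cfc_const_zero ℝ _).symm)
      (show ContinuousOn (fun t => max (δ - t) 0) _ by fun_prop) continuousOn_const hs ht
    have := le_max_left (δ - t) 0
    simp only at h
    linarith
  exact rcfc_eq_const (isSelfAdjoint_sum _ fun i _ =>
    (IsSelfAdjoint.of_nonneg (hu0 i)).pow 5) (sum_pow_five_ge hδ0.le u hu0 h1) g r hgr

/-- Modulo the tracially null sequences the spreads are bounded below. -/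
theorem trQuot_spread_cfc {δ : ℝ} (hδ0 : 0 < δ) (Y : Fin 6 → ℕ →ᵇ A)
    (hYsq : ∀ i, trQuot A (Y i) * trQuot A (Y i) = 0)
    (hYfull : trQuot A (rcfc (fun t => max (δ - t) 0)
      (∑ i, (star (Y i) * Y i + Y i * star (Y i)))) = 0)
    (g : ℝ → ℝ) (hg : Continuous g) (r : ℝ) (hgr : ∀ t, (δ / 6) ^ 4 * δ ≤ t → g t = r) :
    trQuot A (rcfc g (∑ i, (star (sqRep (Y i)) * sqRep (Y i) +
      sqRep (Y i) * star (sqRep (Y i))))) = algebraMap ℝ _ r := by
  have hs : ∀ Z : Fin 6 → ℕ →ᵇ A, IsSelfAdjoint (∑ i, (star (Z i) * Z i + Z i * star (Z i))) :=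
    fun Z => isSelfAdjoint_sum _ fun i _ =>
      (IsSelfAdjoint.star_mul_self _).add (IsSelfAdjoint.mul_star_self _)
  have hcut : Continuous fun t => max (δ - t) 0 := by fun_prop
  rw [map_rcfc (trQuot A) _ hcut (hs Y), map_sum_spread] at hYfull
  rw [map_rcfc (trQuot A) g hg (hs fun i => sqRep (Y i)), map_sum_spread]
  have hq : ∀ i, star (trQuot A (sqRep (Y i))) * trQuot A (sqRep (Y i)) +
      trQuot A (sqRep (Y i)) * star (trQuot A (sqRep (Y i))) =
      (star (trQuot A (Y i)) * trQuot A (Y i) + trQuot A (Y i) * star (trQuot A (Y i))) ^ 5 :=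
    fun i => by
      have hD : IsSelfAdjoint (Y i * star (Y i) - star (Y i) * Y i) :=
        (IsSelfAdjoint.mul_star_self _).sub (IsSelfAdjoint.star_mul_self _)
      have hZ : trQuot A (sqRep (Y i)) =
          rcfc posF (trQuot A (Y i) * star (trQuot A (Y i)) - star (trQuot A (Y i)) * trQuot A (Y i))
            * trQuot A (Y i) * rcfc negF
          (trQuot A (Y i) * star (trQuot A (Y i)) - star (trQuot A (Y i)) * trQuot A (Y i)) := by
        rw [sqRep, map_mul, map_mul, map_rcfc (trQuot A) _ continuous_posF hD,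
          map_rcfc (trQuot A) _ continuous_negF hD, map_sub, map_mul, map_mul, map_star]
      rw [hZ]
      exact spread_eq (hYsq i)
  simp only [hq]
  exact rcfc_sum_pow_eq hδ0 _ hYfull g r hgr

/-- The pieces of an element above `c` modulo the tracially null sequences. -/
theorem eventually_pieces_le {c : ℝ} (hc0 : 0 < c) (U : ℕ →ᵇ A)
    (hlow : ∀ r : ℝ, (∀ t, c ≤ t → lowPiece c t = r) →
      trQuot A (rcfc (lowPiece c) U) = algebraMap ℝ _ r)
    (hramp : ∀ r : ℝ, (∀ t, c ≤ t → ramp c t = r) →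
      trQuot A (rcfc (ramp c) U) = algebraMap ℝ _ r) (θ : ℝ) (hθ : 0 < θ) :
    ∀ᶠ n in atTop, ∀ τ : A →ₗ[ℂ] ℂ, IsTrace A τ →
      (τ (rcfc (lowPiece c) U n)).re ≤ θ ∧ (τ (1 - rcfc (ramp c) U n)).re ≤ θ := by
  have hE0 : TrNull (rcfc (lowPiece c) U) := by
    rw [← trQuot_eq_zero, hlow 0 fun t ht => by
      rw [lowPiece, max_eq_left ((min_le_right _ _).trans (by linarith))]]
    exact map_zero _
  have hF0 : TrNull (1 - rcfc (ramp c) U) := by
    rw [← trQuot_eq_zero, map_sub, map_one, hramp 1 fun t ht => by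
      rw [ramp, min_eq_left ((one_le_div hc0).2 ht), max_eq_right zero_le_one]]
    exact sub_eq_zero.2 (map_one _).symm
  filter_upwards [hE0.re_le hθ, hF0.re_le hθ] with n h1 h2 τ hτ
  exact ⟨h1 τ hτ, h2 τ hτ⟩

/-- From classes which are square zero and jointly full modulo the tracially null sequences. -/
theorem exists_pair_of {δ : ℝ} (hδ0 : 0 < δ) (hδ1 : δ ≤ 1) (χ : centFix α atTop →⋆ₐ[ℂ] ℂ)
    (y₁ : Fin 6 → centFix α atTop) (Y₁ : Fin 6 → ℕ →ᵇ A)
    (hι : ∀ i, fixIncl α (y₁ i) = seqMk A atTop (Y₁ i))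
    (hYsq : ∀ i, trQuot A (Y₁ i) * trQuot A (Y₁ i) = 0)
    (hYfull : trQuot A (rcfc (fun t => max (δ - t) 0)
      (∑ i, (star (Y₁ i) * Y₁ i + Y₁ i * star (Y₁ i)))) = 0) :
    ∃ (e f : centFix α atTop) (E F : ℕ →ᵇ A),
      seqMk A atTop E = ((e : centSub A atTop) : SeqQuot A atTop) ∧
      seqMk A atTop F = ((f : centSub A atTop) : SeqQuot A atTop) ∧
      (∀ n, IsPosContraction (E n) ∧ IsPosContraction (F n)) ∧
      χ e ≠ 0 ∧ χ f = 0 ∧
      ∀ θ : ℝ, 0 < θ → ∀ᶠ n in atTop, ∀ τ : A →ₗ[ℂ] ℂ, IsTrace A τ →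
        (τ (E n)).re ≤ θ ∧ (τ (1 - F n)).re ≤ θ := by
  let ι := fixIncl α
  choose y₂ hι₂ hχy using fun i => exists_sqzero α χ (y₁ i) (Y₁ i) (hι i)
  let Y₂ : Fin 6 → ℕ →ᵇ A := fun i => sqRep (Y₁ i)
  let u : centFix α atTop := ∑ i, (star (y₂ i) * y₂ i + y₂ i * star (y₂ i))
  let U : ℕ →ᵇ A := ∑ i, (star (Y₂ i) * Y₂ i + Y₂ i * star (Y₂ i))
  have hu : IsSelfAdjoint u := isSelfAdjoint_sum _ fun i _ =>
    (IsSelfAdjoint.star_mul_self _).add (IsSelfAdjoint.mul_star_self _)
  have hU : IsSelfAdjoint U := isSelfAdjoint_sum _ fun i _ =>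
    (IsSelfAdjoint.star_mul_self _).add (IsSelfAdjoint.mul_star_self _)
  have hιu : ι u = seqMk A atTop U :=
    (map_sum_spread ι y₂).trans (by
      simp only [show ∀ i, ι (y₂ i) = seqMk A atTop (Y₂ i) from hι₂]; exact (map_sum_spread (seqMk A atTop) Y₂).symm)
  have hχu : χ u = 0 := (map_sum_spread χ y₂).trans (by simp [hχy])
  set c : ℝ := (δ / 6) ^ 4 * δ with hc
  have hc0 : 0 < c := by positivity
  have hc1 : c ≤ 1 := mul_le_one₀ (pow_le_one₀ (by positivity) (by linarith)) hδ0.le hδ1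
  have hlev : ∀ g : ℝ → ℝ, Continuous g → ι (rcfc g u) = seqMk A atTop (rcfc g U) := fun g hg => by
    rw [map_rcfc ι g hg hu, map_rcfc (seqMk A atTop) g hg hU, hιu]
  have hχg : ∀ g : ℝ → ℝ, Continuous g → χ (rcfc g u) = (g 0 : ℂ) := fun g hg => by
    have hcont : Continuous χ := AddMonoidHomClass.continuous_of_bound χ 1 fun z => by
      simpa only [one_mul] using NonUnitalStarAlgHom.norm_apply_le χ z
    have h := StarAlgHom.map_cfc (χ.restrictScalars ℝ) g u hg.continuousOn hcont hu (hu.map _)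
    refine h.trans ?_
    rw [show (χ.restrictScalars ℝ) u = 0 from hχu, cfc_apply_zero]
    rfl
  -- modulo the null sequences `U` is at least `c`
  have hspec : ∀ g : ℝ → ℝ, Continuous g → ∀ r : ℝ, (∀ t, c ≤ t → g t = r) →
      trQuot A (rcfc g U) = algebraMap ℝ _ r := fun g hg r hgr =>
    trQuot_spread_cfc hδ0 Y₁ hYsq hYfull g hg r hgr
  refine ⟨rcfc (lowPiece c) u, rcfc (ramp c) u, rcfc (lowPiece c) U, rcfc (ramp c) U,
    (hlev _ (continuous_lowPiece c)).symm, (hlev _ (continuous_ramp c)).symm, fun n => ⟨?_, ?_⟩,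
    ?_, ?_, fun θ hθ => ?_⟩
  · rw [rcfc_apply_eval _ (continuous_lowPiece c) hU]
    exact isPosContraction_rcfc _ (continuous_lowPiece c) (lowPiece_nonneg c) (lowPiece_le_one c) _
  · rw [rcfc_apply_eval _ (continuous_ramp c) hU]
    exact isPosContraction_rcfc _ (continuous_ramp c) (ramp_nonneg c) (ramp_le_one c) _
  · rw [hχg _ (continuous_lowPiece c)]
    simp [lowPiece, hc1, hc0.le, hc0.ne']
  · rw [hχg _ (continuous_ramp c)]
    simp [ramp]
  · exact eventually_pieces_le hc0 U (hspec _ (continuous_lowPiece c)) (hspec _ (continuous_ramp c))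
      θ hθ

theorem pairStatement : PairStatement.{u, v} := by
  intro htr A _ _ _ hdd G _ _ _ hG α χ
  obtain ⟨δ, Y, hδ0, hδ1, hYc, hYinv, hYsq, hYfull⟩ := exists_tracial_seq α htr hdd hG
  choose y₁ Y₁ hι hY₁ using fun i => exists_fixed_compression α hG (hYc i) (hYinv i)
  refine exists_pair_of α hδ0 hδ1 χ y₁ Y₁ hι (fun i => by rw [hY₁ i]; exact hYsq i) ?_
  have hc : Continuous fun t => max (δ - t) 0 := by fun_prop
  have hs : ∀ Z : Fin 6 → ℕ →ᵇ A, IsSelfAdjoint (∑ i, (star (Z i) * Z i + Z i * star (Z i))) :=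
    fun Z => isSelfAdjoint_sum _ fun i _ =>
      (IsSelfAdjoint.star_mul_self _).add (IsSelfAdjoint.mul_star_self _)
  rw [map_rcfc (trQuot A) _ hc (hs Y₁), map_sum_spread]
  rw [map_rcfc (trQuot A) _ hc (hs Y), map_sum_spread] at hYfull
  simpa only [hY₁] using hYfull

end Main

end Vale.Agent.P095.Full
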