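import Vale.Agent.P095.Full.Specs
import Vale.Agent.P095.Full.Excision

/-!
# P095, all amenable groups: prepared excising elements

Excising elements are refined by central bumps until they are orthogonal to their translates by
the non-trivially acting elements of a finite set, and then split into mutually orthogonal copies.
-/

noncomputable section

namespace Vale.Agent.P095.Full

universe u v

open Excision

namespace Prepared

attribute [local instance] CStarAlgebra.spectralOrder CStarAlgebra.spectralOrderedRing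

variable {A : Type u} [CStarAlgebra A]

theorem isPos_iff {a : A} : IsPos a ↔ 0 ≤ a :=
  CStarAlgebra.nonneg_iff_eq_star_mul_self.symm

/-- A plateau pair: a positive contraction fixing a positive element of norm one. -/
structure IsPlateau (a c : A) : Prop where
  contraction : IsPosContraction a
  pos : IsPos c
  norm_eq : ‖c‖ = 1
  fix : a * c = c

/-- `a'` lives under `a` and factors through `c P c` with a factor of norm at most `2`. -/
theorem exists_refine [Nontrivial A] {a c P : A} (h : IsPlateau a c) (hP : IsPos P)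
    (hP1 : ‖P‖ ≤ 1) (hn : 7 / 8 ≤ ‖c * P * c‖) :
    ∃ a' c' k : A, IsPlateau a' c' ∧ a * a' = a' ∧ a' * a = a' ∧ ‖k‖ ≤ 2 ∧
      a' = k * (c * P * c) ∧ a' = c * P * c * k := by
  have hc0 : 0 ≤ c := isPos_iff.1 h.pos
  have hP0 : 0 ≤ P := isPos_iff.1 hP
  have ha0 : 0 ≤ a := isPos_iff.1 h.contraction.1
  have hcs : star c = c := (IsSelfAdjoint.of_nonneg hc0).star_eq
  have has : star a = a := (IsSelfAdjoint.of_nonneg ha0).star_eq
  set x := c * P * c with hx
  have hx0 : 0 ≤ x := conjugate_nonneg_of_nonneg hP0 hc0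
  have hxs : IsSelfAdjoint x := IsSelfAdjoint.of_nonneg hx0
  have hx1 : ‖x‖ ≤ 1 := (norm_conj_le P h.norm_eq.le).trans hP1
  let G : ℝ → ℝ := fun t => up (1 / 2) (1 / 4) t / max t (1 / 2)
  have hG : Continuous G :=
    (continuous_up _ _).div (by fun_prop) fun t =>
      (lt_of_lt_of_le (by norm_num) (le_max_right t (1 / 2))).ne'
  have hG2 : ∀ t, |G t| ≤ 2 := fun t => by
    have hm : (1 / 2 : ℝ) ≤ max t (1 / 2) := le_max_right _ _
    rw [abs_div, abs_of_nonneg (up_nonneg _ _ _), abs_of_pos (by linarith), div_le_iff₀ (by linarith)]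
    linarith [up_le_one (1 / 2) (1 / 4) t]
  have hGmul : ∀ t : ℝ, G t * t = up (1 / 2) (1 / 4) t := fun t => by
    rcases le_total t (1 / 2) with ht | ht
    · show up (1 / 2) (1 / 4) t / max t (1 / 2) * t = _
      rw [up_eq_zero (by norm_num) ht, zero_div, zero_mul]
    · show up (1 / 2) (1 / 4) t / max t (1 / 2) * t = _
      rw [max_eq_left ht, div_mul_cancel₀ _ (by linarith)]
  set k := cfc G x with hk
  set a' := cfc (up (1 / 2) (1 / 4)) x with ha'
  have hl : a' = k * x := by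
    conv_rhs => enter [2]; rw [← cfc_id' ℝ x hxs]
    rw [hk, ← cfc_mul G (fun t : ℝ => t) x hG.continuousOn (by fun_prop)]
    exact cfc_congr fun t _ => (hGmul t).symm
  have hr : a' = x * k := by
    conv_rhs => enter [1]; rw [← cfc_id' ℝ x hxs]
    rw [hk, ← cfc_mul (fun t : ℝ => t) G x (by fun_prop) hG.continuousOn]
    exact cfc_congr fun t _ => by rw [mul_comm, hGmul]
  have hca : c * a = c := by
    have e := congrArg star h.fix
    rwa [star_mul, hcs, has] at e
  have hxa : x * a = x := by rw [hx, mul_assoc, hca]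
  have hax : a * x = x := by rw [hx, ← mul_assoc, ← mul_assoc, h.fix]
  refine ⟨a', cfc (up (3 / 4) (1 / 8)) x, k, ⟨⟨isPos_iff.2 (cfc_up_nonneg _ _ _),
    norm_cfc_up_le _ _ _⟩, isPos_iff.2 (cfc_up_nonneg _ _ _), ?_, ?_⟩, ?_, ?_,
    norm_cfc_le (by norm_num) fun t _ => by rw [Real.norm_eq_abs]; exact hG2 t, hl, hr⟩
  · refine le_antisymm (norm_cfc_up_le _ _ _) ?_
    have := norm_apply_le_norm_cfc (𝕜 := ℝ) (up (3 / 4) (1 / 8)) x
      (CStarAlgebra.norm_mem_spectrum_of_nonneg hx0) (continuous_up _ _).continuousOn hxs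
    rwa [up_eq_one (by norm_num) (by linarith), norm_one] at this
  · exact cfc_up_mul (by norm_num) (by norm_num) (by norm_num)
  · rw [hr, ← mul_assoc, hax]
  · rw [hl, mul_assoc, hxa]

/-- Two elements factoring through `c P c` and `d Q d` are almost orthogonal across `z` when `P`
almost commutes with `c z d` and `P Q` is small. -/
theorem norm_factor_le {c P d Q k k' z : A} {θ : ℝ} (hk : ‖k‖ ≤ 2) (hk' : ‖k'‖ ≤ 2) (hc : ‖c‖ ≤ 1)
    (hd : ‖d‖ ≤ 1) (hQ : ‖Q‖ ≤ 1) (hw : ‖(c * z * d) * P - P * (c * z * d)‖ ≤ θ)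
    (hPQ : ‖P * Q‖ ≤ θ) :
    ‖k * (c * P * c) * z * (d * Q * d * k')‖ ≤ 4 * (1 + ‖z‖) * θ := by
  have h0 : 0 ≤ θ := (norm_nonneg _).trans hPQ
  set w := c * z * d with hwdef
  have hwn : ‖w‖ ≤ ‖z‖ := by
    calc ‖w‖ ≤ ‖c‖ * ‖z‖ * ‖d‖ :=
          (norm_mul_le _ _).trans (mul_le_mul_of_nonneg_right (norm_mul_le _ _) (norm_nonneg _))
      _ ≤ 1 * ‖z‖ * 1 := by gcongr
      _ = ‖z‖ := by ring
  have e : P * w * Q = w * (P * Q) - (w * P - P * w) * Q := by noncomm_ring
  have hPwQ : ‖P * w * Q‖ ≤ (1 + ‖z‖) * θ := by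
    rw [e]
    refine (norm_sub_le _ _).trans ?_
    have h1 : ‖w * (P * Q)‖ ≤ ‖z‖ * θ :=
      (norm_mul_le _ _).trans (mul_le_mul hwn hPQ (norm_nonneg _) (norm_nonneg _))
    have h2 : ‖(w * P - P * w) * Q‖ ≤ θ * 1 :=
      (norm_mul_le _ _).trans (mul_le_mul hw hQ (norm_nonneg _) h0)
    linarith
  have e2 : k * (c * P * c) * z * (d * Q * d * k') = k * (c * (P * w * Q) * d) * k' := by
    simp only [hwdef, mul_assoc]
  rw [e2]
  calc ‖k * (c * (P * w * Q) * d) * k'‖
      ≤ ‖k‖ * (‖c‖ * ‖P * w * Q‖ * ‖d‖) * ‖k'‖ := by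
        refine (norm_mul_le _ _).trans (mul_le_mul_of_nonneg_right ?_ (norm_nonneg _))
        refine (norm_mul_le _ _).trans (mul_le_mul_of_nonneg_left ?_ (norm_nonneg _))
        exact (norm_mul_le _ _).trans
          (mul_le_mul_of_nonneg_right (norm_mul_le _ _) (norm_nonneg _))
    _ ≤ 2 * (1 * ((1 + ‖z‖) * θ) * 1) * 2 := by gcongr
    _ = 4 * (1 + ‖z‖) * θ := by ring

variable {G : Type v} [Group G] (α : G →* (A ≃⋆ₐ[ℂ] A))

/-- Excision of `ω` on `Z` and orthogonality to the translates by `S`. -/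
def Good (ω : A →ₗ[ℂ] ℂ) (Z : Finset A) (S : Finset G) (ε : ℝ) (a : A) : Prop :=
  ∀ z ∈ Z, ‖a * z * a - ω z • (a * a)‖ ≤ ε ∧ ∀ g ∈ S, ‖a * z * α g a‖ ≤ ε

variable {α}

theorem Good.refine {ω : A →ₗ[ℂ] ℂ} {Z : Finset A} {S : Finset G} {ε : ℝ} {a b : A}
    (h : Good α ω Z S ε a) (hb : ‖b‖ ≤ 1) (hab : a * b = b) (hba : b * a = b) :
    Good α ω Z S ε b := by
  refine fun z hz => ⟨?_, fun g hg => ?_⟩
  · have e : b * z * b - ω z • (b * b) = b * (a * z * a - ω z • (a * a)) * b := by
      rw [mul_sub, sub_mul, mul_smul_comm, smul_mul_assoc]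
      congr 1
      · calc b * z * b = (b * a) * z * (a * b) := by rw [hba, hab]
          _ = _ := by simp only [mul_assoc]
      · congr 1
        calc b * b = (b * a) * (a * b) := by rw [hba, hab]
          _ = _ := by simp only [mul_assoc]
    rw [e]
    exact (norm_conj_le _ hb).trans (h z hz).1
  · have hgb : α g a * α g b = α g b := by rw [← map_mul, hab]
    have e : b * z * α g b = b * (a * z * α g a) * α g b := by
      calc b * z * α g b = (b * a) * z * (α g a * α g b) := by rw [hba, hgb]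
        _ = _ := by simp only [mul_assoc]
    rw [e]
    calc ‖b * (a * z * α g a) * α g b‖ ≤ ‖b‖ * ‖a * z * α g a‖ * ‖α g b‖ :=
          (norm_mul_le _ _).trans (mul_le_mul_of_nonneg_right (norm_mul_le _ _) (norm_nonneg _))
      _ ≤ 1 * ε * 1 := by
          have := (h z hz).2 g hg
          rw [StarAlgEquiv.norm_map (α g) b]
          have := (norm_nonneg _).trans this
          gcongr
      _ = ε := by ring

variable [Nontrivial A] [TopologicalSpace.SeparableSpace A]

/-- One more non-trivially acting element. -/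
theorem exists_good (hnp : NormProdStatement.{u}) (hsep : SeparationStatement.{u, v})
    (hsimp : IsSimpleUnital A) {ω : A →ₗ[ℂ] ℂ} {Z : Finset A} {ε : ℝ} (hε : 0 < ε) {a c : A}
    (hac : IsPlateau a c) (h0 : Good α ω Z ∅ ε a) (S : Finset G)
    (hS : ∀ g ∈ S, ¬ActsTrivially α g) : ∃ a' c', IsPlateau a' c' ∧ Good α ω Z S ε a' := by
  classical
  induction S using Finset.induction_on with
  | empty => exact ⟨a, c, hac, h0⟩
  | @insert g S _ ih =>
    obtain ⟨a₁, c₁, h₁, hgood⟩ := ih fun x hx => hS x (Finset.mem_insert_of_mem hx)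
    obtain ⟨X₀, θ₀, hθ₀, hX₀⟩ :=
      hnp A hsimp c₁ h₁.pos h₁.norm_eq (1 / 8) (by norm_num)
    set R := ∑ z ∈ Z, ‖z‖ with hR
    have hR0 : 0 ≤ R := Finset.sum_nonneg fun z _ => norm_nonneg z
    set θ := min θ₀ (ε / (4 * (1 + R))) with hθdef
    have hθ : 0 < θ := lt_min hθ₀ (by positivity)
    obtain ⟨P, ⟨hP, hP1, hPc⟩, hPg⟩ := hsep A hsimp G α g (hS g (Finset.mem_insert_self _ _))
      (X₀ ∪ Z.image fun z => c₁ * z * α g c₁) θ hθ
    have hn := hX₀ P ⟨hP, hP1,
      fun x hx => (hPc x (Finset.mem_union_left _ hx)).trans (min_le_left _ _)⟩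
    obtain ⟨a₂, c₂, k, h₂, hl₁, hl₂, hk, hl, hr⟩ :=
      exists_refine h₁ hP hP1.le (by linarith)
    refine ⟨a₂, c₂, h₂, fun z hz => ⟨((hgood.refine h₂.contraction.2 hl₁ hl₂) z hz).1,
      fun x hx => ?_⟩⟩
    rcases Finset.mem_insert.1 hx with rfl | hxS
    · have hzR : ‖z‖ ≤ R := Finset.single_le_sum (fun z _ => norm_nonneg z) hz
      have e : α x a₂ = α x c₁ * α x P * α x c₁ * α x k := by
        rw [hr, map_mul, map_mul, map_mul]
      have hb := norm_factor_le (c := c₁) (P := P) (d := α x c₁) (Q := α x P) (k := k)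
        (k' := α x k) (z := z) (θ := θ) hk (by rwa [StarAlgEquiv.norm_map]) h₁.norm_eq.le
        (by rw [StarAlgEquiv.norm_map]; exact h₁.norm_eq.le)
        (by rw [StarAlgEquiv.norm_map]; exact hP1.le)
        (hPc _ (Finset.mem_union_right _ (Finset.mem_image_of_mem _ hz))) hPg
      rw [← hl, ← e] at hb
      refine hb.trans ?_
      calc 4 * (1 + ‖z‖) * θ ≤ 4 * (1 + R) * (ε / (4 * (1 + R))) := by
            gcongr
            exact min_le_right _ _
        _ = ε := by field_simp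
    · exact ((hgood.refine h₂.contraction.2 hl₁ hl₂) z hz).2 x hxS

end Prepared

open Prepared in
/-- Orthogonal excising elements, also orthogonal to their translates. -/
theorem preparedStatement_of (hnp : NormProdStatement.{u}) (hsep : SeparationStatement.{u, v})
    (hob : OrthBumpStatement.{u}) : PreparedStatement.{u, v} := by
  intro A _ _ _ hsimp hdd ω _ _ hexc G _ α L Z T ε hε
  classical
  obtain ⟨a₀, c₀, ha₀, hc₀, hc₀n, hfix, hex⟩ := hexc Z ε hε
  obtain ⟨a₁, c₁, h₁, hgood⟩ := exists_good (α := α) hnp hsep hsimp hε ⟨ha₀, hc₀, hc₀n, hfix⟩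
    (fun z hz => ⟨hex z hz, fun g hg => absurd hg (Finset.notMem_empty g)⟩)
    (T.filter fun g => ¬ActsTrivially α g) (fun g hg => (Finset.mem_filter.1 hg).2)
  obtain ⟨X₀, θ₀, hθ₀, hX₀⟩ := hnp A hsimp c₁ h₁.pos h₁.norm_eq (1 / 8) (by norm_num)
  set R := ∑ z ∈ Z, ‖z‖ with hR
  have hR0 : 0 ≤ R := Finset.sum_nonneg fun z _ => norm_nonneg z
  set θ := min θ₀ (ε / (4 * (1 + R))) with hθdef
  have hθ : 0 < θ := lt_min hθ₀ (by positivity)
  obtain ⟨P, hP, hPP⟩ := hob A hdd L (X₀ ∪ Z.image fun z => c₁ * z * c₁) θ hθ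
  have hn : ∀ l, 1 - 1 / 8 ≤ ‖c₁ * P l * c₁‖ := fun l => hX₀ (P l) ⟨(hP l).1, (hP l).2.1,
    fun x hx => ((hP l).2.2 x (Finset.mem_union_left _ hx)).trans (min_le_left _ _)⟩
  choose b a k hpl hl₁ hl₂ hk hl hr using fun l =>
    exists_refine h₁ (hP l).1 (hP l).2.1.le (by linarith [hn l])
  have hgl : ∀ l, Good α ω Z (T.filter fun g => ¬ActsTrivially α g) ε (b l) :=
    fun l => hgood.refine (hpl l).contraction.2 (hl₁ l) (hl₂ l)
  refine ⟨a, b, fun l => ⟨⟨(hpl l).pos, (hpl l).norm_eq.le⟩, (hpl l).norm_eq,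
    (hpl l).contraction, (hpl l).fix⟩, fun l l' z hz => ?_, fun g hg hna l l' z hz => ?_⟩
  · rcases eq_or_ne l l' with rfl | hne
    · rw [if_pos rfl]
      exact (hgl l z hz).1
    · rw [if_neg hne, sub_zero, hl l, hr l']
      refine (norm_factor_le (θ := θ) (hk l) (hk l') h₁.norm_eq.le h₁.norm_eq.le (hP l').2.1.le
        ((hP l).2.2 _ (Finset.mem_union_right _ (Finset.mem_image_of_mem _ hz)))
        (hPP l l' hne)).trans ?_
      calc 4 * (1 + ‖z‖) * θ ≤ 4 * (1 + R) * (ε / (4 * (1 + R))) := by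
            gcongr
            · exact Finset.single_le_sum (fun z _ => norm_nonneg z) hz
            · exact min_le_right _ _
        _ = ε := by field_simp
  · have hmem : g ∈ T.filter fun g => ¬ActsTrivially α g := Finset.mem_filter.2 ⟨hg, hna⟩
    have h2 := (hgood z hz).2 g hmem
    have hgb : α g a₁ * α g (b l') = α g (b l') := by rw [← map_mul, hl₁ l']
    calc ‖b l * z * α g (b l')‖ = ‖b l * (a₁ * z * α g a₁) * α g (b l')‖ := by
          congr 1
          calc b l * z * α g (b l') = (b l * a₁) * z * (α g a₁ * α g (b l')) := by rw [hl₂ l, hgb]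
            _ = _ := by simp only [mul_assoc]
      _ ≤ ‖b l‖ * ‖a₁ * z * α g a₁‖ * ‖α g (b l')‖ :=
          (norm_mul_le _ _).trans (mul_le_mul_of_nonneg_right (norm_mul_le _ _) (norm_nonneg _))
      _ ≤ 1 * ε * 1 := by
          rw [StarAlgEquiv.norm_map (α g) (b l')]
          gcongr
          · exact (hpl l).contraction.2
          · exact (hpl l').contraction.2
      _ = ε := by ring

end Vale.Agent.P095.Full
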