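import Vale.Agent.P095.Full.Defs
import Vale.Agent.P095.Outer.Central

/-!
# P095, all amenable groups: statements of the modules

See notes/P095_full_helper67.md.  Each statement is proved in the file named in its docstring.
-/

noncomputable section

namespace Vale.Agent.P095.Full

universe u v

open Filter Topology BoundedContinuousFunction Vale.Agent.P101 Vale.Agent.P095.Gamma

/-- `Glimm.lean`: nuclearity factors through any state. -/
def GlimmStatement : Prop :=
  ∀ (A : Type u) [CStarAlgebra A], IsSimpleUnital A → IsNuclear A →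
    ∀ ω : A →ₗ[ℂ] ℂ, (∀ x, ∃ r : ℝ, 0 ≤ r ∧ ω (star x * x) = (r : ℂ)) → ω 1 = 1 →
      ∀ (X : Finset A) (ε : ℝ), 0 < ε → ∃ (L N : ℕ) (c d : Fin L → Fin N → A), ∀ x ∈ X,
        ‖x - ∑ l, ∑ i, ∑ j, ω (star (d l i) * x * d l j) • (star (c l i) * c l j)‖ ≤ ε

/-- `Excision.lean`: a state excised by positive elements that have plateaus. -/
def ExcisionStatement : Prop :=
  ∀ (A : Type u) [CStarAlgebra A] [Nontrivial A] [TopologicalSpace.SeparableSpace A],
    ∃ ω : A →ₗ[ℂ] ℂ, (∀ x, ∃ r : ℝ, 0 ≤ r ∧ ω (star x * x) = (r : ℂ)) ∧ ω 1 = 1 ∧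
      ∀ (X : Finset A) (ε : ℝ), 0 < ε → ∃ a c : A, IsPosContraction a ∧ IsPos c ∧ ‖c‖ = 1 ∧
        a * c = c ∧ ∀ x ∈ X, ‖a * x * a - ω x • (a * a)‖ ≤ ε

/-- `Separation.lean`: a non-trivially acting element moves some central bump off itself. -/
def SeparationStatement : Prop :=
  ∀ (A : Type u) [CStarAlgebra A] [Nontrivial A] [TopologicalSpace.SeparableSpace A],
    IsSimpleUnital A → ∀ (G : Type v) [Group G] (α : G →* (A ≃⋆ₐ[ℂ] A)) (g : G),
      ¬ActsTrivially α g → ∀ (X : Finset A) (θ : ℝ), 0 < θ →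
        ∃ P : A, IsCentralBump X θ P ∧ ‖P * α g P‖ ≤ θ

/-- `Bumps.lean`: central bumps do not shrink products in a simple algebra. -/
def NormProdStatement : Prop :=
  ∀ (A : Type u) [CStarAlgebra A] [TopologicalSpace.SeparableSpace A], IsSimpleUnital A →
    ∀ a : A, IsPos a → ‖a‖ = 1 → ∀ ε : ℝ, 0 < ε → ∃ (X : Finset A) (θ : ℝ), 0 < θ ∧
      ∀ P : A, IsCentralBump X θ P → 1 - ε ≤ ‖a * P * a‖

/-- `Bumps.lean`: almost orthogonal central bumps. -/
def OrthBumpStatement : Prop :=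
  ∀ (A : Type u) [CStarAlgebra A] [Nontrivial A] [TopologicalSpace.SeparableSpace A],
    HasCentralDimensionDrop A → ∀ (n : ℕ) (X : Finset A) (θ : ℝ), 0 < θ →
      ∃ P : Fin n → A, (∀ l, IsCentralBump X θ (P l)) ∧ ∀ l l', l ≠ l' → ‖P l * P l'‖ ≤ θ

/-- `Prepared.lean`: orthogonal excising elements, also orthogonal to their translates. -/
def PreparedStatement : Prop :=
  ∀ (A : Type u) [CStarAlgebra A] [Nontrivial A] [TopologicalSpace.SeparableSpace A],
    IsSimpleUnital A → HasCentralDimensionDrop A →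
      ∀ ω : A →ₗ[ℂ] ℂ, (∀ x, ∃ r : ℝ, 0 ≤ r ∧ ω (star x * x) = (r : ℂ)) → ω 1 = 1 →
        (∀ (X : Finset A) (ε : ℝ), 0 < ε → ∃ a c : A, IsPosContraction a ∧ IsPos c ∧ ‖c‖ = 1 ∧
          a * c = c ∧ ∀ x ∈ X, ‖a * x * a - ω x • (a * a)‖ ≤ ε) →
        ∀ (G : Type v) [Group G] (α : G →* (A ≃⋆ₐ[ℂ] A)) (L : ℕ) (Z : Finset A) (T : Finset G)
          (ε : ℝ), 0 < ε → ∃ a b : Fin L → A,
            (∀ l, IsPosContraction (a l) ∧ ‖a l‖ = 1 ∧ IsPosContraction (b l) ∧
              b l * a l = a l) ∧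
            (∀ l l', ∀ z ∈ Z,
              ‖b l * z * b l' - (if l = l' then ω z • (b l * b l) else 0)‖ ≤ ε) ∧
            ∀ g ∈ T, ¬ActsTrivially α g → ∀ l l', ∀ z ∈ Z, ‖b l * z * α g (b l')‖ ≤ ε

/-- `Combine.lean`: equivariant property (SI), in finitary form, with two orthogonal copies. -/
def SIStatement : Prop :=
  ∀ (A : Type u) [CStarAlgebra A] [Nontrivial A] [TopologicalSpace.SeparableSpace A],
    IsSimpleUnital A → IsNuclear A → HasCentralDimensionDrop A →
      ∀ (G : Type v) [Group G] [DecidableEq G], IsFolnerGroup G →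
        ∀ (α : G →* (A ≃⋆ₐ[ℂ] A)) (T : Finset G) (X : Finset A) (η : ℝ), 0 < η →
          ∀ ε : ℝ, 0 < ε → ∃ (θ : ℝ) (T' : Finset G) (X' : Finset A), 0 < θ ∧
            ∀ e : A, IsPosContraction e → (∀ x ∈ X', ‖x * e - e * x‖ ≤ θ) →
              (∀ g ∈ T', ‖α g e - e‖ ≤ θ) →
              (∀ τ : A →ₗ[ℂ] ℂ, IsTrace A τ → (τ e).re ≤ θ) →
              ∃ s : Fin 2 → A, (∀ i, ‖s i‖ ≤ 2) ∧
                (∀ i, ∀ x ∈ X, ‖x * s i - s i * x‖ ≤ ε ∧
                  ‖x * star (s i) - star (s i) * x‖ ≤ ε) ∧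
                (∀ i, ∀ g ∈ T, ‖α g (s i) - s i‖ ≤ ε) ∧
                ∀ i j, ‖star (s i) * s j - (if i = j then cfc (posCut η) e else 0)‖ ≤ ε

/-- `Tracial/Main.lean`: almost central, almost invariant families that are almost square-zero and
uniformly large in all traces. -/
def TracialStatement : Prop :=
  ∃ δ : ℝ, 0 < δ ∧ δ ≤ 1 ∧
    ∀ (A : Type u) [CStarAlgebra A] [Nontrivial A] [TopologicalSpace.SeparableSpace A],
      HasCentralDimensionDrop A → ∀ (G : Type v) [Group G] [Countable G] [DecidableEq G],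
        IsFolnerGroup G → ∀ (α : G →* (A ≃⋆ₐ[ℂ] A)) (T : Finset G) (X : Finset A) (ε : ℝ),
          0 < ε → ∃ y : Fin 6 → A, (∀ i, ‖y i‖ ≤ 1) ∧
            (∀ i, ∀ x ∈ X, ‖x * y i - y i * x‖ ≤ ε ∧ ‖x * star (y i) - star (y i) * x‖ ≤ ε) ∧
            ∀ τ : A →ₗ[ℂ] ℂ, IsTrace A τ →
              (∀ i, ∀ g ∈ T, l2 τ (α g (y i) - y i) ≤ ε) ∧ (∀ i, l2 τ (y i * y i) ≤ ε) ∧
              (τ (cfc (posCut 0) (algebraMap ℝ A δ -
                ∑ i, (star (y i) * y i + y i * star (y i))))).re ≤ ε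

/-- `Pair.lean`: a character of the fixed central algebra gives an invariant tracially null element
seen by the character and an invariant tracially full one killed by it. -/
def PairStatement : Prop :=
  TracialStatement.{u, v} →
    ∀ (A : Type u) [CStarAlgebra A] [Nontrivial A] [TopologicalSpace.SeparableSpace A],
      HasCentralDimensionDrop A → ∀ (G : Type v) [Group G] [Countable G] [DecidableEq G],
        IsFolnerGroup G → ∀ (α : G →* (A ≃⋆ₐ[ℂ] A)) (χ : centFix α atTop →⋆ₐ[ℂ] ℂ),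
          ∃ (e f : centFix α atTop) (E F : ℕ →ᵇ A),
            seqMk A atTop E = ((e : centSub A atTop) : SeqQuot A atTop) ∧
            seqMk A atTop F = ((f : centSub A atTop) : SeqQuot A atTop) ∧
            (∀ n, IsPosContraction (E n) ∧ IsPosContraction (F n)) ∧
            χ e ≠ 0 ∧ χ f = 0 ∧
            ∀ θ : ℝ, 0 < θ → ∀ᶠ n in atTop, ∀ τ : A →ₗ[ℂ] ℂ, IsTrace A τ →
              (τ (E n)).re ≤ θ ∧ (τ (1 - F n)).re ≤ θ

/-- `Assembly.lean`, with the two main statements as hypotheses: equivariant Jiang–Su stability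
for every countable amenable group. -/
def AmenableStatement : Prop :=
  ∀ (A : Type u) [CStarAlgebra A] [Nontrivial A] [TopologicalSpace.SeparableSpace A],
    IsSimpleUnital A → IsNuclear A → HasCentralDimensionDrop A →
      ∀ (G : Type v) [Group G] [Countable G] [DecidableEq G], IsFolnerGroup G →
        ∀ α : G →* (A ≃⋆ₐ[ℂ] A), HasInvariantDimensionDrop A α

end Vale.Agent.P095.Full
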