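import Vale.Agent.P095.Base
import Vale.Agent.P095.Gamma.Outer
import Vale.Agent.P101.OddPair
import Vale.Agent.P095.Full.Specs

/-!
# P095, all amenable groups: separation

A group element acting non-trivially on central sequences moves some central bump off itself.

In the central sequence algebra take a self-adjoint `c` with `g c ≠ c`, an element `q` under the
top plateau of `c - g c` that excises `c`; then `q` and `g q` excise `g c` at two different
values, so `‖q * g q‖ < 1`. Products of far apart copies of `q` give the smallness.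
-/

noncomputable section

namespace Vale.Agent.P095.Full

universe u v

open Filter Topology Vale.Agent.P101 Vale.Agent.P095.Gamma

section Algebra

variable {D : Type u} [CStarAlgebra D] [PartialOrder D] [StarOrderedRing D]

theorem le_algebraMap_one {a : D} (ha : IsSelfAdjoint a) (h : ‖a‖ ≤ 1) : a ≤ 1 := by
  refine ha.le_algebraMap_norm_self.trans ?_
  simpa using algebraMap_mono D h

theorem mul_self_le_one {q : D} (hq : IsSelfAdjoint q) (h : ‖q‖ ≤ 1) : q * q ≤ 1 := by
  refine le_algebraMap_one ?_ ((norm_mul_le _ _).trans (mul_le_one₀ h (norm_nonneg _) h))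
  simpa [hq.star_eq] using IsSelfAdjoint.star_mul_self q

theorem mul_self_le_self {q : D} (hq : 0 ≤ q) (h : ‖q‖ ≤ 1) : q * q ≤ q := by
  have hsa : IsSelfAdjoint q := .of_nonneg hq
  rcases subsingleton_or_nontrivial D with hD | hD
  · exact (Subsingleton.elim _ _).le
  have key : cfc (fun t : ℝ => t * t) q ≤ cfc (fun t : ℝ => t) q := by
    refine cfc_mono fun t ht => ?_
    have h0 := spectrum_nonneg_of_nonneg hq ht
    have h1 := (spectrum.norm_le_norm_of_mem ht).trans h
    rw [Real.norm_eq_abs, abs_of_nonneg h0] at h1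
    nlinarith
  rwa [cfc_mul _ _ q (by fun_prop) (by fun_prop), cfc_id' ℝ q hsa] at key

/-- `‖(1 - q) e‖² ≤ ‖e (1 - q²) e‖`. -/
theorem sq_norm_one_sub_mul_le {q e : D} (hq : 0 ≤ q) (h : ‖q‖ ≤ 1) (he : IsSelfAdjoint e) :
    ‖(1 - q) * e‖ ^ 2 ≤ ‖e * (1 - q * q) * e‖ := by
  have hqs : IsSelfAdjoint q := .of_nonneg hq
  have e1 : star ((1 - q) * e) * ((1 - q) * e) = star e * (star (1 - q) * (1 - q)) * e := by
    rw [star_mul]; noncomm_ring
  rw [sq, ← CStarRing.norm_star_mul_self]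
  refine CStarAlgebra.norm_le_norm_of_nonneg_of_le (star_mul_self_nonneg _) ?_
  rw [e1]
  refine (star_left_conjugate_le_conjugate ?_ e).trans_eq (by rw [he.star_eq])
  rw [star_sub, star_one, hqs.star_eq, ← sub_nonneg]
  have : 1 - q * q - (1 - q) * (1 - q) = (q - q * q) + (q - q * q) := by noncomm_ring
  rw [this]
  exact add_nonneg (sub_nonneg.2 (mul_self_le_self hq h)) (sub_nonneg.2 (mul_self_le_self hq h))

omit [PartialOrder D] [StarOrderedRing D] in
/-- An excision estimate for `q` passes to whatever is almost fixed by `q`. -/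
theorem compress_close {q e y : D} {l R δ : ℝ} (hq : IsSelfAdjoint q) (hqn : ‖q‖ ≤ 1)
    (he : IsSelfAdjoint e) (hen : ‖e‖ ≤ 1) (hfix : ‖e - q * e‖ ≤ δ)
    (h : ‖q * y * q - l • (q * q)‖ ≤ R) :
    ‖e * y * e - l • (e * e)‖ ≤ R + 2 * δ * (‖y‖ + |l|) := by
  have hfix' : ‖e - e * q‖ ≤ δ := by
    rw [← norm_star, star_sub, star_mul, he.star_eq, hq.star_eq]
    exact hfix
  have hδ : 0 ≤ δ := (norm_nonneg _).trans hfix
  have diff : ∀ z : D, ‖e * z * e - e * q * z * (q * e)‖ ≤ 2 * δ * ‖z‖ := by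
    intro z
    have : e * z * e - e * q * z * (q * e) =
        (e - e * q) * z * e + e * q * z * (e - q * e) := by noncomm_ring
    rw [this]
    refine (norm_add_le _ _).trans ?_
    have h1 : ‖(e - e * q) * z * e‖ ≤ δ * ‖z‖ * 1 := norm_mul_le_of_le
      (norm_mul_le_of_le hfix' le_rfl) hen
    have h2 : ‖e * q * z * (e - q * e)‖ ≤ 1 * 1 * ‖z‖ * δ := norm_mul_le_of_le
      (norm_mul_le_of_le (norm_mul_le_of_le hen hqn) le_rfl) hfix
    linarith
  have hone : ‖(1 : D)‖ ≤ 1 := by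
    rcases subsingleton_or_nontrivial D with hD | hD
    · simp [Subsingleton.elim (1 : D) 0]
    · exact CStarRing.norm_one.le
  have key : e * y * e - l • (e * e) = (e * y * e - e * q * y * (q * e))
      + e * (q * y * q - l • (q * q)) * e - l • (e * 1 * e - e * q * 1 * (q * e)) := by
    simp only [mul_sub, sub_mul, mul_smul_comm, smul_mul_assoc, smul_sub, mul_one, mul_assoc]
    abel
  rw [key]
  refine (norm_sub_le _ _).trans ?_
  have h1 := (norm_add_le (e * y * e - e * q * y * (q * e))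
    (e * (q * y * q - l • (q * q)) * e))
  have h2 : ‖e * (q * y * q - l • (q * q)) * e‖ ≤ 1 * R * 1 :=
    norm_mul_le_of_le (norm_mul_le_of_le hen h) hen
  have h3 := diff y
  have h4 : ‖l • (e * 1 * e - e * q * 1 * (q * e))‖ ≤ |l| * (2 * δ) := by
    rw [norm_smul, Real.norm_eq_abs]
    refine mul_le_mul_of_nonneg_left ((diff 1).trans ?_) (abs_nonneg l)
    exact mul_le_of_le_one_right (by positivity) hone
  linarith

/-- Elements excising `y` at different values have product of norm less than one. -/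
theorem norm_mul_lt_one [Nontrivial D] {p q y : D} {a b R : ℝ} (hp : 0 ≤ p) (hpn : ‖p‖ ≤ 1)
    (hq : 0 ≤ q) (hqn : ‖q‖ ≤ 1) (h1 : ‖q * y * q - a • (q * q)‖ ≤ R)
    (h2 : ‖p * y * p - b • (p * p)‖ ≤ R) (hab : 2 * R < |a - b|) : ‖q * p‖ < 1 := by
  have hps : IsSelfAdjoint p := .of_nonneg hp
  have hqs : IsSelfAdjoint q := .of_nonneg hq
  by_contra hc
  have hn : ‖q * p‖ = 1 :=
    le_antisymm ((norm_mul_le _ _).trans (mul_le_one₀ hqn (norm_nonneg _) hpn)) (not_lt.1 hc)
  set T := star (q * p) * (q * p) with hT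
  have hT0 : 0 ≤ T := star_mul_self_nonneg _
  have hT1 : ‖T‖ = 1 := by rw [hT, CStarRing.norm_star_mul_self, hn, mul_one]
  have hTs : IsSelfAdjoint T := .of_nonneg hT0
  have hmem : (1 : ℝ) ∈ spectrum ℝ T := hT1 ▸ CStarAlgebra.norm_mem_spectrum_of_nonneg hT0
  have hTp : T ≤ p * p := by
    have : T = star p * (q * q) * p := by
      rw [hT, star_mul, hqs.star_eq]; simp only [mul_assoc]
    rw [this]
    refine (star_left_conjugate_le_conjugate (mul_self_le_one hqs hqn) p).trans_eq ?_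
    rw [mul_one, hps.star_eq]
  set δ : ℝ := min 1 ((|a - b| - 2 * R) / (2 * (2 * ‖y‖ + |a| + |b| + 1)))
  have hδ : 0 < δ := lt_min one_pos (div_pos (by linarith) (by positivity))
  have hδ1 : δ ≤ 1 := min_le_left _ _
  set κ : ℝ := (δ ^ 2 / 3) ^ 2 with hκ
  have hκ0 : 0 < κ := by positivity
  have hκr : Real.sqrt κ = δ ^ 2 / 3 := Real.sqrt_sq (by positivity)
  have hκ1 : κ ≤ δ ^ 2 / 3 := by
    have : δ ^ 2 / 3 ≤ 1 := by nlinarith
    calc κ = δ ^ 2 / 3 * (δ ^ 2 / 3) := by rw [hκ]; ring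
      _ ≤ δ ^ 2 / 3 * 1 := mul_le_mul_of_nonneg_left this (by positivity)
      _ = δ ^ 2 / 3 := mul_one _
  set f : ℝ → ℝ := fun t => max 0 (1 - |t - 1| / κ)
  have hf : Continuous f := by fun_prop
  have hf0 : ∀ t, 0 ≤ f t := fun t => le_max_left _ _
  have hf1 : ∀ t, f t ≤ 1 := fun t =>
    max_le zero_le_one (by linarith [div_nonneg (abs_nonneg (t - 1)) hκ0.le])
  set e := cfc f T
  have hes : IsSelfAdjoint e := cfc_predicate _ _
  have hen : ‖e‖ = 1 := by
    refine le_antisymm (norm_cfc_le zero_le_one fun t _ => ?_) ?_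
    · rw [Real.norm_eq_abs, abs_of_nonneg (hf0 t)]; exact hf1 t
    · simpa [f] using norm_apply_le_norm_cfc (𝕜 := ℝ) f T hmem hf.continuousOn hTs
  have hTe : ‖(1 - T) * e‖ ≤ κ := by
    have : (1 - T) * e = cfc (fun t => (1 - t) * f t) T := by
      rw [cfc_mul _ _ T (by fun_prop) hf.continuousOn,
        cfc_sub _ _ T (by fun_prop) (by fun_prop), cfc_id' ℝ T hTs, cfc_const_one ℝ T]
    rw [this]
    refine norm_cfc_le hκ0.le fun t _ => ?_
    rw [Real.norm_eq_abs, abs_mul, abs_of_nonneg (hf0 t), abs_sub_comm]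
    by_cases h : |t - 1| ≤ κ
    · exact (mul_le_of_le_one_right (abs_nonneg _) (hf1 t)).trans h
    · have : f t = 0 := max_eq_left (by
        rw [sub_nonpos, one_le_div hκ0]; exact (not_le.1 h).le)
      rw [this, mul_zero]; exact hκ0.le
  have heT : ‖e * (1 - T) * e‖ ≤ κ := by
    rw [mul_assoc]
    exact (norm_mul_le_of_le hen.le hTe).trans_eq (one_mul κ)
  have hpe : ‖e - p * e‖ ≤ Real.sqrt κ := by
    refine Real.le_sqrt_of_sq_le ?_
    have e1 : e - p * e = (1 - p) * e := by noncomm_ring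
    rw [e1]
    refine (sq_norm_one_sub_mul_le hp hpn hes).trans ?_
    refine le_trans (CStarAlgebra.norm_le_norm_of_nonneg_of_le ?_ ?_) heT
    · have := star_left_conjugate_nonneg (sub_nonneg.2 (mul_self_le_one hps hpn)) e
      rwa [hes.star_eq] at this
    · have := star_left_conjugate_le_conjugate (sub_le_sub_left hTp 1) e
      rwa [hes.star_eq] at this
  have hqe : ‖e - q * e‖ ≤ δ := by
    have e1 : e - q * e = (1 - q) * e := by noncomm_ring
    rw [e1]
    refine le_of_pow_le_pow_left₀ two_ne_zero hδ.le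
      ((sq_norm_one_sub_mul_le hq hqn hes).trans ?_)
    have e2 : e * (1 - q * q) * e = e * (1 - T) * e + (e * T * e - e * q * (q * e)) := by
      noncomm_ring
    rw [e2]
    refine (norm_add_le _ _).trans ?_
    have e3 : e * T * e - e * q * (q * e) =
        (e * p - e) * q * (q * p * e) + e * q * (q * (p * e - e)) := by
      rw [hT, star_mul, hps.star_eq, hqs.star_eq]; noncomm_ring
    have hep : ‖e * p - e‖ ≤ Real.sqrt κ := by
      rw [← norm_star, star_sub, star_mul, hes.star_eq, hps.star_eq, norm_sub_rev]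
      exact hpe
    have hpe' : ‖p * e - e‖ ≤ Real.sqrt κ := by rwa [norm_sub_rev]
    have h3 : ‖(e * p - e) * q * (q * p * e)‖ ≤ Real.sqrt κ * 1 * (1 * 1 * 1) :=
      norm_mul_le_of_le (norm_mul_le_of_le hep hqn)
        (norm_mul_le_of_le (norm_mul_le_of_le hqn hpn) hen.le)
    have h4 : ‖e * q * (q * (p * e - e))‖ ≤ 1 * 1 * (1 * Real.sqrt κ) :=
      norm_mul_le_of_le (norm_mul_le_of_le hen.le hqn) (norm_mul_le_of_le hqn hpe')
    rw [e3]
    have h5 := norm_add_le ((e * p - e) * q * (q * p * e)) (e * q * (q * (p * e - e)))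
    linarith [hκr]
  have hpe2 : ‖e - p * e‖ ≤ δ := hpe.trans (by rw [hκr]; nlinarith)
  have c1 := compress_close hqs hqn hes hen.le hqe h1
  have c2 := compress_close hps hpn hes hen.le hpe2 h2
  have hee : ‖e * e‖ = 1 := by
    nth_rewrite 1 [← hes.star_eq]
    rw [CStarRing.norm_star_mul_self, hen, mul_one]
  have h6 : |a - b| ≤ ‖e * y * e - a • (e * e)‖ + ‖e * y * e - b • (e * e)‖ := by
    refine le_of_eq_of_le ?_ ((norm_sub_le (e * y * e - b • (e * e))
      (e * y * e - a • (e * e))).trans_eq (add_comm _ _))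
    rw [sub_sub_sub_cancel_left, ← sub_smul, norm_smul, hee, mul_one, Real.norm_eq_abs]
  have h7 : δ * (2 * (2 * ‖y‖ + |a| + |b| + 1)) ≤ |a - b| - 2 * R :=
    (le_div_iff₀ (by positivity)).1 (min_le_right _ _)
  nlinarith

/-- The windows of `t ≤ μ` closing in on `μ`. -/
def window (μ η : ℝ) (k : ℕ) (t : ℝ) : ℝ :=
  max 0 (min 1 ((t - (μ - η / 2 ^ k)) * (2 ^ (k + 1) / η)))

theorem continuous_window (μ η : ℝ) (k : ℕ) : Continuous (window μ η k) := by
  unfold window; fun_prop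

theorem window_nonneg (μ η : ℝ) (k : ℕ) (t : ℝ) : 0 ≤ window μ η k t := le_max_left _ _

theorem window_le_one (μ η : ℝ) (k : ℕ) (t : ℝ) : window μ η k t ≤ 1 :=
  max_le zero_le_one (min_le_left _ _)

theorem window_self (μ : ℝ) {η : ℝ} (hη : 0 < η) (k : ℕ) : window μ η k μ = 1 := by
  have : (μ - (μ - η / 2 ^ k)) * (2 ^ (k + 1) / η) = 2 := by
    field_simp; ring
  rw [window, this]; norm_num

theorem lt_of_window_ne_zero {μ η : ℝ} (hη : 0 < η) {k : ℕ} {t : ℝ} (h : window μ η k t ≠ 0) :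
    μ - η / 2 ^ k < t := by
  by_contra hc
  have : (t - (μ - η / 2 ^ k)) * (2 ^ (k + 1) / η) ≤ 0 :=
    mul_nonpos_of_nonpos_of_nonneg (by linarith [not_lt.1 hc]) (by positivity)
  exact h (max_eq_left ((min_le_right _ _).trans this))

theorem window_mul_succ {μ η : ℝ} (hη : 0 < η) (k : ℕ) (t : ℝ) :
    window μ η k t * window μ η (k + 1) t = window μ η (k + 1) t := by
  by_cases h : window μ η (k + 1) t = 0
  · rw [h, mul_zero]
  have ht := lt_of_window_ne_zero hη h
  have h2 : η / 2 ^ k = 2 * (η / 2 ^ (k + 1)) := by rw [pow_succ]; ring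
  have h1 : 1 ≤ (t - (μ - η / 2 ^ k)) * (2 ^ (k + 1) / η) := by
    have h3 : η / 2 ^ (k + 1) ≤ t - (μ - η / 2 ^ k) := by linarith
    refine le_trans (le_of_eq ?_) (mul_le_mul_of_nonneg_right h3 (by positivity))
    field_simp
  have : window μ η k t = 1 := by rw [window, min_eq_left h1, max_eq_right zero_le_one]
  rw [this, one_mul]

/-- An element at the top of the spectrum of `h`. -/
theorem exists_top [Nontrivial D] (S : StarSubalgebra ℂ D) [IsClosed (S : Set D)]
    {h : D} {η : ℝ} (hhS : h ∈ S) (hh0 : 0 ≤ h) (hM1 : 1 ≤ ‖h‖) (hη : 0 < η) (hη1 : η ≤ 1 / 2) :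
    ∃ q ∈ S, 0 ≤ q ∧ ‖q‖ = 1 ∧ ‖q * h * q - ‖h‖ • (q * q)‖ ≤ η ∧
      (‖h‖ - η) • (q * q) ≤ q * h * q ∧ ∀ v : D, (1 - v) * h = 0 → v * q = q := by
  have hhs : IsSelfAdjoint h := .of_nonneg hh0
  set M := ‖h‖ with hM
  have hMmem : M ∈ spectrum ℝ h := CStarAlgebra.norm_mem_spectrum_of_nonneg hh0
  set F : ℝ → ℝ := fun t => max 0 (1 - |t - M| / η) with hF
  have hFc : Continuous F := by fun_prop
  have hF0 : ∀ t, 0 ≤ F t := fun t => le_max_left _ _
  have hF1 : ∀ t, F t ≤ 1 := fun t =>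
    max_le zero_le_one (by linarith [div_nonneg (abs_nonneg (t - M)) hη.le])
  have hFz : F 0 = 0 := max_eq_left (by
    rw [sub_nonpos, one_le_div hη, zero_sub, abs_neg, abs_of_nonneg (norm_nonneg h)]
    linarith)
  have hFsupp : ∀ t, F t ≠ 0 → |t - M| < η := by
    intro t ht
    by_contra hc'
    exact ht (max_eq_left (by rw [sub_nonpos, one_le_div hη]; exact not_lt.1 hc'))
  set q := cfc F h with hq
  have hq0 : 0 ≤ q := cfc_nonneg fun t _ => hF0 t
  have hqs : IsSelfAdjoint q := .of_nonneg hq0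
  have hqn : ‖q‖ = 1 := le_antisymm
    (norm_cfc_le zero_le_one fun t _ => by
      rw [Real.norm_eq_abs, abs_of_nonneg (hF0 t)]; exact hF1 t)
    (by simpa [F] using norm_apply_le_norm_cfc (𝕜 := ℝ) F h hMmem hFc.continuousOn hhs)
  have hqS : q ∈ S := cfc_mem (𝕜' := ℂ) F hhS
  have hqq : ∀ (φ : ℝ → ℝ), Continuous φ →
      q * cfc φ h * q = cfc (fun t => F t * φ t * F t) h := fun φ hφ => by
    rw [hq, ← cfc_mul F φ h hFc.continuousOn hφ.continuousOn,
      ← cfc_mul (fun t => F t * φ t) F h (hFc.mul hφ).continuousOn hFc.continuousOn]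
  have hqhq : ‖q * h * q - M • (q * q)‖ ≤ η := by
    have e : q * h * q - M • (q * q) = q * cfc (fun t => t - M) h * q := by
      rw [cfc_sub _ _ h (by fun_prop) (by fun_prop), cfc_id' ℝ h hhs, cfc_const M h,
        Algebra.algebraMap_eq_smul_one]
      simp only [mul_sub, sub_mul, mul_smul_comm, smul_mul_assoc, mul_one]
    rw [e, hqq _ (by fun_prop)]
    refine norm_cfc_le hη.le fun t _ => ?_
    by_cases ht : F t = 0
    · simp [ht, hη.le]
    · rw [Real.norm_eq_abs, abs_mul, abs_mul, abs_of_nonneg (hF0 t)]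
      have := hFsupp t ht
      have h1 : F t * |t - M| ≤ 1 * η := mul_le_mul (hF1 t) this.le (abs_nonneg _) zero_le_one
      exact ((mul_le_mul h1 (hF1 t) (hF0 t) (by linarith)).trans (by linarith))
  have hlow : (M - η) • (q * q) ≤ q * h * q := by
    have e : (M - η) • (q * q) = q * cfc (fun _ : ℝ => M - η) h * q := by
      rw [cfc_const _ h, Algebra.algebraMap_eq_smul_one]
      simp only [mul_smul_comm, smul_mul_assoc, mul_one]
    have e' : q * h * q = q * cfc (fun t : ℝ => t) h * q := by rw [cfc_id' ℝ h hhs]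
    rw [e, e', hqq _ (by fun_prop), hqq _ (by fun_prop)]
    refine cfc_mono fun t _ => ?_
    by_cases ht : F t = 0
    · simp [ht]
    · have := hFsupp t ht
      rw [abs_lt] at this
      nlinarith [mul_nonneg (hF0 t) (hF0 t)]
  refine ⟨q, hqS, hq0, hqn, hqhq, hlow, fun v hv => ?_⟩
  have h2 := mul_cfc_of_mul_eq_zero hhs hv hFc
  rw [hFz, zero_smul, ← hq, sub_mul, one_mul, sub_eq_zero] at h2
  exact h2.symm

/-- The upper and lower bounds leave no room for `(1 - w) q`. -/
theorem norm_sub_mul_le_of_squeeze {w q : D} {M η : ℝ} (hws : IsSelfAdjoint w) (hw0 : 0 ≤ w)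
    (hwn : ‖w‖ ≤ 1) (hqs : IsSelfAdjoint q) (hqn : ‖q‖ = 1) (hη : 0 < η) (hM1 : 1 ≤ M)
    (h : (M - η) • (q * q) ≤ (M + η) • (q * w * (w * q))) :
    ‖q - w * q‖ ≤ Real.sqrt (2 * η) := by
  refine Real.le_sqrt_of_sq_le ?_
  rw [show q - w * q = (1 - w) * q by noncomm_ring]
  refine (sq_norm_one_sub_mul_le hw0 hwn hqs).trans ?_
  set X := q * (1 - w * w) * q with hX
  have hX0 : 0 ≤ X := by
    have := star_left_conjugate_nonneg (sub_nonneg.2 (mul_self_le_one hws hwn)) q
    rwa [hqs.star_eq] at this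
  have h1 : (M + η) • X ≤ (2 * η) • (q * q) := by
    rw [← sub_nonneg]
    refine (sub_nonneg.2 h).trans_eq ?_
    rw [hX, show q * (1 - w * w) * q = q * q - q * w * (w * q) by noncomm_ring, smul_sub,
      show (2 * η) • (q * q) = (M + η) • (q * q) - (M - η) • (q * q) by
        rw [← sub_smul]; congr 1; ring]
    abel
  have h2 := CStarAlgebra.norm_le_norm_of_nonneg_of_le
    (smul_nonneg (by linarith) hX0) h1
  rw [norm_smul, norm_smul, Real.norm_eq_abs, Real.norm_eq_abs,
    abs_of_pos (by linarith : (0 : ℝ) < M + η), abs_of_pos (by linarith : (0 : ℝ) < 2 * η)] at h2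
  have h3 : ‖q * q‖ ≤ 1 := (norm_mul_le _ _).trans (by rw [hqn, one_mul])
  nlinarith [norm_nonneg X]

/-- An element under the top of `d` excising `c`. -/
theorem exists_excising [Nontrivial D] (S : StarSubalgebra ℂ D) [IsClosed (S : Set D)]
    {c d : D} {L μ η : ℝ} (hcS : c ∈ S) (hdS : d ∈ S) (hc1 : 1 ≤ c) (hcL : ‖c‖ ≤ L)
    (hd : IsSelfAdjoint d) (hdn : ‖d‖ ≤ μ) (hμ : μ ∈ spectrum ℝ d) (hη : 0 < η) (hη1 : η ≤ 1 / 2) :
    ∃ q ∈ S, 0 ≤ q ∧ ‖q‖ = 1 ∧ ∃ M : ℝ,
      ‖q * c * q - M • (q * q)‖ ≤ η + 2 * L * Real.sqrt (2 * η) ∧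
      ‖q * d * q - μ • (q * q)‖ ≤ η := by
  have hc0 : 0 ≤ c := zero_le_one.trans hc1
  have hL : 0 ≤ L := (norm_nonneg _).trans hcL
  set u : ℕ → D := fun k => cfc (window μ η k) d with hu
  have hus : ∀ k, IsSelfAdjoint (u k) := fun k => cfc_predicate _ _
  have hu0 : ∀ k, 0 ≤ u k := fun k => cfc_nonneg fun t _ => window_nonneg _ _ _ t
  have hun : ∀ k, ‖u k‖ = 1 := fun k => le_antisymm
    (norm_cfc_le zero_le_one fun t _ => by
      rw [Real.norm_eq_abs, abs_of_nonneg (window_nonneg _ _ _ _)]; exact window_le_one _ _ _ _)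
    (by
      have := norm_apply_le_norm_cfc (𝕜 := ℝ) (window μ η k) d hμ
        (continuous_window μ η k).continuousOn hd
      simpa [window_self μ hη] using this)
  have huu : ∀ k, u k * u (k + 1) = u (k + 1) := fun k => by
    rw [hu, ← cfc_mul _ _ d (continuous_window _ _ _).continuousOn
      (continuous_window _ _ _).continuousOn]
    exact cfc_congr fun t _ => window_mul_succ hη k t
  have huu' : ∀ k, u (k + 1) * u k = u (k + 1) := fun k => by
    have := congrArg star (huu k)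
    rwa [star_mul, (hus k).star_eq, (hus (k + 1)).star_eq] at this
  set m : ℕ → ℝ := fun k => ‖u k * c * u k‖ with hm
  have hcomp : ∀ k, u (k + 1) * c * u (k + 1) =
      u (k + 1) * (u k * c * u k) * u (k + 1) := fun k => by
    rw [show u (k + 1) * (u k * c * u k) * u (k + 1) =
      u (k + 1) * u k * c * (u k * u (k + 1)) by noncomm_ring, huu' k, huu k]
  obtain ⟨k, hk⟩ : ∃ k, m k ≤ m (k + 1) + η := by
    by_contra hc'
    push Not at hc'
    have hdec : ∀ n : ℕ, m n ≤ m 0 - n * η := by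
      intro n
      induction n with
      | zero => simp
      | succ n ih => push_cast; linarith [hc' n]
    obtain ⟨n, hn⟩ := exists_nat_gt (m 0 / η)
    rw [div_lt_iff₀ hη] at hn
    linarith [hdec n, norm_nonneg (u n * c * u n)]
  set v := u k with hv
  set w := u (k + 1) with hw
  set h := w * c * w with hh
  set M := ‖h‖ with hM
  have hh0 : 0 ≤ h := by
    have := star_left_conjugate_nonneg hc0 w
    rwa [(hus (k + 1)).star_eq] at this
  have hhs : IsSelfAdjoint h := .of_nonneg hh0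
  have hM1 : 1 ≤ M := by
    have h1 : star w * 1 * w ≤ star w * c * w := star_left_conjugate_le_conjugate hc1 w
    rw [mul_one] at h1
    have h2 := CStarAlgebra.norm_le_norm_of_nonneg_of_le (star_mul_self_nonneg w) h1
    rw [CStarRing.norm_star_mul_self, hun (k + 1), mul_one, (hus (k + 1)).star_eq] at h2
    exact h2
  have hhS : h ∈ S := mul_mem (mul_mem (cfc_mem (𝕜' := ℂ) (window μ η (k + 1)) hdS) hcS)
      (cfc_mem (𝕜' := ℂ) (window μ η (k + 1)) hdS)
  obtain ⟨q, hqS, hq0, hqn, hqhq, hlow, hfix⟩ := exists_top S hhS hh0 hM1 hη hη1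
  have hqs : IsSelfAdjoint q := .of_nonneg hq0
  have hup : q * h * q ≤ (M + η) • (q * w * (w * q)) := by
    have h1 : v * c * v ≤ algebraMap ℝ D (M + η) := by
      have hvs : IsSelfAdjoint (v * c * v) := by
        have := (IsSelfAdjoint.of_nonneg hc0).conjugate v
        rwa [(hus k).star_eq] at this
      exact hvs.le_algebraMap_norm_self.trans (algebraMap_mono D hk)
    have h2 := star_left_conjugate_le_conjugate h1 (w * q)
    have e1 : star (w * q) * (v * c * v) * (w * q) = q * h * q := by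
      rw [star_mul, hqs.star_eq, (hus (k + 1)).star_eq, hh, hcomp k]; noncomm_ring
    rw [e1] at h2
    refine h2.trans_eq ?_
    rw [Algebra.algebraMap_eq_smul_one, star_mul, hqs.star_eq, (hus (k + 1)).star_eq]
    simp only [hw, mul_smul_comm, smul_mul_assoc, mul_one]
  have hwq : ‖q - w * q‖ ≤ Real.sqrt (2 * η) :=
    norm_sub_mul_le_of_squeeze (hus (k + 1)) (hu0 _) (hun _).le hqs hqn hη hM1 (hlow.trans hup)
  have hqw : ‖q - q * w‖ ≤ Real.sqrt (2 * η) := by
    rw [← norm_star, star_sub, star_mul, hqs.star_eq, (hus (k + 1)).star_eq]; exact hwq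
  have hvq : v * q = q := by
    have h1 : (1 - v) * h = 0 := by
      rw [hh, sub_mul, one_mul, ← mul_assoc v, ← mul_assoc v, hv, hw, huu k, sub_self]
    exact hfix v h1
  refine ⟨q, hqS, hq0, hqn, M, ?_, ?_⟩
  · have e : q * c * q - M • (q * q) = (q - q * w) * c * q + q * w * c * (q - w * q)
        + (q * h * q - M • (q * q)) := by
      rw [hh]; noncomm_ring
    rw [e]
    have h1 : ‖(q - q * w) * c * q‖ ≤ Real.sqrt (2 * η) * L * 1 :=
      norm_mul_le_of_le (norm_mul_le_of_le hqw hcL) hqn.le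
    have h2 : ‖q * w * c * (q - w * q)‖ ≤ 1 * 1 * L * Real.sqrt (2 * η) :=
      norm_mul_le_of_le (norm_mul_le_of_le (norm_mul_le_of_le hqn.le (hun _).le) hcL) hwq
    refine (norm_add₃_le).trans ?_
    linarith
  · have h1 : ‖(d - algebraMap ℝ D μ) * v‖ ≤ η := by
      have : (d - algebraMap ℝ D μ) * v = cfc (fun t => (t - μ) * window μ η k t) d := by
        rw [hv, hu, cfc_mul _ _ d (by fun_prop) (continuous_window _ _ _).continuousOn,
          cfc_sub _ _ d (by fun_prop) (by fun_prop), cfc_id' ℝ d hd, cfc_const μ d]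
      rw [this]
      refine norm_cfc_le hη.le fun t ht => ?_
      by_cases h0 : window μ η k t = 0
      · simp [h0, hη.le]
      · have hlt := lt_of_window_ne_zero hη h0
        have hle : η / 2 ^ k ≤ η := div_le_self hη.le (one_le_pow₀ one_le_two)
        have htμ : t ≤ μ :=
          (le_abs_self t).trans ((spectrum.norm_le_norm_of_mem ht).trans hdn)
        rw [Real.norm_eq_abs, abs_mul, abs_of_nonneg (window_nonneg _ _ _ _),
          abs_of_nonpos (by linarith)]
        exact (mul_le_of_le_one_right (by linarith) (window_le_one _ _ _ _)).trans (by linarith)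
    have e : q * d * q - μ • (q * q) = q * ((d - algebraMap ℝ D μ) * v) * q := by
      rw [Algebra.algebraMap_eq_smul_one,
        show q * ((d - μ • (1 : D)) * v) * q = q * (d - μ • (1 : D)) * (v * q) by noncomm_ring,
        hvq]
      simp only [mul_sub, sub_mul, mul_smul_comm, smul_mul_assoc, mul_one]
    rw [e]
    exact (norm_mul_le_of_le (norm_mul_le_of_le hqn.le h1) hqn.le).trans_eq (by ring)

omit [PartialOrder D] [StarOrderedRing D] in
theorem norm_algebraMap_le (r : ℝ) : ‖algebraMap ℝ D r‖ ≤ |r| := by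
  rcases subsingleton_or_nontrivial D with hD | hD
  · simp [Subsingleton.elim (algebraMap ℝ D r) 0]
  · rw [norm_algebraMap', Real.norm_eq_abs]

/-- A self-adjoint element moved by `g` gives a positive `q` of norm one with `‖q g q‖ < 1`. -/
theorem exists_norm_mul_map_lt_one [Nontrivial D] (φ : D →⋆ₐ[ℂ] D) (S : StarSubalgebra ℂ D)
    [IsClosed (S : Set D)] {c₀ : D} (hc : IsSelfAdjoint c₀) (hcS : c₀ ∈ S)
    (hφS : φ c₀ ∈ S) (hne : φ c₀ ≠ c₀) :
    ∃ q ∈ S, 0 ≤ q ∧ ‖q‖ = 1 ∧ ‖q * φ q‖ < 1 := by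
  set μ := ‖c₀ - φ c₀‖ with hμdef
  have hμ : 0 < μ := norm_pos_iff.2 (sub_ne_zero.2 (Ne.symm hne))
  obtain ⟨c₁, hc₁, hc₁S, hφ₁S, hc₁n, hspec, hnorm⟩ : ∃ c₁ : D, IsSelfAdjoint c₁ ∧ c₁ ∈ S ∧
      φ c₁ ∈ S ∧ ‖c₁‖ = ‖c₀‖ ∧ μ ∈ spectrum ℝ (c₁ - φ c₁) ∧ ‖c₁ - φ c₁‖ = μ := by
    rcases CStarAlgebra.norm_or_neg_norm_mem_spectrum (hc.sub (hc.map φ)) with h | h
    · exact ⟨c₀, hc, hcS, hφS, rfl, h, rfl⟩
    · refine ⟨-c₀, hc.neg, neg_mem hcS, by rw [map_neg]; exact neg_mem hφS, norm_neg _, ?_, ?_⟩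
      · rw [map_neg, ← neg_sub', ← spectrum.neg_eq, Set.mem_neg]
        exact h
      · rw [map_neg, ← neg_sub', norm_neg]
  set r := ‖c₀‖ + 1 with hr
  set c := c₁ + algebraMap ℝ D r with hcdef
  set L := 2 * ‖c₀‖ + 1 with hLdef
  have hL : 0 ≤ L := by positivity
  have hcL : ‖c‖ ≤ L := by
    refine (norm_add_le _ _).trans ?_
    have := norm_algebraMap_le (D := D) r
    rw [abs_of_pos (by positivity : (0 : ℝ) < r)] at this
    linarith
  have hc1 : 1 ≤ c := by
    have h := hc₁.neg_algebraMap_norm_le_self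
    rw [hc₁n] at h
    rw [hcdef, hr, map_add, map_one, ← add_assoc]
    refine le_add_of_nonneg_left ?_
    rwa [← neg_le_iff_add_nonneg]
  have hmapA : φ (algebraMap ℝ D r) = algebraMap ℝ D r := by
    rw [Algebra.algebraMap_eq_smul_one, ← Complex.coe_smul, map_smul, map_one]
  have hrS : algebraMap ℝ D r ∈ S := by
    rw [Algebra.algebraMap_eq_smul_one, ← Complex.coe_smul]
    exact S.smul_mem (one_mem S) _
  have hcmemS : c ∈ S := add_mem hc₁S hrS
  have hφc : φ c = φ c₁ + algebraMap ℝ D r := by rw [hcdef, map_add, hmapA]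
  have hd : c₁ - φ c₁ = c - φ c := by rw [hφc, hcdef]; abel
  set x := min (1 / 2) (μ / (5 + 5 * L)) with hx
  have hx0 : 0 < x := lt_min (by norm_num) (div_pos hμ (by positivity))
  have hxh : x ≤ 1 / 2 := min_le_left _ _
  have hxμ : x * (5 + 5 * L) ≤ μ := (le_div_iff₀ (by positivity)).1 (min_le_right _ _)
  have hη : x ^ 2 / 2 ≤ x := by nlinarith
  obtain ⟨q, hqS, hq0, hqn, M, hqc, hqd⟩ := exists_excising S (L := L) (μ := μ) (η := x ^ 2 / 2)
    hcmemS (sub_mem hc₁S hφ₁S) hc1 hcL (hc₁.sub (hc₁.map φ)) hnorm.le hspec (by positivity)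
    (by nlinarith)
  have hs : Real.sqrt (2 * (x ^ 2 / 2)) = x := by
    rw [show 2 * (x ^ 2 / 2) = x ^ 2 by ring, Real.sqrt_sq hx0.le]
  rw [hs] at hqc
  refine ⟨q, hqS, hq0, hqn, ?_⟩
  refine norm_mul_lt_one (y := φ c) (a := M - μ) (b := M) (R := x * (2 + 2 * L))
    (map_nonneg φ hq0) ((NonUnitalStarAlgHom.norm_apply_le φ q).trans hqn.le) hq0 hqn.le ?_ ?_ ?_
  · have e : q * φ c * q - (M - μ) • (q * q) =
        (q * c * q - M • (q * q)) - (q * (c₁ - φ c₁) * q - μ • (q * q)) := by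
      rw [hd, sub_smul]; noncomm_ring
    rw [e]
    refine (norm_sub_le _ _).trans ?_
    linarith
  · have e : φ q * φ c * φ q - M • (φ q * φ q) = φ (q * c * q - M • (q * q)) := by
      rw [map_sub, map_mul, map_mul, ← Complex.coe_smul, ← Complex.coe_smul M (q * q), map_smul,
        map_mul]
    rw [e]
    refine (NonUnitalStarAlgHom.norm_apply_le φ _).trans (hqc.trans ?_)
    nlinarith
  · rw [sub_sub_cancel_left, abs_neg, abs_of_pos hμ]
    nlinarith

end Algebra

section Sequences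

variable {A : Type u} [CStarAlgebra A]

/-- A central sequence moved by an automorphism, in the quotient. -/
theorem exists_moved [TopologicalSpace.SeparableSpace A] {G : Type v} [Group G]
    (α : G →* (A ≃⋆ₐ[ℂ] A)) {g : G} (hg : ¬ActsTrivially α g) :
    ∃ c ∈ centSub A atTop, IsSelfAdjoint c ∧ seqAct atTop (α g : A →⋆ₐ[ℂ] A) c ≠ c := by
  classical
  unfold ActsTrivially at hg
  push Not at hg
  obtain ⟨ε, hε, hbad⟩ := hg
  set d := TopologicalSpace.denseSeq A with hd
  have hz : ∀ n : ℕ, ∃ z : A, ‖z‖ ≤ 1 ∧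
      (∀ i ≤ n, ‖d i * z - z * d i‖ ≤ 1 / (n + 1)) ∧ ε < ‖α g z - z‖ := fun n => by
    obtain ⟨z, hz1, hz2, hz3⟩ := hbad ((Finset.range (n + 1)).image d) (1 / (n + 1)) (by positivity)
    exact ⟨z, hz1, fun i hi =>
      hz2 _ (Finset.mem_image_of_mem d (Finset.mem_range.2 (Nat.lt_succ_of_le hi))), hz3⟩
  choose z hz1 hz2 hz3 using hz
  set f := bseq z 1 hz1 with hf
  have hcent : seqMk A atTop f ∈ centSub A atTop := by
    rw [mem_centSub]
    intro a
    rw [Metric.tendsto_nhds]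
    intro r hr
    obtain ⟨b, ⟨i, rfl⟩, hb⟩ := Metric.mem_closure_iff.1
      ((TopologicalSpace.denseRange_denseSeq A) a) (r / 4) (by positivity)
    obtain ⟨N, hN⟩ := exists_nat_one_div_lt (show (0 : ℝ) < r / 4 by positivity)
    refine eventually_atTop.2 ⟨max i N, fun n hn => ?_⟩
    rw [dist_eq_norm] at hb
    rw [dist_zero_right, norm_norm, bseq_apply]
    have h1 : ‖d i * z n - z n * d i‖ ≤ 1 / ((n : ℝ) + 1) := hz2 n i ((le_max_left _ _).trans hn)
    have h2 : (1 : ℝ) / (n + 1) ≤ 1 / (N + 1) := by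
      refine one_div_le_one_div_of_le (by positivity) ?_
      exact_mod_cast Nat.succ_le_succ ((le_max_right i N).trans hn)
    have e : a * z n - z n * a =
        (a - d i) * z n - z n * (a - d i) + (d i * z n - z n * d i) := by noncomm_ring
    rw [e]
    have h3 : ‖(a - d i) * z n‖ ≤ r / 4 * 1 := norm_mul_le_of_le hb.le (hz1 n)
    have h4 : ‖z n * (a - d i)‖ ≤ 1 * (r / 4) := norm_mul_le_of_le (hz1 n) hb.le
    have h5 := norm_sub_le ((a - d i) * z n) (z n * (a - d i))
    have h6 := norm_add_le ((a - d i) * z n - z n * (a - d i)) (d i * z n - z n * d i)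
    linarith
  set φ := seqAct atTop (α g : A →⋆ₐ[ℂ] A) with hφ
  have hne : φ (seqMk A atTop f) ≠ seqMk A atTop f := by
    intro h
    rw [hφ, seqAct_mk, seqMk_eq_iff] at h
    obtain ⟨n, hn⟩ := (h.eventually (gt_mem_nhds hε)).exists
    exact absurd hn (not_lt.2 (le_of_lt (by simpa [hf] using hz3 n)))
  set w := seqMk A atTop f
  by_contra hno
  push Not at hno
  have hre : φ (w + star w) = w + star w :=
    hno _ (add_mem hcent (star_mem hcent)) (IsSelfAdjoint.add_star_self w)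
  have him : φ (Complex.I • (w - star w)) = Complex.I • (w - star w) := by
    refine hno _ ((centSub A atTop).smul_mem (sub_mem hcent (star_mem hcent)) _) ?_
    rw [isSelfAdjoint_iff, star_smul, star_sub, star_star, Complex.star_def, Complex.conj_I,
      neg_smul, ← smul_neg, neg_sub]
  rw [map_smul] at him
  have him' : φ (w - star w) = w - star w := smul_right_injective _ Complex.I_ne_zero him
  refine hne ?_
  have e : w = (1 / 2 : ℂ) • ((w + star w) + (w - star w)) := by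
    rw [add_add_sub_cancel, ← two_smul ℂ w, smul_smul]; norm_num
  conv_lhs => rw [e]
  rw [map_smul, map_add, hre, him', ← e]

theorem seqAct_mem_centSub (e : A ≃⋆ₐ[ℂ] A) {x : SeqQuot A (atTop : Filter ℕ)}
    (hx : x ∈ centSub A atTop) : seqAct atTop (e : A →⋆ₐ[ℂ] A) x ∈ centSub A atTop := by
  obtain ⟨f, rfl⟩ := seqMk_surjective x
  rw [seqAct_mk, mem_centSub]
  intro a
  refine squeeze_zero (fun n => norm_nonneg _) (fun n => ?_) ((mem_centSub.1 hx) (e.symm a))
  have he : a * e (f n) - e (f n) * a = e (e.symm a * f n - f n * e.symm a) := by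
    rw [map_sub, map_mul, map_mul, e.apply_symm_apply]
  simp only [seqComp_apply]
  exact he ▸ NonUnitalStarAlgHom.norm_apply_le (e : A →⋆ₐ[ℂ] A) _

/-- Bumps whose overlap with their translates is bounded away from one. -/
theorem exists_bump_overlap [Nontrivial A] [TopologicalSpace.SeparableSpace A] {G : Type v}
    [Group G] (α : G →* (A ≃⋆ₐ[ℂ] A)) {g : G} (hg : ¬ActsTrivially α g) :
    ∃ κ : ℝ, 0 ≤ κ ∧ κ < 1 ∧ ∀ (X : Finset A) (θ : ℝ), 0 < θ →
      ∃ P : A, IsCentralBump X θ P ∧ ‖P * α g P‖ ≤ κ := by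
  obtain ⟨c, hcS, hcsa, hne⟩ := exists_moved α hg
  let _ : PartialOrder (SeqQuot A (atTop : Filter ℕ)) := CStarAlgebra.spectralOrder _
  let _ : StarOrderedRing (SeqQuot A (atTop : Filter ℕ)) := CStarAlgebra.spectralOrderedRing _
  have : Nontrivial (SeqQuot A (atTop : Filter ℕ)) := nontrivial_of_ne _ _ hne
  obtain ⟨q, hqS, hq0, hqn, hlt⟩ := exists_norm_mul_map_lt_one
    (seqAct atTop (α g : A →⋆ₐ[ℂ] A)) (centSub A atTop) hcsa hcS
    (seqAct_mem_centSub (α g) hcS) hne
  obtain ⟨s, hs⟩ := CStarAlgebra.nonneg_iff_eq_star_mul_self.1 hq0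
  obtain ⟨f, rfl⟩ := seqMk_surjective s
  set m := ‖q * seqAct atTop (α g : A →⋆ₐ[ℂ] A) q‖ with hm
  have hm0 : 0 ≤ m := norm_nonneg _
  set P := star f * f with hP
  have hPq : seqMk A atTop P = q := by rw [hs, map_mul, map_star]
  set ζ := (1 - m) / 8 with hζ
  refine ⟨(m + 1) / 2 / (1 - ζ) ^ 2, by positivity, ?_, fun X θ hθ => ?_⟩
  · rw [div_lt_one (by nlinarith)]; nlinarith
  have hbig : ∃ᶠ n in atTop, 1 - ζ < ‖P n‖ := by
    intro hev
    simp only [not_lt] at hev
    obtain ⟨N, hN⟩ := eventually_atTop.1 hev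
    set P' := bseq (fun n => if N ≤ n then P n else 0) (1 - ζ) fun n => by
      split_ifs with h
      · exact hN n h
      · rw [norm_zero]; linarith
    have e : seqMk A atTop P' = q := by
      rw [← hPq, seqMk_eq_iff]
      refine tendsto_const_nhds.congr' ?_
      filter_upwards [eventually_ge_atTop N] with n hn
      simp [P', hn]
    have hPn : ‖P'‖ ≤ 1 - ζ := (BoundedContinuousFunction.norm_le (by linarith)).2 fun n => by
      simp only [P', bseq_apply]
      split_ifs with h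
      · exact hN n h
      · rw [norm_zero]; linarith
    have h1 : ‖seqMk A atTop P'‖ ≤ 1 - ζ := (norm_seqMk_le P').trans hPn
    rw [e, hqn] at h1
    linarith
  have hsm := eventually_norm_le (P * seqComp (α g : A →⋆ₐ[ℂ] A) P)
    (show m < (m + 1) / 2 by linarith) (by rw [map_mul, ← seqAct_mk, hPq])
  have hcen : ∀ᶠ n in atTop, ∀ x ∈ X, ‖x * P n - P n * x‖ ≤ θ * (1 - ζ) := by
    rw [Filter.eventually_all_finset]
    intro x _
    have hx := mem_centSub.1 (show seqMk A atTop P ∈ centSub A atTop by rw [hPq]; exact hqS) x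
    exact hx.eventually (eventually_le_nhds (mul_pos hθ (by linarith)))
  obtain ⟨n, hn1, hn2, hn3⟩ := (hbig.and_eventually (hsm.and hcen)).exists
  set a := ‖P n‖ with ha
  have ha0 : 0 < a := by linarith
  set t : ℂ := ((a⁻¹ : ℝ) : ℂ) with ht
  have htn : ‖t‖ = a⁻¹ := by
    rw [ht, Complex.norm_real, Real.norm_eq_abs, abs_of_pos (inv_pos.2 ha0)]
  refine ⟨t • P n, ⟨⟨((Real.sqrt a⁻¹ : ℝ) : ℂ) • f n, ?_⟩, ?_, fun x hx => ?_⟩, ?_⟩
  · rw [star_smul, smul_mul_smul_comm, Complex.star_def, Complex.conj_ofReal,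
      ← Complex.ofReal_mul, Real.mul_self_sqrt (inv_nonneg.2 ha0.le)]
    rfl
  · rw [norm_smul, htn, ← ha, inv_mul_cancel₀ ha0.ne']
  · rw [mul_smul_comm, smul_mul_assoc, ← smul_sub, norm_smul, htn, inv_mul_le_iff₀ ha0]
    nlinarith [hn3 x hx]
  · have hn2' : ‖P n * α g (P n)‖ ≤ (m + 1) / 2 := by simpa using hn2
    rw [map_smul, smul_mul_smul_comm, norm_smul, norm_mul, htn]
    rw [← mul_inv, inv_mul_le_iff₀ (by positivity)]
    refine hn2'.trans ?_
    rw [mul_div_assoc', le_div_iff₀ (by nlinarith)]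
    refine le_trans (le_of_eq (mul_comm _ _)) (mul_le_mul_of_nonneg_right ?_ (by positivity))
    nlinarith

end Sequences

section Bumps

variable {A : Type u} [CStarAlgebra A]

/-- A positive element scaled to norm one. -/
theorem exists_normalised {N : A} (hN : IsPos N) (h0 : 0 < ‖N‖) :
    ∃ s : ℂ, IsPos (s • N) ∧ ‖s • N‖ = 1 ∧ ‖s‖ = ‖N‖⁻¹ := by
  obtain ⟨w, hw⟩ := hN
  have hn : ‖((‖N‖⁻¹ : ℝ) : ℂ)‖ = ‖N‖⁻¹ := by
    rw [Complex.norm_real, Real.norm_eq_abs, abs_of_pos (inv_pos.2 h0)]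
  refine ⟨((‖N‖⁻¹ : ℝ) : ℂ), ⟨((Real.sqrt ‖N‖⁻¹ : ℝ) : ℂ) • w, ?_⟩, ?_, hn⟩
  · rw [star_smul, smul_mul_smul_comm, Complex.star_def, Complex.conj_ofReal,
      ← Complex.ofReal_mul, Real.mul_self_sqrt (inv_nonneg.2 h0.le), ← hw]
  · rw [norm_smul, hn, inv_mul_cancel₀ h0.ne']

/-- Overlaps of products of almost commuting contractions multiply. -/
theorem norm_product_overlap_le {R S P T : A} {t r κ : ℝ} (hR : ‖R‖ ≤ 1) (hS : ‖S‖ ≤ 1)
    (hP : ‖P‖ ≤ 1) (hT : ‖T‖ ≤ 1) (hPR : ‖R * P - P * R‖ ≤ t) (hPS : ‖S * P - P * S‖ ≤ t)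
    (hTS : ‖S * T - T * S‖ ≤ t) (hRS : ‖R * S‖ ≤ r) (hPT : ‖P * T‖ ≤ κ) :
    ‖R * P * R * (S * T * S)‖ ≤ r * κ + 6 * t := by
  have hPR' : ‖P * R - R * P‖ ≤ t := by rwa [norm_sub_rev]
  have hPS' : ‖P * S - S * P‖ ≤ t := by rwa [norm_sub_rev]
  have hTS' : ‖T * S - S * T‖ ≤ t := by rwa [norm_sub_rev]
  have e : R * P * R * (S * T * S) =
      (R * P - P * R) * R * (S * T * S) + P * R * R * S * (T * S - S * T)
      + (P * R - R * P) * R * S * S * T + R * (P * R - R * P) * S * S * T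
      + R * R * (P * S - S * P) * S * T + R * R * S * (P * S - S * P) * T
      + R * (R * S) * S * (P * T) := by
    noncomm_ring
  have k1 : ‖(R * P - P * R) * R * (S * T * S)‖ ≤ t * 1 * (1 * 1 * 1) :=
    norm_mul_le_of_le (norm_mul_le_of_le hPR hR)
      (norm_mul_le_of_le (norm_mul_le_of_le hS hT) hS)
  have k2 : ‖P * R * R * S * (T * S - S * T)‖ ≤ 1 * 1 * 1 * 1 * t :=
    norm_mul_le_of_le (norm_mul_le_of_le
      (norm_mul_le_of_le (norm_mul_le_of_le hP hR) hR) hS) hTS'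
  have k3 : ‖(P * R - R * P) * R * S * S * T‖ ≤ t * 1 * 1 * 1 * 1 :=
    norm_mul_le_of_le (norm_mul_le_of_le
      (norm_mul_le_of_le (norm_mul_le_of_le hPR' hR) hS) hS) hT
  have k4 : ‖R * (P * R - R * P) * S * S * T‖ ≤ 1 * t * 1 * 1 * 1 :=
    norm_mul_le_of_le (norm_mul_le_of_le
      (norm_mul_le_of_le (norm_mul_le_of_le hR hPR') hS) hS) hT
  have k5 : ‖R * R * (P * S - S * P) * S * T‖ ≤ 1 * 1 * t * 1 * 1 :=
    norm_mul_le_of_le (norm_mul_le_of_le
      (norm_mul_le_of_le (norm_mul_le_of_le hR hR) hPS') hS) hT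
  have k6 : ‖R * R * S * (P * S - S * P) * T‖ ≤ 1 * 1 * 1 * t * 1 :=
    norm_mul_le_of_le (norm_mul_le_of_le
      (norm_mul_le_of_le (norm_mul_le_of_le hR hR) hS) hPS') hT
  have k7 : ‖R * (R * S) * S * (P * T)‖ ≤ 1 * r * 1 * κ :=
    norm_mul_le_of_le (norm_mul_le_of_le (norm_mul_le_of_le hR hRS) hS) hPT
  rw [e]
  refine (norm_add_le_of_le (norm_add_le_of_le (norm_add_le_of_le (norm_add_le_of_le
    (norm_add_le_of_le (norm_add_le_of_le k1 k2) k3) k4) k5) k6) k7).trans ?_
  simp only [one_mul, mul_one]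
  linarith

/-- The commutator of `R * P * R`. -/
theorem norm_comm_product_le {R P x : A} {a b : ℝ} (hR : ‖R‖ ≤ 1) (hP : ‖P‖ ≤ 1)
    (hxR : ‖x * R - R * x‖ ≤ a) (hxP : ‖x * P - P * x‖ ≤ b) :
    ‖x * (R * P * R) - R * P * R * x‖ ≤ 2 * a + b := by
  have e : x * (R * P * R) - R * P * R * x =
      (x * R - R * x) * P * R + R * (x * P - P * x) * R + R * P * (x * R - R * x) := by
    noncomm_ring
  rw [e]
  refine (norm_add_le_of_le (norm_add_le_of_le
    (norm_mul_le_of_le (norm_mul_le_of_le hxR hP) hR)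
    (norm_mul_le_of_le (norm_mul_le_of_le hR hxP) hR))
    (norm_mul_le_of_le (norm_mul_le_of_le hR hP) hxR)).trans ?_
  simp only [one_mul, mul_one]
  linarith

end Bumps

/-- The separation of a non-trivially acting element. -/
theorem separationStatement_of (hnp : NormProdStatement.{u}) : SeparationStatement.{u, v} := by
  intro A _ _ _ hA G _ α g hg X θ hθ
  classical
  obtain ⟨κ, hκ0, hκ1, hbump⟩ := exists_bump_overlap α hg
  set κ' := (1 + κ) / 2 with hκ'
  have hκ'0 : 0 < κ' := by positivity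
  have main : ∀ (j : ℕ) (X : Finset A) (θ : ℝ), 0 < θ →
      ∃ R : A, IsCentralBump X θ R ∧ ‖R * α g R‖ ≤ κ' ^ j := by
    intro j
    induction j with
    | zero =>
      intro X θ hθ
      refine ⟨1, ⟨⟨1, by simp⟩, CStarRing.norm_one, fun x _ => by simp [hθ.le]⟩, ?_⟩
      simp
    | succ j ih =>
      intro X θ hθ
      obtain ⟨R, ⟨hRp, hRn, hRX⟩, hRg⟩ := ih X (θ / 4) (by positivity)
      have hRs : star R = R := by
        obtain ⟨r, rfl⟩ := hRp; rw [star_mul, star_star]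
      set ε := (κ' - κ) / 4 with hεdef
      have hε : 0 < ε := div_pos (by linarith) (by norm_num)
      obtain ⟨Y, θ₁, hθ₁, hY⟩ := hnp A hA R hRp hRn ε hε
      set S := α g R with hS
      set t := min (min θ₁ (θ / 8)) ((κ' - κ) / 2 * κ' ^ j / 6) with htdef
      have ht : 0 < t := lt_min (lt_min hθ₁ (by positivity))
        (div_pos (mul_pos (div_pos (by linarith) two_pos) (pow_pos hκ'0 j)) (by norm_num))
      have ht1 : t ≤ θ₁ := (min_le_left _ _).trans (min_le_left _ _)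
      have ht2 : t ≤ θ / 8 := (min_le_left _ _).trans (min_le_right _ _)
      have ht3 : 6 * t ≤ (κ' - κ) / 2 * κ' ^ j := by
        linarith [min_le_right (min θ₁ (θ / 8)) ((κ' - κ) / 2 * κ' ^ j / 6)]
      obtain ⟨P, ⟨hPp, hPn, hPX⟩, hPg⟩ := hbump (X ∪ Y ∪ {R, S}) t ht
      have hN := hY P ⟨hPp, hPn, fun y hy =>
        (hPX y (Finset.mem_union_left _ (Finset.mem_union_right _ hy))).trans ht1⟩
      have hPR : ‖R * P - P * R‖ ≤ t :=
        hPX R (Finset.mem_union_right _ (by simp))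
      have hPS : ‖S * P - P * S‖ ≤ t :=
        hPX S (Finset.mem_union_right _ (by simp))
      set T := α g P with hT
      have hSn : ‖S‖ ≤ 1 :=
        (NonUnitalStarAlgHom.norm_apply_le (α g : A →⋆ₐ[ℂ] A) R).trans hRn.le
      have hTn : ‖T‖ ≤ 1 :=
        (NonUnitalStarAlgHom.norm_apply_le (α g : A →⋆ₐ[ℂ] A) P).trans hPn.le
      have hTS : ‖S * T - T * S‖ ≤ t := by
        rw [hS, hT, ← map_mul, ← map_mul, ← map_sub]
        exact (NonUnitalStarAlgHom.norm_apply_le (α g : A →⋆ₐ[ℂ] A) _).trans hPR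
      have ha0 : 0 < ‖R * P * R‖ := by linarith
      obtain ⟨s, hspos, hs1, hsn⟩ := exists_normalised
        (show IsPos (R * P * R) by
          obtain ⟨p, hp⟩ := hPp
          exact ⟨p * R, by rw [hp, star_mul, hRs]; simp only [mul_assoc]⟩) ha0
      refine ⟨s • (R * P * R), ⟨hspos, hs1, fun x hx => ?_⟩, ?_⟩
      · rw [mul_smul_comm, smul_mul_assoc, ← smul_sub, norm_smul, hsn, inv_mul_le_iff₀ ha0]
        refine (norm_comm_product_le hRn.le hPn.le (hRX x hx) ((hPX x
          (Finset.mem_union_left _ (Finset.mem_union_left _ hx))).trans ht2)).trans ?_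
        have h34 : 3 / 4 ≤ ‖R * P * R‖ := by linarith
        nlinarith
      · rw [map_smul, smul_mul_smul_comm, norm_smul, norm_mul, hsn, ← mul_inv,
          inv_mul_le_iff₀ (mul_pos ha0 ha0), pow_succ, map_mul, map_mul]
        have hp : 0 < κ' ^ j := pow_pos hκ'0 j
        have hκ'1 : κ' ≤ 1 := by linarith
        have ha2 : 1 - 2 * ε ≤ ‖R * P * R‖ * ‖R * P * R‖ := by nlinarith
        have hgoal : κ + (κ' - κ) / 2 ≤ (1 - 2 * ε) * κ' := by nlinarith
        refine (norm_product_overlap_le hRn.le hSn hPn.le hTn hPR hPS hTS hRg hPg).trans ?_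
        refine le_trans ?_ ((mul_le_mul_of_nonneg_left (hgoal.trans
          (mul_le_mul_of_nonneg_right ha2 hκ'0.le)) hp.le).trans_eq (by ring))
        linarith
  obtain ⟨j, hj⟩ := exists_pow_lt_of_lt_one hθ (show κ' < 1 by linarith)
  obtain ⟨R, hR, hRg⟩ := main j X θ hθ
  exact ⟨R, hR, hRg.trans hj.le⟩

end Vale.Agent.P095.Full
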